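import Vale.Agent.P011.Six.H359.Asm

/-!
From the choice of an element at the bad places to the statement used in the assembly.
-/

open NumberField IsDedekindDomain Module Filter Topology Matrix

set_option linter.unusedSectionVars false

namespace Vale.Agent.P011.Six.H359

open Vale.Agent.P011.Arith Vale.Agent.P011.Even Vale.Agent.P011.Two Vale.Agent.P011.MPQ
open Vale.Agent.P011.One Vale.Agent.P011.Pow

variable {k K D : Type} [Field k] [NumberField k] [Field K] [NumberField K] [StarRing K]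
  [DivisionRing D] [StarRing D] [Algebra k K] [Algebra k D] [Algebra K D] [IsScalarTower k K D]
  {d : kˣ} {s : K} {M : ℕ} {Ω : Type} [Field Ω] [Algebra K Ω]

/-- The statement on the choice of `κ`. -/
def ExNu (B : Basis (Fin M) k D) (f : D →ₐ[K] Matrix (Fin 6) (Fin 6) Ω) (d al be : kˣ)
    (i j : D) : Prop :=
  ∀ (S : Set (HeightOneSpectrum (𝓞 k))), S.Finite → ∀ η : HeightOneSpectrum (𝓞 k) → ℝ,
    (∀ v, 0 < η v) → ∀ e : ℕ, e ≠ 0 → ∃ κ : D, κ * star κ = 1 ∧ (f κ).det = 1 ∧ κ * i = i * κ ∧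
      κ * j = j * κ ∧ (∀ v ∈ S, nm B (.inl v) (κ ^ e - 1) < η v) ∧
      ∃ η' : Pl k → ℝ, (∀ p, 0 < η' p) ∧ ∀ x : D, (∀ p ∈ bad al be, nm B p (x - 1) < η' p) →
        ∀ (L : Type) [Field L] [Algebra k L] (ι : L →ₐ[k] D) (c : L), finrank k L = 3 →
          ι c = 2 + th j (x * κ ^ e) + (th j (x * κ ^ e))⁻¹ →
          ∃ e1 e2 e3 : k, (al : k) * e1 ^ 2 + be * e2 ^ 2 - al * be * e3 ^ 2 =
            d * Algebra.discr k (fun a : Fin 3 => c ^ (a : ℕ))

theorem nuAt_of_exNu (B : Basis (Fin M) k D) (f : D →ₐ[K] Matrix (Fin 6) (Fin 6) Ω) {al be : kˣ}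
    {i j : D} (h : ExNu B f d al be i j) (N : Subgroup (SUD f)) [N.Normal] (hN : N.index ≠ 0) :
    NuAt B f d s al be i j (Im N) := by
  classical
  intro S hS ε hε
  obtain ⟨κ, h1, h2, h3, -, h4, η', hη', h5⟩ := h S hS (fun _ => ε) (fun _ => hε) N.index hN
  have hpow : ∀ g : SUD f, g ^ N.index ∈ N := fun g => Subgroup.pow_index_mem _ g
  have hbf : (bad al be).Finite := bad_finite al be
  obtain ⟨θ, hθ, hθ'⟩ : ∃ θ : ℝ, 0 < θ ∧ ∀ p ∈ bad al be, θ ≤ η' p := by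
    obtain ⟨θ, hθ, h6⟩ := exists_le_all hbf.toFinset η' hη'
    exact ⟨θ, hθ, fun p hp => h6 p (hbf.mem_toFinset.mpr hp)⟩
  refine ⟨κ ^ N.index, pow_im hpow ⟨h1, h2⟩, ((show Commute κ i from h3).pow_left _).eq, h4,
    {v | (Sum.inl v : Pl k) ∈ bad al be}, hbf.preimage Sum.inl_injective.injOn, θ, hθ,
    fun x hxi hxx hxd hx1 hx2 L _ _ _ ι c t0 t1 q0 q1 a u z hD => ?_⟩
  refine h5 x (fun p hp => ?_) L ι c hD.rk hD.hc
  rcases p with v | φ
  · exact (hx1 v hp).trans_le (hθ' _ hp)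
  · refine (hx2 φ ?_).trans_le (hθ' _ hp)
    exact notMem_LSR.mp (notMem_LSp_of_bad hp)

/-- **Degree six**, from the choice of `κ`. -/
theorem pf_six_of_exNu (hS : Setting k K D d s) (hdeg : finrank K D = 6 ^ 2)
    (f : D →ₐ[K] Matrix (Fin 6) (Fin 6) Ω) (B : Basis (Fin M) k D) {al be : kˣ} {i j : D}
    (hF : Fr k al be i j) (h : ExNu B f d al be i j) (N : Subgroup (SUD f)) [N.Normal]
    (hN : N.index ≠ 0) : ∃ S : Set (Pl k), S.Finite ∧ PF B (GU f) (Im N) S :=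
  pf_six hS hdeg f B hF N hN (nuAt_of_exNu B f h N hN)

end Vale.Agent.P011.Six.H359
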