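import Vale.Agent.P011.One.SplitLT
import Vale.Agent.P011.One.TwoModel

/-!
Division algebras of degree three are split at the places where they are not division algebras.
-/

open Module NumberField IsDedekindDomain TensorProduct

set_option linter.unusedSectionVars false

namespace Vale.Agent.P011.Six.H359

open Vale.Agent.P011.Arith Vale.Agent.P011.Even Vale.Agent.P011.Two Vale.Agent.P011.One

variable {k K D : Type} [Field k] [NumberField k] [Field K] [NumberField K] [StarRing K]
  [DivisionRing D] [StarRing D] [Algebra k K] [Algebra k D] [Algebra K D] [IsScalarTower k K D]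
  {d : kˣ} {s : K}

/-- From the structure of the scalar extension to a splitting. -/
theorem exists_spl {F E : Type} [Field F] [Algebra K F] [DivisionRing E] [Algebra F E] {r : ℕ}
    (ψ : F ⊗[K] D ≃ₐ[F] Matrix (Fin r) (Fin r) E) (hr : r = 3) (hE : finrank F E = 1) :
    ∃ f : D →+* Matrix (Fin 3) (Fin 3) F,
      ∀ c : K, f (algebraMap K D c) = Matrix.scalar (Fin 3) (algebraMap K F c) := by
  subst hr
  have hb : Function.Bijective (algebraMap F E) := by
    have h1 : (⊥ : Subalgebra F E) = ⊤ := Subalgebra.bot_eq_top_iff_finrank_eq_one.mpr hE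
    refine ⟨(algebraMap F E).injective, fun y => ?_⟩
    have h2 : y ∈ (⊥ : Subalgebra F E) := h1 ▸ Algebra.mem_top
    exact Algebra.mem_bot.mp h2
  let ε : F ≃ₐ[F] E := AlgEquiv.ofBijective (Algebra.ofId F E) hb
  let g : F ⊗[K] D ≃ₐ[F] Matrix (Fin 3) (Fin 3) F := ψ.trans ε.symm.mapMatrix
  refine ⟨(g : F ⊗[K] D →+* Matrix (Fin 3) (Fin 3) F).comp
    (Algebra.TensorProduct.includeRight : D →ₐ[K] F ⊗[K] D).toRingHom, fun c => ?_⟩
  change g (1 ⊗ₜ[K] (algebraMap K D c)) = _
  have h1 : (1 : F) ⊗ₜ[K] (algebraMap K D c) = algebraMap F (F ⊗[K] D) (algebraMap K F c) := by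
    rw [Algebra.TensorProduct.algebraMap_apply, Algebra.algebraMap_eq_smul_one,
      TensorProduct.tmul_smul, TensorProduct.smul_tmul', Algebra.smul_def, mul_one]
    rfl
  rw [h1, AlgEquiv.commutes]
  rfl

/-- **Real places which split.** -/
theorem exists_spl_real3 (hS : Setting k K D d s) (hdeg : finrank K D = 3 ^ 2) (τ : k →+* ℝ)
    (hτ : 0 < τ d) : ∃ (φ : K →+* ℝ) (f : D →+* Matrix (Fin 3) (Fin 3) ℝ),
      (∀ c : k, φ (algebraMap k K c) = τ c) ∧
      ∀ c : K, f (algebraMap K D c) = Matrix.scalar (Fin 3) (φ c) := by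
  have hfD := hS.fin
  have hcen := hS.cen
  let _ : Algebra k ℝ := τ.toAlgebra
  obtain ⟨φ, -⟩ := exists_lift hS (F := ℝ) (θ := √(τ d)) (Real.sq_sqrt hτ.le)
  let _ : Algebra K ℝ := (φ : K →+* ℝ).toAlgebra
  have hφ : ∀ c : k, algebraMap K ℝ (algebraMap k K c) = τ c := fun c => φ.commutes c
  obtain ⟨r, hr0, E, _, _, _, _, ψ, hψ⟩ := P011S.exists_wed (E := ℝ) hdeg
  have h4 : finrank ℝ E ≤ 4 := finrank_le_four
  have h1 : 0 < finrank ℝ E := finrank_pos
  have hr : r = 3 ∧ finrank ℝ E = 1 := by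
    have hr3 : r ≤ 3 := by
      by_contra h
      have h5 : 4 ≤ r := by omega
      nlinarith
    interval_cases r <;> interval_cases h : finrank ℝ E <;> simp_all
  obtain ⟨f, hf⟩ := exists_spl (D := D) ψ hr.1 hr.2
  exact ⟨φ, f, hφ, hf⟩

/-- **Finite places which split.** -/
theorem exists_splAt3 (hS : Setting k K D d s) (hdeg : finrank K D = 3 ^ 2)
    (v : HeightOneSpectrum (𝓞 k)) (hv : d ∈ LS (v.valuation k))
    (hT : (Sum.inl v : Pl k) ∉ Tdiv k K D) :
    ∃ (φ : K →+* v.adicCompletion k) (f : D →+* Matrix (Fin 3) (Fin 3) (v.adicCompletion k)),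
      SplAt K D 3 v φ f := by
  have hfD := hS.fin
  have hcen := hS.cen
  obtain ⟨θ, hθ⟩ := (isSquare_iff v d).mpr hv
  obtain ⟨φ, -⟩ := exists_lift hS (F := v.adicCompletion k) (θ := θ) (by rw [hθ, sq])
  let _ : Algebra K (v.adicCompletion k) := (φ : K →+* v.adicCompletion k).toAlgebra
  have hφ : ∀ c : k, algebraMap K (v.adicCompletion k) (algebraMap k K c) =
      algebraMap k (v.adicCompletion k) c := fun c => φ.commutes c
  obtain ⟨r, hr0, E, _, _, _, _, ψ, hψ⟩ := P011S.exists_wed (E := v.adicCompletion k) hdeg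
  have hnu : ∃ x : v.adicCompletion k ⊗[K] D, x ≠ 0 ∧ ¬ IsUnit x := by
    by_contra hcon
    push Not at hcon
    exact hT ⟨v, rfl, φ, hcon⟩
  have hr2 := two_le_of_not_unit (ψ : v.adicCompletion k ⊗[K] D ≃+* Matrix (Fin r) (Fin r) E) hnu
  have hr : r = 3 ∧ finrank (v.adicCompletion k) E = 1 := by
    have h1 : 0 < finrank (v.adicCompletion k) E := by
      by_contra h
      have h5 : finrank (v.adicCompletion k) E = 0 := by omega
      rw [h5] at hψ
      simp at hψ
    have hr3 : r ≤ 3 := by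
      by_contra h
      have h5 : 4 ≤ r := by omega
      nlinarith
    have hr' : r = 2 ∨ r = 3 := by omega
    rcases hr' with rfl | rfl
    · omega
    · refine ⟨rfl, by omega⟩
  obtain ⟨f, hf⟩ := exists_spl (D := D) ψ hr.1 hr.2
  exact ⟨φ, f, hφ, hf⟩

end Vale.Agent.P011.Six.H359
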