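import Vale.Agent.P011.Six.H359.Core2

/-!
Degree six (helper359): the cubic relation of `θ = j x j⁻¹ x`.
-/

open Module NumberField Polynomial

set_option linter.unusedSectionVars false

namespace Vale.Agent.P011.Six.H359

open Vale.Agent.P011.Arith Vale.Agent.P011.Even Vale.Agent.P011.Two Vale.Agent.P011.One
  Vale.Agent.P011.Pow
open Vale.Agent.P011.W (HasNrd exists_maxfield hasNrd_norm hasNrd_of_det hasNrd_iff)

section cen

variable {k K D L K' C : Type} [Field k] [NumberField k] [Field K] [NumberField K] [StarRing K]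
    [DivisionRing D] [StarRing D] [Algebra k K] [Algebra k D] [Algebra K D] [IsScalarTower k K D]
    [Field L] [NumberField L] [Algebra k L] [Field K'] [NumberField K'] [StarRing K']
    [Algebra K K'] [DivisionRing C] [StarRing C] [Algebra L K'] [Algebra L C] [Algebra K' C]
    [IsScalarTower L K' C]
    {d : kˣ} {s : K} {t : D} {a : kˣ} {T : L} {jC : C →+* D} {al be : kˣ} {i j x : D}

/-- The cubic relation of `θ`, and `θ` is a norm. -/
theorem core (hS : Setting k K D d s) (hdeg : finrank K D = 6 ^ 2)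
    (h : IsCent k K D L K' C t a T jC) (hSC : Setting L K' C (inc k L d) (algebraMap K K' s))
    (hdC : finrank K' C = 3 ^ 2)
    (ht : t = algebraMap K D s * i) (hF : Fr k al be i j) (hxi : x * i = i * x)
    (hx : x * star x = 1)
    {Ω : Type} [Field Ω] [Algebra K Ω] (f : D →ₐ[K] Matrix (Fin 6) (Fin 6) Ω)
    (hdet : (f x).det = 1) :
    (∃ z : K, th j x = algebraMap K D z ∧ z ^ 3 = 1) ∨
    ∃ (a : K) (P Q : K[X]), th j x ^ 3 - algebraMap K D a * th j x ^ 2 +
        algebraMap K D (star a) * th j x - 1 = 0 ∧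
      (∀ b0 b1 b2 : K, algebraMap K D b0 + algebraMap K D b1 * th j x +
        algebraMap K D b2 * th j x ^ 2 = 0 → b0 = 0 ∧ b1 = 0 ∧ b2 = 0) ∧
      (aeval (th j x) P) ^ 2 - algebraMap k D al * (aeval (th j x) Q) ^ 2 = th j x := by
  have i1 := hS.fin
  have i2 := hS.cen
  have i3 := hSC.fin
  have i4 := hSC.cen
  have hK'c : CharZero K' := charZero_of_injective_algebraMap (algebraMap K K').injective
  have hx0 : x ≠ 0 := left_ne_zero_of_mul_eq_one hx
  have hj0 := hF.j_ne
  obtain ⟨σ, hσ, hσy⟩ := exists_sig hS h ht hF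
  obtain ⟨θ, hθ⟩ : ∃ θ, θ = th j x := ⟨_, rfl⟩
  obtain ⟨g, hg⟩ : ∃ g, g = gg j x := ⟨_, rfl⟩
  have hgi : g * i = -(i * g) := by rw [hg]; exact hF.gg_i hxi
  have hgθ : g * θ = θ * g := by rw [hg, hθ]; exact hF.gg_comm hx0
  have hgg : g * g * θ = algebraMap k D be := by rw [hg, hθ]; exact hF.gg_gg hx0
  have hg0 : g ≠ 0 := by rw [hg]; exact gg_ne hj0 hx0
  have hθ0 : θ ≠ 0 := by rw [hθ]; exact th_ne hj0 hx0
  have hθi : θ * i = i * θ := by rw [hθ]; exact hF.th_comm hxi
  have hθs : star θ = θ⁻¹ := by rw [hθ]; exact hF.star_th hx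
  obtain ⟨thC, hthC⟩ := (h.range θ).mp (comm_t ht hθi)
  have hn1 := nrd_th hS hdeg h hSC hdC ht hF hxi f hdet (by rw [hthC, hθ])
  obtain ⟨E, _, _, _, φ, u, hE, hu⟩ := exists_maxfield hdC thC
  have hN : Algebra.norm K' u = 1 := by
    refine W.HasNrd.unique hdC (hasNrd_norm hdC hE φ u) ?_
    rw [hu]
    exact hn1
  obtain ⟨Φ, hΦ⟩ : ∃ Φ : E →+* D, ∀ e, Φ e = jC (φ e) := ⟨jC.comp (φ : E →+* C), fun _ => rfl⟩
  have hΦu : Φ u = θ := by rw [hΦ, hu, hthC]
  have hΦc : ∀ c : K', Φ (algebraMap K' E c) = jC (algebraMap K' C c) := fun c => by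
    rw [hΦ, φ.commutes]
  have hΦK : ∀ c : K, Φ (algebraMap K' E (algebraMap K K' c)) = algebraMap K D c := fun c => by
    rw [hΦc, h.jK]
  have hu0 : u ≠ 0 := by
    rintro rfl
    rw [map_zero] at hΦu
    exact hθ0 hΦu.symm
  have h2D := two_ne_D hS
  rw [← hθ]
  rcases cubic_gen hE u with ⟨c, hc⟩ | ⟨p0, p1, p2, hp, hNp, hli, hgen⟩
  · left
    obtain ⟨z, w, hzw⟩ := rep_D h ht c
    have h1 : θ = algebraMap K D z + algebraMap K D w * i := by rw [← hΦu, ← hc, hΦc, hzw]
    have h2 : 2 * (algebraMap K D w * (i * g)) = 0 := by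
      have e1 : g * θ = algebraMap K D z * g - algebraMap K D w * (i * g) := by
        rw [h1, mul_add, ← mul_assoc, ← Algebra.commutes z g, ← Algebra.commutes w g, mul_assoc,
          hgi, mul_neg, ← sub_eq_add_neg]
      have e2 : θ * g = algebraMap K D z * g + algebraMap K D w * (i * g) := by
        rw [h1, add_mul, mul_assoc]
      rw [hgθ, e2] at e1
      have e3 : 2 * (algebraMap K D w * (i * g)) =
          (algebraMap K D z * g + algebraMap K D w * (i * g)) -
            (algebraMap K D z * g - algebraMap K D w * (i * g)) := by noncomm_ring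
      rw [e3, e1, sub_self]
    have h3 : w = 0 := by
      rcases mul_eq_zero.mp h2 with h3 | h3
      · exact absurd h3 h2D
      · rcases mul_eq_zero.mp h3 with h4 | h4
        · exact (map_eq_zero _).mp h4
        · exact absurd h4 (mul_ne_zero hF.i_ne hg0)
    have h4 : θ = algebraMap K D z := by rw [h1, h3, map_zero, zero_mul, add_zero]
    refine ⟨z, h4, ?_⟩
    have h5 : c ^ 3 = 1 := by rw [← hN, ← hc, Algebra.norm_algebraMap, hE]
    apply (algebraMap K D).injective
    rw [map_pow, ← h4, ← hΦu, ← hc, ← map_pow, ← map_pow, h5, map_one, map_one, map_one]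
  · right
    have cθ : cj g hg0 θ = θ := by
      rw [cj_apply, hgθ, mul_assoc, mul_inv_cancel₀ hg0, mul_one]
    have cK : ∀ c : K, cj g hg0 (algebraMap K D c) = algebraMap K D c := by
      intro c
      rw [cj_apply, ← Algebra.commutes, mul_assoc, mul_inv_cancel₀ hg0, mul_one]
    have ci : cj g hg0 i = -i := by
      rw [cj_apply, hgi, neg_mul, mul_assoc, mul_inv_cancel₀ hg0, mul_one]
    obtain ⟨a0, b0, h0⟩ := rep_D h ht p0
    obtain ⟨a1, b1, h1⟩ := rep_D h ht p1
    obtain ⟨a2, b2, h2⟩ := rep_D h ht p2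
    have r1 : θ ^ 3 + (algebraMap K D a2 + algebraMap K D b2 * i) * θ ^ 2 +
        (algebraMap K D a1 + algebraMap K D b1 * i) * θ +
        (algebraMap K D a0 + algebraMap K D b0 * i) = 0 := by
      have e := congrArg Φ hp
      simp only [map_add, map_mul, map_pow, hΦc, hΦu, h0, h1, h2, map_zero] at e
      exact e
    have r2 : θ ^ 3 + (algebraMap K D a2 + algebraMap K D b2 * -i) * θ ^ 2 +
        (algebraMap K D a1 + algebraMap K D b1 * -i) * θ +
        (algebraMap K D a0 + algebraMap K D b0 * -i) = 0 := by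
      have e := congrArg (cj g hg0) r1
      simp only [map_add, map_mul, map_pow, cK, cθ, ci, map_zero] at e
      exact e
    have r3 : 2 * (i * (algebraMap K D b0 + algebraMap K D b1 * θ +
        algebraMap K D b2 * θ ^ 2)) = 0 := by
      have e : 2 * (i * (algebraMap K D b0 + algebraMap K D b1 * θ +
        algebraMap K D b2 * θ ^ 2)) = (θ ^ 3 + (algebraMap K D a2 + algebraMap K D b2 * i) * θ ^ 2 +
        (algebraMap K D a1 + algebraMap K D b1 * i) * θ +
        (algebraMap K D a0 + algebraMap K D b0 * i)) -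
        (θ ^ 3 + (algebraMap K D a2 + algebraMap K D b2 * -i) * θ ^ 2 +
        (algebraMap K D a1 + algebraMap K D b1 * -i) * θ +
        (algebraMap K D a0 + algebraMap K D b0 * -i)) := by
        rw [Algebra.commutes b0 i, Algebra.commutes b1 i, Algebra.commutes b2 i,
          Algebra.commutes b0 (-i), Algebra.commutes b1 (-i), Algebra.commutes b2 (-i)]
        noncomm_ring
      rw [e, r1, r2, sub_self]
    have r4 : b0 = 0 ∧ b1 = 0 ∧ b2 = 0 := by
      rcases mul_eq_zero.mp r3 with h3 | h3
      · exact absurd h3 h2D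
      rcases mul_eq_zero.mp h3 with h4 | h4
      · exact absurd h4 hF.i_ne
      have h5 : algebraMap K' E (algebraMap K K' b0) + algebraMap K' E (algebraMap K K' b1) * u +
          algebraMap K' E (algebraMap K K' b2) * u ^ 2 = 0 := Φ.injective (by
        simp only [map_add, map_mul, map_pow, hΦK, hΦu, map_zero]
        exact h4)
      obtain ⟨q0, q1, q2⟩ := hli _ _ _ h5
      exact ⟨(map_eq_zero _).mp q0, (map_eq_zero _).mp q1, (map_eq_zero _).mp q2⟩
    obtain ⟨rfl, rfl, rfl⟩ := r4
    rw [map_zero, zero_mul, add_zero] at h0 h1 h2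
    have a0v : a0 = -1 := by
      apply (algebraMap K D).injective
      have e : p0 = -1 := by rw [← neg_eq_iff_eq_neg, ← hNp, hN]
      rw [← h0, e, map_neg, map_neg, map_one, map_one, map_neg, map_one]
    have hc1 : algebraMap K' C p1 = algebraMap K' C (algebraMap K K' a1) := h.inj (by rw [h1, h.jK])
    have hc2 : algebraMap K' C p2 = algebraMap K' C (algebraMap K K' a2) := h.inj (by rw [h2, h.jK])
    have hp1 : p1 = algebraMap K K' a1 := (algebraMap K' C).injective hc1
    have hp2 : p2 = algebraMap K K' a2 := (algebraMap K' C).injective hc2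
    have hp0 : p0 = -1 := by rw [← neg_eq_iff_eq_neg, ← hNp, hN]
    rw [hp0, hp1, hp2, map_neg, map_one] at hp
    -- the unitary relation
    have s1 : u⁻¹ ^ 3 + u⁻¹ ^ 2 * algebraMap K' E (algebraMap K K' (star a2)) +
        u⁻¹ * algebraMap K' E (algebraMap K K' (star a1)) + -1 = 0 := Φ.injective (by
      have e := congrArg Φ hp
      simp only [map_add, map_mul, map_pow, hΦK, hΦu, map_zero, map_neg, map_one] at e
      have e' := congrArg star e
      simp only [star_add, star_mul, star_pow, star_neg, star_one, star_zero, hθs,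
        star_algK hS] at e'
      simp only [map_add, map_mul, map_pow, map_inv₀, hΦK, hΦu, map_zero, map_neg, map_one]
      exact e')
    have s2 : u ^ 3 - algebraMap K' E (algebraMap K K' (star a1)) * u ^ 2 -
        algebraMap K' E (algebraMap K K' (star a2)) * u - 1 = 0 := by
      have e : -(u ^ 3 * (u⁻¹ ^ 3 + u⁻¹ ^ 2 * algebraMap K' E (algebraMap K K' (star a2)) +
        u⁻¹ * algebraMap K' E (algebraMap K K' (star a1)) + -1)) =
          u ^ 3 - algebraMap K' E (algebraMap K K' (star a1)) * u ^ 2 -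
        algebraMap K' E (algebraMap K K' (star a2)) * u - 1 := by
        field_simp
        ring
      rw [← e, s1, mul_zero, neg_zero]
    have s3 : algebraMap K' E 0 + algebraMap K' E (algebraMap K K' (a1 + star a2)) * u +
        algebraMap K' E (algebraMap K K' (a2 + star a1)) * u ^ 2 = 0 := by
      simp only [map_add, map_zero]
      linear_combination hp - s2
    obtain ⟨-, s4, -⟩ := hli _ _ _ s3
    have s5 : a1 = -star a2 := eq_neg_of_add_eq_zero_left ((map_eq_zero _).mp s4)
    obtain ⟨P, Q, hPQ⟩ := norm_th h hdC ht hF φ hE (by rw [hu, hthC]) hgi hgθ hθi hg0 hθ0 hgg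
      (σ : K' →+* K') hσy hgen
    refine ⟨-a2, P, Q, ?_, ?_, hPQ⟩
    · have e := congrArg Φ hp
      simp only [map_add, map_mul, map_pow, hΦK, hΦu, map_zero, map_neg, map_one, s5] at e
      rw [star_neg, map_neg, map_neg, ← e]
      noncomm_ring
    · intro b0 b1 b2 hb
      have h5 : algebraMap K' E (algebraMap K K' b0) + algebraMap K' E (algebraMap K K' b1) * u +
          algebraMap K' E (algebraMap K K' b2) * u ^ 2 = 0 := Φ.injective (by
        simp only [map_add, map_mul, map_pow, hΦK, hΦu, map_zero]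
        exact hb)
      obtain ⟨q0, q1, q2⟩ := hli _ _ _ h5
      exact ⟨(map_eq_zero _).mp q0, (map_eq_zero _).mp q1, (map_eq_zero _).mp q2⟩

end cen

end Vale.Agent.P011.Six.H359
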