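import Vale.Agent.P011.Even.Pattern

/-!
Degree six (helper359): an element which is a norm from `F(√d)`, and a norm from `F(√d, √a)` over
`F(√d)`, is a norm from `F(√a)` as soon as this holds at the places where none of `a`, `d`, `a d`
is a square.
-/

open NumberField IsDedekindDomain

namespace Vale.Agent.P011.Six.H359

open Vale.Agent.P011.Arith Vale.Agent.P011.Even

section field

variable {F : Type} [Field F]

theorem neg_mem_NF' (a : Fˣ) : -a ∈ NF a := ⟨0, 1, by rw [Units.val_neg]; ring⟩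

/-- A norm from `F(√d, √a)` over `F(√d)` which lies in `F`. -/
theorem slot {a d b : Fˣ} {x0 x1 y0 y1 : F}
    (h0 : (b : F) = x0 ^ 2 + d * x1 ^ 2 - a * (y0 ^ 2 + d * y1 ^ 2))
    (h1 : x0 * x1 = a * (y0 * y1)) : b ∈ NF a ⊔ NF (a * d) ∨ d * b ∈ NF a ⊔ NF (a * d) := by
  have ha : (a : F) ≠ 0 := a.ne_zero
  have hd : (d : F) ≠ 0 := d.ne_zero
  by_cases hx : x0 = 0
  · right
    rw [hx, zero_mul] at h1
    have h2 : y0 * y1 = 0 := by
      rcases mul_eq_zero.mp h1.symm with h | h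
      · exact absurd h ha
      · exact h
    rcases mul_eq_zero.mp h2 with h | h
    · refine Subgroup.mem_sup_left ⟨d * x1, d * y1, ?_⟩
      rw [Units.val_mul, h0, hx, h]
      ring
    · refine Subgroup.mem_sup_right ⟨d * x1, y0, ?_⟩
      rw [Units.val_mul, Units.val_mul, h0, hx, h]
      ring
  · left
    have h2 : (b : F) = (x0 ^ 2 - a * y0 ^ 2) * (1 ^ 2 - (a * d) * (y1 / x0) ^ 2) := by
      have h3 : x1 = a * (y0 * y1) / x0 := by
        rw [eq_div_iff hx, ← h1]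
        ring
      rw [h0, h3]
      field_simp
      ring
    have h4 : x0 ^ 2 - (a : F) * y0 ^ 2 ≠ 0 := fun h => b.ne_zero (by rw [h2, h, zero_mul])
    have h5 : 1 ^ 2 - ((a : F) * d) * (y1 / x0) ^ 2 ≠ 0 :=
      fun h => b.ne_zero (by rw [h2, h, mul_zero])
    have h6 : b = Units.mk0 _ h4 * Units.mk0 _ h5 := Units.ext h2
    rw [h6]
    refine mul_mem (Subgroup.mem_sup_left ⟨x0, y0, rfl⟩) (Subgroup.mem_sup_right ⟨1, y1 / x0, ?_⟩)
    rw [Units.val_mk0, Units.val_mul]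

end field

variable {F : Type} [Field F] [NumberField F]

/-- Symmetry of the local condition. -/
theorem symm {a b : Fˣ} {p : Pl F} (h : b ∈ NF a ⊔ LSp p) : a ∈ NF b ⊔ LSp p := by
  rcases p with v | φ
  · exact mem_symm a b h
  · by_cases hb : b ∈ LSp (.inr φ)
    · rw [sup_eq_top hb]
      exact Subgroup.mem_top _
    · have ha : a ∈ LSp (.inr φ) := by
        by_contra ha
        have h1 : NF a ⊔ LSR φ = LSR φ := sup_eq_right.mpr (NF_le_LSR (notMem_LSR.mp ha))
        have h2 : b ∈ NF a ⊔ LSR φ := h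
        rw [h1] at h2
        exact hb h2
      exact Subgroup.mem_sup_right ha

theorem le_of_mem {a d : Fˣ} {p : Pl F} (hd : d ∈ LSp p) : NF (a * d) ≤ NF a ⊔ LSp p := by
  intro b hb
  refine symm ?_
  have h1 := symm (Subgroup.mem_sup_left hb : b ∈ NF (a * d) ⊔ LSp p)
  have h2 := mul_mem h1 (inv_mem (Subgroup.mem_sup_right hd : d ∈ NF b ⊔ LSp p))
  rwa [mul_inv_cancel_right] at h2

theorem le_of_mem' {a d : Fˣ} {p : Pl F} (hd : a * d ∈ LSp p) : NF d ≤ NF a ⊔ LSp p := by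
  intro b hb
  refine symm ?_
  have h1 := symm (Subgroup.mem_sup_left hb : b ∈ NF d ⊔ LSp p)
  have h2 := mul_mem (Subgroup.mem_sup_right hd : a * d ∈ NF b ⊔ LSp p) (inv_mem h1)
  rwa [mul_inv_cancel_right] at h2

/-- **The Hasse step.** -/
theorem mem_NF {a d b : Fˣ} (hd : b ∈ NF d) {x0 x1 y0 y1 : F}
    (h0 : (b : F) = x0 ^ 2 + d * x1 ^ 2 - a * (y0 ^ 2 + d * y1 ^ 2))
    (h1 : x0 * x1 = a * (y0 * y1))
    (hloc : ∀ w : HeightOneSpectrum (𝓞 F), a ∈ LS (w.valuation F) ∨ d ∈ LS (w.valuation F) ∨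
      a * d ∈ LS (w.valuation F) ∨ b ∈ NF a ⊔ LS (w.valuation F)) : b ∈ NF a := by
  refine hasse_norm a b fun p => ?_
  have h2 : a ∈ LSp p ∨ d ∈ LSp p ∨ a * d ∈ LSp p ∨ b ∈ NF a ⊔ LSp p := by
    rcases p with v | φ
    · exact hloc v
    · by_cases ha : a ∈ LSR φ
      · exact Or.inl ha
      by_cases hdd : d ∈ LSR φ
      · exact Or.inr (Or.inl hdd)
      · exact Or.inr (Or.inr (Or.inl (mul_mem_LSR ha hdd)))
  rcases h2 with h | h | h | h
  · rw [sup_eq_top h]
    exact Subgroup.mem_top _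
  · have h3 : NF a ⊔ NF (a * d) ≤ NF a ⊔ LSp p := sup_le le_sup_left (le_of_mem h)
    rcases slot h0 h1 with h4 | h4
    · exact h3 h4
    · have h5 := mul_mem (inv_mem (Subgroup.mem_sup_right h : d ∈ NF a ⊔ LSp p)) (h3 h4)
      rwa [inv_mul_cancel_left] at h5
  · exact le_of_mem' h hd
  · exact h

/-- The local condition at the places where `2`, `a` and `d` are units. -/
theorem loc_of_unit {v : HeightOneSpectrum (𝓞 F)} (h2 : v.valuation F (2 : F) = 1) {a d : Fˣ}
    (ha : v.valuation F (a : F) = 1) (hd : v.valuation F (d : F) = 1) :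
    a ∈ LS (v.valuation F) ∨ d ∈ LS (v.valuation F) ∨ a * d ∈ LS (v.valuation F) := by
  by_cases ha' : a ∈ LS (v.valuation F)
  · exact Or.inl ha'
  by_cases hd' : d ∈ LS (v.valuation F)
  · exact Or.inr (Or.inl hd')
  exact Or.inr (Or.inr (unit_sq_mul v h2 a d ha hd ha' hd'))

end Vale.Agent.P011.Six.H359
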