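import Vale.Agent.P011.Six.H359.Lpart
import Vale.Agent.P011.Six.H359.Hasse

/-!
Degree six (helper359): `2 + θ + θ⁻¹` is a norm from `L(i)`, up to the local conditions.
-/

open Module NumberField IsDedekindDomain Polynomial

set_option linter.unusedSectionVars false

namespace Vale.Agent.P011.Six.H359

open Vale.Agent.P011.Arith Vale.Agent.P011.Even Vale.Agent.P011.Two Vale.Agent.P011.One
  Vale.Agent.P011.Pow

variable {k K D : Type} [Field k] [NumberField k] [Field K] [NumberField K] [StarRing K]
    [DivisionRing D] [StarRing D] [Algebra k K] [Algebra k D] [Algebra K D]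
    [IsScalarTower k K D] {d : kˣ} {s : K} {L : Type} [Field L] [NumberField L] [Algebra k L]

theorem ss_D (hS : Setting k K D d s) :
    algebraMap K D s * algebraMap K D s = algebraMap k D d := by
  rw [← map_mul, ← pow_two, hS.sq, ← IsScalarTower.algebraMap_apply]

/-- The coordinates with respect to `1, s` over a symmetric field are unique. -/
theorem pair_ext (hS : Setting k K D d s) {ι : L →ₐ[k] D} (sym : ∀ y, star (ι y) = ι y)
    {a b a' b' : L} (h : ι a + ι b * algebraMap K D s = ι a' + ι b' * algebraMap K D s) :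
    a = a' ∧ b = b' := by
  have h2 := two_ne_D hS
  have hs0 : algebraMap K D s ≠ 0 := (_root_.map_ne_zero _).mpr hS.s_ne
  have e := congrArg star h
  rw [star_add, star_mul, star_add, star_mul, sym, sym, sym, sym, star_sD hS, neg_mul, neg_mul,
    Algebra.commutes, Algebra.commutes] at e
  have e1 : 2 * (ι a - ι a') = 0 := by
    have : 2 * (ι a - ι a') = (ι a + ι b * algebraMap K D s - (ι a' + ι b' * algebraMap K D s)) +
        (ι a + -(ι b * algebraMap K D s) - (ι a' + -(ι b' * algebraMap K D s))) := by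
      noncomm_ring
    rw [this, h, e, sub_self, sub_self, add_zero]
  have e2 : ι a = ι a' := by
    rcases mul_eq_zero.mp e1 with h | h
    · exact absurd h h2
    · exact sub_eq_zero.mp h
  have hi : Function.Injective ι := (ι : L →+* D).injective
  refine ⟨hi e2, hi ?_⟩
  rw [e2, add_right_inj] at h
  exact mul_right_cancel₀ hs0 h

/-- The elements of `K[θ]` have coordinates. -/
theorem exists_pair (hS : Setting k K D d s) {ι : L →ₐ[k] D} {θ : D} {t0 t1 : L}
    (hθ : θ = ι t0 + ι t1 * algebraMap K D s) (P : K[X]) :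
    ∃ p0 p1 : L, aeval θ P = ι p0 + ι p1 * algebraMap K D s := by
  have hmul : ∀ a b a' b' : L, (ι a + ι b * algebraMap K D s) * (ι a' + ι b' * algebraMap K D s) =
      ι (a * a' + algebraMap k L d * (b * b')) + ι (a * b' + b * a') * algebraMap K D s := by
    intro a b a' b'
    have hc : ∀ z : D, algebraMap K D s * z = z * algebraMap K D s := fun z =>
      Algebra.commutes _ _
    have hss := ss_D hS
    have e1 : (ι a + ι b * algebraMap K D s) * (ι a' + ι b' * algebraMap K D s) =
        ι a * ι a' + ι a * ι b' * algebraMap K D s + ι b * (algebraMap K D s * ι a') +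
          ι b * (algebraMap K D s * ι b') * algebraMap K D s := by noncomm_ring
    rw [e1, hc, hc]
    have e2 : ι b * (ι b' * algebraMap K D s) * algebraMap K D s =
        ι b * ι b' * (algebraMap K D s * algebraMap K D s) := by simp only [mul_assoc]
    rw [e2, hss]
    simp only [map_add, map_mul, ι.commutes]
    rw [← Algebra.commutes (d : k) (ι b * ι b')]
    noncomm_ring
  have hK : ∀ a : K, ∃ p0 p1 : L, algebraMap K D a = ι p0 + ι p1 * algebraMap K D s := by
    intro a
    obtain ⟨a0, a1, rfl, -⟩ := coordsK hS a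
    refine ⟨algebraMap k L a0, algebraMap k L a1, ?_⟩
    rw [map_add, map_mul, ← IsScalarTower.algebraMap_apply, ← IsScalarTower.algebraMap_apply,
      ι.commutes, ι.commutes]
  induction P using Polynomial.induction_on with
  | C a =>
    rw [aeval_C]
    exact hK a
  | add p q hp hq =>
    obtain ⟨p0, p1, hp⟩ := hp
    obtain ⟨q0, q1, hq⟩ := hq
    refine ⟨p0 + q0, p1 + q1, ?_⟩
    rw [map_add, hp, hq, map_add, map_add]
    noncomm_ring
  | monomial n a h =>
    obtain ⟨p0, p1, hp⟩ := h
    rw [pow_succ, ← mul_assoc, map_mul, hp, aeval_X, hθ, hmul]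
    exact ⟨_, _, rfl⟩

/-- The Hasse step: `c = 2 + θ + θ⁻¹` is a norm from `L(√al)`. -/
theorem c_mem_NF (hS : Setting k K D d s) {al : kˣ} {ι : L →ₐ[k] D}
    (sym : ∀ y, star (ι y) = ι y) {θ : D} {t0 t1 : L}
    (hθ : θ = ι t0 + ι t1 * algebraMap K D s) (hn : t0 ^ 2 - algebraMap k L d * t1 ^ 2 = 1)
    {P Q : K[X]} (hPQ : (aeval θ P) ^ 2 - algebraMap k D al * (aeval θ Q) ^ 2 = θ) (c : Lˣ)
    (hc : (c : L) = 2 * t0 + 2)
    (hloc : ∀ w : HeightOneSpectrum (𝓞 L), (w.valuation L (2 : L) = 1 ∧
      w.valuation L (algebraMap k L al) = 1 ∧ w.valuation L (algebraMap k L d) = 1) ∨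
      w.valuation L (c / 4 - 1 : L) < w.valuation L (4 : L)) :
    c ∈ NF (inc k L al) := by
  obtain ⟨p0, p1, hP⟩ := exists_pair hS hθ P
  obtain ⟨q0, q1, hQ⟩ := exists_pair hS hθ Q
  have hc' : ∀ z : D, algebraMap K D s * z = z * algebraMap K D s := fun z =>
    Algebra.commutes _ _
  have hsq : ∀ a b : L, (ι a + ι b * algebraMap K D s) ^ 2 =
      ι (a ^ 2 + algebraMap k L d * b ^ 2) + ι (2 * (a * b)) * algebraMap K D s := by
    intro a b
    have hss := ss_D hS
    have e1 : (ι a + ι b * algebraMap K D s) ^ 2 =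
        ι a * ι a + ι a * ι b * algebraMap K D s + ι b * (algebraMap K D s * ι a) +
          ι b * (algebraMap K D s * ι b) * algebraMap K D s := by noncomm_ring
    rw [e1, hc', hc']
    have e2 : ι b * (ι b * algebraMap K D s) * algebraMap K D s =
        ι b * ι b * (algebraMap K D s * algebraMap K D s) := by simp only [mul_assoc]
    have e3 : ι b * (ι a * algebraMap K D s) = ι a * ι b * algebraMap K D s := by
      rw [← mul_assoc, ← map_mul, mul_comm, map_mul]
    rw [e2, hss, e3, ← Algebra.commutes (d : k) (ι b * ι b)]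
    simp only [map_add, map_mul, map_pow, ι.commutes, map_ofNat]
    noncomm_ring
  have hrel : ι (p0 ^ 2 + algebraMap k L d * p1 ^ 2 -
      algebraMap k L al * (q0 ^ 2 + algebraMap k L d * q1 ^ 2)) +
      ι (2 * (p0 * p1) - algebraMap k L al * (2 * (q0 * q1))) * algebraMap K D s =
      ι t0 + ι t1 * algebraMap K D s := by
    rw [← hθ, ← hPQ, hP, hQ, hsq, hsq, map_sub, map_sub, map_mul (ι : L →ₐ[k] D)
      (algebraMap k L al), map_mul (ι : L →ₐ[k] D) (algebraMap k L al) (2 * (q0 * q1)), ι.commutes]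
    noncomm_ring
  obtain ⟨r0, r1⟩ := pair_ext hS sym hrel
  have hinc : ∀ z : kˣ, ((inc k L z : Lˣ) : L) = algebraMap k L z := fun z => rfl
  refine mem_NF (a := inc k L al) (d := inc k L d) (b := c) ⟨1 + t0, t1, ?_⟩
    (x0 := (1 + t0) * p0 - algebraMap k L d * t1 * p1) (x1 := (1 + t0) * p1 - t1 * p0)
    (y0 := (1 + t0) * q0 - algebraMap k L d * t1 * q1) (y1 := (1 + t0) * q1 - t1 * q0) ?_ ?_ ?_
  · rw [hc, hinc]
    linear_combination -hn
  · rw [hc, hinc, hinc]
    linear_combination -((1 + t0) ^ 2 + algebraMap k L d * t1 ^ 2) * r0 +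
      2 * algebraMap k L d * (1 + t0) * t1 * r1 - (2 + t0) * hn
  · rw [hinc]
    linear_combination ((1 + t0) ^ 2 + algebraMap k L d * t1 ^ 2) / 2 * r1 -
      (1 + t0) * t1 * r0 - t1 / 2 * hn
  · intro w
    rcases hloc w with ⟨h2, h3, h4⟩ | h
    · rcases loc_of_unit h2 (a := inc k L al) (d := inc k L d) h3 h4 with h | h | h
      · exact Or.inl h
      · exact Or.inr (Or.inl h)
      · exact Or.inr (Or.inr (Or.inl h))
    · refine Or.inr (Or.inr (Or.inr (Subgroup.mem_sup_right ?_)))
      refine ⟨Units.mk0 2 two_ne_zero, ?_⟩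
      rw [Units.val_mk0]
      norm_num
      exact h

end Vale.Agent.P011.Six.H359
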