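import Mathlib

/-!
Degree six (helper359): the determinant of a semilinear map of a space of dimension three.
-/

open Module

namespace Vale.Agent.P011.Six.H359

/-- A semilinear map of a three-dimensional space whose square is a scalar. -/
theorem semilin {E C : Type*} [Field E] [AddCommGroup C] [Module E C] (h3 : finrank E C = 3)
    (σ : E →+* E) (W : C → C) (hadd : ∀ y z, W (y + z) = W y + W z)
    (hW : ∀ (e : E) (y : C), W (e • y) = σ e • W y) (q : E) (hW2 : ∀ y, W (W y) = q • y) :
    ∃ m : E, m * σ m = q ^ 3 := by
  classical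
  have : Module.Finite E C := Module.finite_of_finrank_pos (by rw [h3]; norm_num)
  let b : Basis (Fin 3) E C := Module.finBasisOfFinrankEq E C h3
  let Wh : C →+ C := AddMonoidHom.mk' W hadd
  have hWh : ∀ y, Wh y = W y := fun y => rfl
  let P : Matrix (Fin 3) (Fin 3) E := Matrix.of fun i l => b.repr (W (b l)) i
  have hP : ∀ l, W (b l) = ∑ i, P i l • b i := fun l => (b.sum_repr (W (b l))).symm
  have h1 : P * P.map σ = q • (1 : Matrix (Fin 3) (Fin 3) E) := by
    ext r l
    have h2 : W (W (b l)) = ∑ r, (P * P.map σ) r l • b r := by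
      rw [hP l, ← hWh, map_sum]
      have h3 : ∀ i, Wh (P i l • b i) = ∑ r, (P r i * σ (P i l)) • b r := by
        intro i
        rw [hWh, hW, hP i, Finset.smul_sum]
        refine Finset.sum_congr rfl fun r _ => ?_
        rw [smul_smul, mul_comm]
      simp_rw [h3]
      rw [Finset.sum_comm]
      refine Finset.sum_congr rfl fun r _ => ?_
      rw [← Finset.sum_smul]
      rfl
    rw [hW2] at h2
    have h4 := congrArg (fun y => b.repr y r) h2
    simp only [map_smul, Basis.repr_self, Finsupp.smul_apply, map_sum, Finsupp.coe_finsetSum,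
      Finset.sum_apply, smul_eq_mul] at h4
    rw [Matrix.smul_apply, smul_eq_mul, Matrix.one_apply]
    rw [Finset.sum_eq_single r (fun r' _ hr' => by
      rw [Finsupp.single_eq_of_ne (Ne.symm hr'), mul_zero]) (fun h => absurd (Finset.mem_univ _) h),
      Finsupp.single_eq_same, mul_one] at h4
    rw [← h4, Finsupp.single_apply]
    congr 1
    simp only [eq_comm]
  refine ⟨P.det, ?_⟩
  have h5 := congrArg Matrix.det h1
  rw [Matrix.det_mul, Matrix.det_smul, Matrix.det_one, mul_one, Fintype.card_fin] at h5
  rw [← h5, ← RingHom.mapMatrix_apply, ← RingHom.map_det]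

end Vale.Agent.P011.Six.H359
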