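import Vale.Agent.P011.One.Close
import Vale.Agent.P011.W.HermEl
import Vale.Agent.P011.Six.H359.Semi

/-!
Degree six (helper359): the element `θ = j x j⁻¹ x` of a unitary element `x` of reduced norm one
commuting with `i`.
-/

open Module NumberField Polynomial

set_option linter.unusedSectionVars false

namespace Vale.Agent.P011.Six.H359

open Vale.Agent.P011.Arith Vale.Agent.P011.Even Vale.Agent.P011.Two Vale.Agent.P011.One

section elt

variable {k D : Type} [Field k] [DivisionRing D] [StarRing D] [Algebra k D]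

/-- The element `θ`. -/
def th (j x : D) : D := j * x * j⁻¹ * x

/-- The element `x⁻¹ j`. -/
def gg (j x : D) : D := x⁻¹ * j

/-- A quaternion algebra over `k` stable under the involution. -/
structure Fr (k : Type) {D : Type} [Field k] [DivisionRing D] [StarRing D] [Algebra k D]
    (al be : kˣ) (i j : D) : Prop where
  si : star i = -i
  sj : star j = -j
  ii : i * i = algebraMap k D al
  jj : j * j = algebraMap k D be
  ij : i * j = -(j * i)

variable {al be : kˣ} {i j x : D}

theorem ne_of_sq {c : kˣ} {z : D} (h : z * z = algebraMap k D c) : z ≠ 0 := by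
  rintro rfl
  rw [zero_mul, eq_comm] at h
  exact c.ne_zero ((map_eq_zero (algebraMap k D)).mp h)

theorem Fr.i_ne (h : Fr k al be i j) : i ≠ 0 := ne_of_sq h.ii

theorem Fr.j_ne (h : Fr k al be i j) : j ≠ 0 := ne_of_sq h.jj

theorem Fr.ji (h : Fr k al be i j) : j * i = -(i * j) := by rw [h.ij, neg_neg]

theorem Fr.jji (h : Fr k al be i j) (y : D) : j * y * j⁻¹ = j⁻¹ * y * j := by
  have h1 : j * j * y = y * (j * j) := by rw [h.jj]; exact Algebra.commutes _ _
  have hj := h.j_ne
  apply mul_left_cancel₀ hj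
  apply mul_right_cancel₀ hj
  calc j * (j * y * j⁻¹) * j = (j * j * y) * (j⁻¹ * j) := by simp only [mul_assoc]
    _ = (y * (j * j)) * 1 := by rw [h1, inv_mul_cancel₀ hj]
    _ = (j * j⁻¹) * y * (j * j) := by rw [mul_one, mul_inv_cancel₀ hj, one_mul]
    _ = j * (j⁻¹ * y * j) * j := by simp only [mul_assoc]

theorem Fr.conj_i (h : Fr k al be i j) : j * i * j⁻¹ = -i := by
  rw [h.ji, neg_mul, mul_assoc, mul_inv_cancel₀ h.j_ne, mul_one]

theorem Fr.conj_comm (h : Fr k al be i j) (hx : x * i = i * x) :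
    (j * x * j⁻¹) * i = i * (j * x * j⁻¹) := by
  have h1 : i = -(j * i * j⁻¹) := by rw [h.conj_i, neg_neg]
  have hj := h.j_ne
  have h2 : (j * x * j⁻¹) * (j * i * j⁻¹) = (j * i * j⁻¹) * (j * x * j⁻¹) := by
    calc (j * x * j⁻¹) * (j * i * j⁻¹) = j * x * (j⁻¹ * j) * i * j⁻¹ := by
          simp only [mul_assoc]
      _ = j * (x * i) * j⁻¹ := by rw [inv_mul_cancel₀ hj, mul_one]; simp only [mul_assoc]
      _ = j * i * (j⁻¹ * j) * x * j⁻¹ := by
          rw [hx, inv_mul_cancel₀ hj, mul_one]; simp only [mul_assoc]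
      _ = _ := by simp only [mul_assoc]
  rw [h.conj_i] at h2
  rw [mul_neg, neg_mul, neg_inj] at h2
  exact h2

theorem Fr.th_comm (h : Fr k al be i j) (hx : x * i = i * x) : th j x * i = i * th j x := by
  rw [th, mul_assoc, hx, ← mul_assoc, h.conj_comm hx, mul_assoc]

theorem inv_comm {y z : D} (h : y * z = z * y) : y⁻¹ * z = z * y⁻¹ :=
  (Commute.inv_left₀ (show Commute y z from h))

theorem Fr.gg_i (h : Fr k al be i j) (hx : x * i = i * x) : gg j x * i = -(i * gg j x) := by
  rw [gg, mul_assoc, h.ji, mul_neg, ← mul_assoc, inv_comm hx, mul_assoc]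

theorem Fr.jjinv (h : Fr k al be i j) : algebraMap k D be * j⁻¹ = j := by
  rw [← h.jj, mul_assoc, mul_inv_cancel₀ h.j_ne, mul_one]

theorem Fr.gg_th (h : Fr k al be i j) (hx0 : x ≠ 0) : gg j x * th j x = j * x := by
  calc gg j x * th j x = x⁻¹ * (j * j) * x * j⁻¹ * x := by rw [gg, th]; simp only [mul_assoc]
    _ = algebraMap k D be * (x⁻¹ * x) * j⁻¹ * x := by
        rw [h.jj, ← Algebra.commutes]; simp only [mul_assoc]
    _ = j * x := by rw [inv_mul_cancel₀ hx0, mul_one, h.jjinv]

theorem Fr.th_gg (_h : Fr k al be i j) (hx0 : x ≠ 0) : th j x * gg j x = j * x * j⁻¹ * j := by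
  rw [gg, th, mul_assoc, ← mul_assoc x, mul_inv_cancel₀ hx0, one_mul]

theorem Fr.gg_comm (h : Fr k al be i j) (hx0 : x ≠ 0) : gg j x * th j x = th j x * gg j x := by
  rw [h.gg_th hx0, h.th_gg hx0, mul_assoc, inv_mul_cancel₀ h.j_ne, mul_one]

theorem Fr.gg_gg (h : Fr k al be i j) (hx0 : x ≠ 0) :
    gg j x * gg j x * th j x = algebraMap k D be := by
  rw [mul_assoc, h.gg_th hx0, gg, mul_assoc, ← mul_assoc j, h.jj, Algebra.commutes, ← mul_assoc,
    inv_mul_cancel₀ hx0, one_mul]

theorem th_ne (hj : j ≠ 0) (hx0 : x ≠ 0) : th j x ≠ 0 :=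
  mul_ne_zero (mul_ne_zero (mul_ne_zero hj hx0) (inv_ne_zero hj)) hx0

theorem gg_ne (hj : j ≠ 0) (hx0 : x ≠ 0) : gg j x ≠ 0 := mul_ne_zero (inv_ne_zero hx0) hj

theorem Fr.star_th (h : Fr k al be i j) (hx : x * star x = 1) : star (th j x) = (th j x)⁻¹ := by
  have hx0 : x ≠ 0 := left_ne_zero_of_mul_eq_one hx
  have hsx : star x = x⁻¹ := eq_inv_of_mul_eq_one_right hx
  have hj := h.j_ne
  have h1 : star (th j x) = x⁻¹ * (j⁻¹ * x⁻¹ * j) := by
    rw [th, star_mul, star_mul, star_mul, hsx, star_inv₀, h.sj, inv_neg]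
    simp only [mul_neg, neg_mul, neg_neg, mul_assoc]
  rw [h1, ← h.jji, th]
  rw [mul_inv_rev, mul_inv_rev, mul_inv_rev, inv_inv]
  simp only [mul_assoc]

end elt


section main

variable {k K D L K' C : Type} [Field k] [NumberField k] [Field K] [NumberField K] [StarRing K]
    [DivisionRing D] [StarRing D] [Algebra k K] [Algebra k D] [Algebra K D] [IsScalarTower k K D]
    [Field L] [NumberField L] [Algebra k L] [Field K'] [NumberField K'] [StarRing K']
    [Algebra K K'] [DivisionRing C] [StarRing C] [Algebra L K'] [Algebra L C] [Algebra K' C]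
    [IsScalarTower L K' C]
    {d : kˣ} {s : K} {t : D} {a : kˣ} {T : L} {jC : C →+* D} {al be : kˣ} {i j x : D}

theorem two_ne_D (_hS : Setting k K D d s) : (2 : D) ≠ 0 := by
  have h : (algebraMap k D) 2 ≠ 0 := (_root_.map_ne_zero _).mpr two_ne_zero
  rwa [map_ofNat] at h

theorem eq_zero_of_anti (hS : Setting k K D d s) {y z : D} (h1 : y * z = z * y)
    (h2 : y * z = -(z * y)) (hy : y ≠ 0) : z = 0 := by
  rw [h1, eq_neg_iff_add_eq_zero, ← two_mul] at h2
  rcases mul_eq_zero.mp h2 with h | h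
  · exact absurd h (two_ne_D hS)
  · rcases mul_eq_zero.mp h with h | h
    · exact h
    · exact absurd h hy

theorem not_sq (hS : Setting k K D d s) {R : Type} [Field R] [Algebra R D] {y z : D} {c : R}
    (hy : y * y = algebraMap R D c)
    (h : y * z = -(z * y)) (hy0 : y ≠ 0) (hz0 : z ≠ 0) : ¬ IsSquare c := by
  rintro ⟨r, rfl⟩
  have h1 : (y - algebraMap R D r) * (y + algebraMap R D r) = 0 := by
    have h2 : (y - algebraMap R D r) * (y + algebraMap R D r) = y * y -
        algebraMap R D r * algebraMap R D r + (y * algebraMap R D r - algebraMap R D r * y) := by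
      noncomm_ring
    rw [h2, hy, map_mul, sub_self, zero_add, ← Algebra.commutes, sub_self]
  have h3 : ∃ q : R, y = algebraMap R D q := by
    rcases mul_eq_zero.mp h1 with h2 | h2
    · exact ⟨r, sub_eq_zero.mp h2⟩
    · exact ⟨-r, by rw [map_neg]; exact eq_neg_of_add_eq_zero_left h2⟩
  obtain ⟨q, hq⟩ := h3
  exact hz0 (eq_zero_of_anti hS (by rw [hq]; exact Algebra.commutes _ _) h hy0)

theorem Fr.t_mem (hS : Setting k K D d s) (h : Fr k al be i j) :
    algebraMap K D s * i ∈ Xa D (al * d) := by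
  refine ⟨?_, ?_⟩
  · rw [star_mul, h.si, star_sD hS, neg_mul_neg, Algebra.commutes]
  · have hc : i * algebraMap K D s = algebraMap K D s * i := (Algebra.commutes _ _).symm
    have hss : algebraMap K D s * algebraMap K D s = algebraMap k D d := by
      rw [← map_mul, ← pow_two, hS.sq, ← IsScalarTower.algebraMap_apply]
    calc algebraMap K D s * i * (algebraMap K D s * i) =
        algebraMap K D s * (i * algebraMap K D s) * i := by simp only [mul_assoc]
      _ = (algebraMap K D s * algebraMap K D s) * (i * i) := by rw [hc]; simp only [mul_assoc]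
      _ = algebraMap k D ((al * d : kˣ) : k) := by
          rw [hss, h.ii, ← map_mul, Units.val_mul, mul_comm]

theorem Fr.tj (h : Fr k al be i j) : algebraMap K D s * i * j = -(j * (algebraMap K D s * i)) := by
  rw [mul_assoc, h.ij, mul_neg, ← mul_assoc, Algebra.commutes, mul_assoc]

theorem Fr.nsq_a (hS : Setting k K D d s) (h : Fr k al be i j) :
    ¬ IsSquare ((al * d : kˣ) : k) :=
  not_sq hS (h.t_mem hS).2 (h.tj (s := s)) (ne_of_sq (h.t_mem hS).2) h.j_ne

theorem Fr.nsq_ad (hS : Setting k K D d s) (h : Fr k al be i j) :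
    ¬ IsSquare ((al * d * d : kˣ) : k) := by
  rintro ⟨r, hr⟩
  refine not_sq hS h.ii h.ij h.i_ne h.j_ne ⟨r / d, ?_⟩
  rw [Units.val_mul, Units.val_mul] at hr
  have hd := d.ne_zero
  field_simp
  linear_combination hr

end main

end Vale.Agent.P011.Six.H359
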