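import Vale.Agent.P011.One.CloseNear
import Vale.Agent.P011.Six.H359.Frame

/-!
Degree six (helper359): elements of given norm close to one.
-/

open Module NumberField IsDedekindDomain Polynomial

set_option linter.unusedSectionVars false

namespace Vale.Agent.P011.Six.H359

open Vale.Agent.P011.Arith Vale.Agent.P011.Even Vale.Agent.P011.Two Vale.Agent.P011.One

section gen

variable {k D : Type} [Field k] [NumberField k] [DivisionRing D] [Algebra k D] {M : ℕ}
  (B : Module.Basis (Fin M) k D)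

/-- An element `p0 + p1 √al` of norm `cc` close to one in `D`, for `cc` close to one. -/
theorem exists_q (Tk : Finset (HeightOneSpectrum (𝓞 k))) (hne : Tk.Nonempty) (i0 : D)
    (ε : HeightOneSpectrum (𝓞 k) → ℝ) (hε : ∀ v, 0 < ε v) :
    ∃ δ : HeightOneSpectrum (𝓞 k) → ℝ, (∀ v, 0 < δ v) ∧
      ∀ (L : Type) [Field L] [NumberField L] [Algebra k L] (ι : L →ₐ[k] D) (al cc : Lˣ),
        cc ∈ NF al → (∀ v ∈ Tk, nm B (.inl v) (ι cc - 1) < δ v) →
        ∃ p0 p1 : L, p0 ^ 2 - al * p1 ^ 2 = cc ∧ ∀ v ∈ Tk,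
          nm B (.inl v) (ι p0 - 1) < ε v ∧ nm B (.inl v) (ι p1) < ε v ∧
          nm B (.inl v) (ι p0 + ι p1 * i0 - 1) < ε v := by
  classical
  choose δ₆ hδ₆ H6 using fun v : HeightOneSpectrum (𝓞 k) => val_of_small B v 2 two_ne_zero
  choose δ₄ hδ₄ H4 using fun v : HeightOneSpectrum (𝓞 k) =>
    gs_bound B (.inl v : Pl k) (ε := min (ε v / 3) (δ₆ v)) (lt_min (by have := hε v; positivity)
      (hδ₆ v))
  choose δ₅ hδ₅ H5 using fun v : HeightOneSpectrum (𝓞 k) => val_of_small B v (4 : k) (by norm_num)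
  refine ⟨fun v => min (δ₄ v) (δ₅ v), fun v => lt_min (hδ₄ v) (hδ₅ v), ?_⟩
  intro L _ _ _ ι al cc hcc hnear
  have hn4 : ∀ v ∈ Tk, nm B (.inl v) (ι cc - 1) < δ₄ v := fun v hv =>
    (hnear v hv).trans_le (min_le_left _ _)
  have hn5 : ∀ v ∈ Tk, nm B (.inl v) (ι cc - 1) < δ₅ v := fun v hv =>
    (hnear v hv).trans_le (min_le_right _ _)
  obtain ⟨T, hT⟩ := above_finset (F := L) Tk
  have hbl : ∀ ω : HeightOneSpectrum (𝓞 L), ∃ v : HeightOneSpectrum (𝓞 k), Ab ω v :=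
    fun ω => Arith.exists_below ω
  choose bl hbl using hbl
  have hTb : ∀ ω ∈ T, bl ω ∈ Tk := by
    intro ω hω
    obtain ⟨v, hv, hab⟩ := (hT ω).mp hω
    rwa [One.below_unique (hbl ω) hab]
  obtain ⟨v₀, hv₀⟩ := hne
  have hTne : T.Nonempty := by
    obtain ⟨w, hw⟩ := Arith.exists_above (E := L) v₀
    exact ⟨w, (hT w).mpr ⟨v₀, hv₀, hw⟩⟩
  choose C hC hCm using fun v : HeightOneSpectrum (𝓞 k) => nm_mul B (.inl v : Pl k)
  have hη : ∀ v : HeightOneSpectrum (𝓞 k), ∃ η : kˣ, ∀ f : L,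
      (∀ ω : HeightOneSpectrum (𝓞 L), Ab ω v →
        ω.valuation L f < ω.valuation L (algebraMap k L η)) → nm B (.inl v) (ι f) <
          min (ε v / 3) (ε v / (3 * (C v * nm B (.inl v) i0 + 1))) := by
    intro v
    have h1 := hε v
    have h2 := hC v
    have h3 := nm_nonneg B (.inl v) i0
    exact small_of_val B ι v (by positivity)
  choose η hη using hη
  obtain ⟨g, P, Q, hPg, hPQ, -, hPT⟩ := norm_near2 al cc hcc T T subset_rfl hTne 1 one_pos (by
      intro ω hω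
      have h1 := H5 (bl ω) L ι ω (hbl ω) (cc - 1 : L) (by
        rw [map_sub, map_one]
        exact hn5 _ (hTb ω hω))
      rw [← Valuation.map_sub_swap, map_ofNat] at h1
      simpa using h1)
    (fun g => ∀ v ∈ Tk, nm B (.inl v) (ι g - 1) < min (ε v / 3) (δ₆ v)) (by
      intro β₀ hβ₀
      have hb : ∀ v : HeightOneSpectrum (𝓞 k), ∃ b : k, b ≠ 0 ∧ ∀ ω ∈ T, Ab ω v →
          ω.valuation L (algebraMap k L b) < β₀ ω := fun v => exists_small_elt v T β₀ hβ₀
      choose b hb0 hb using hb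
      choose δ₇ hδ₇ H7 using fun v : HeightOneSpectrum (𝓞 k) => val_of_small B v (b v) (hb0 v)
      have hm : ∀ v : HeightOneSpectrum (𝓞 k), ∃ m : ℕ, (1 / 2 : ℝ) ^ m * δ₄ v < δ₇ v := by
        intro v
        obtain ⟨m, hm⟩ := exists_pow_lt_of_lt_one (div_pos (hδ₇ v) (hδ₄ v))
          (show (1 / 2 : ℝ) < 1 by norm_num)
        exact ⟨m, by rwa [lt_div_iff₀ (hδ₄ v)] at hm⟩
      choose m hm using hm
      have hg : ι (gs k (cc : L) (Tk.sup m)) = gs k (ι cc) (Tk.sup m) := by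
        rw [gs_map]
      refine ⟨gs k (cc : L) (Tk.sup m), fun v hv => ?_, fun ω hω => ⟨?_, ?_⟩⟩
      · rw [hg]
        exact (H4 v _ (hn4 v hv) _).1
      · have h1 := H6 _ L ι ω (hbl ω) (gs k (cc : L) (Tk.sup m) - 1) (by
          rw [map_sub, map_one, hg]
          exact (H4 _ _ (hn4 _ (hTb ω hω)) _).1.trans_le (min_le_right _ _))
        rwa [map_ofNat] at h1
      · have h2 : nm B (.inl (bl ω)) (ι (gs k (cc : L) (Tk.sup m) ^ 2 - cc)) < δ₇ (bl ω) := by
          rw [map_sub, map_pow, hg]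
          refine ((H4 _ _ (hn4 _ (hTb ω hω)) _).2).trans_lt (lt_of_le_of_lt ?_ (hm (bl ω)))
          exact mul_le_mul_of_nonneg_right (pow_le_pow_of_le_one (by norm_num) (by norm_num)
            (Finset.le_sup (hTb ω hω))) (hδ₄ _).le
        have h1 := H7 _ L ι ω (hbl ω) _ h2
        rw [Valuation.map_sub_swap]
        exact h1.trans (hb _ ω hω (hbl ω)))
    (fun ω => ω.valuation L (algebraMap k L (η (bl ω))))
    (fun ω => (Valuation.ne_zero_iff _).mpr ((_root_.map_ne_zero _).mpr (Units.ne_zero _)))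
  refine ⟨P, Q, hPQ, fun v hv => ?_⟩
  have hsp : ∀ ω : HeightOneSpectrum (𝓞 L), Ab ω v → ω ∈ T ∧ bl ω = v := fun ω hω =>
    ⟨(hT ω).mpr ⟨v, hv, hω⟩, One.below_unique (hbl ω) hω⟩
  have b1 := hη v (P - g) fun ω hω => by
    obtain ⟨h1, h2⟩ := hsp ω hω
    have := (hPT ω h1).1
    rwa [h2] at this
  have b2 := hη v Q fun ω hω => by
    obtain ⟨h1, h2⟩ := hsp ω hω
    have := (hPT ω h1).2
    rwa [h2] at this
  have b3 := (hPg v hv).trans_le (min_le_left _ _)
  obtain ⟨Z, hZ⟩ : ∃ Z : ℝ, Z = nm B (.inl v) i0 := ⟨_, rfl⟩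
  have hZ0 : 0 ≤ Z := hZ ▸ nm_nonneg B _ _
  rw [← hZ] at b2
  have b4 := hCm v (ι Q) i0
  rw [← hZ] at b4
  have hCv := hC v
  have hδv := hε v
  have b5 : C v * nm B (.inl v) (ι Q) * Z ≤ ε v / 3 := by
    have h1 := b2.trans_le (min_le_right _ _)
    rw [lt_div_iff₀ (by positivity)] at h1
    have h2 := nm_nonneg B (.inl v) (ι Q)
    nlinarith
  have b8 := b1.trans_le (min_le_left _ _)
  have b9 := b2.trans_le (min_le_left _ _)
  refine ⟨?_, by linarith, ?_⟩
  · have e1 : ι P - 1 = (ι g - 1) + ι (P - g) := by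
      rw [map_sub]
      abel
    rw [e1]
    have b6 := nm_add_le B (.inl v) (ι g - 1) (ι (P - g))
    linarith
  · have e1 : ι P + ι Q * i0 - 1 = (ι g - 1) + (ι (P - g) + ι Q * i0) := by
      rw [map_sub]
      abel
    rw [e1]
    have b6 := nm_add_le B (.inl v) (ι g - 1) (ι (P - g) + ι Q * i0)
    have b7 := nm_add_le B (.inl v) (ι (P - g)) (ι Q * i0)
    linarith

end gen

section loc

open Filter

variable {k D : Type} [Field k] [NumberField k] [DivisionRing D] [Algebra k D] {M : ℕ}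
  (B : Module.Basis (Fin M) k D)

/-- Continuity at one. -/
theorem ev_one {p : Pl k} {F : D → D} {a : D}
    (hF : ∀ {l : Filter D}, Tn B p l (fun x => x) 1 → Tn B p l F a) {ε : ℝ} (hε : 0 < ε) :
    ∃ η : ℝ, 0 < η ∧ ∀ x : D, nm B p (x - 1) < η → nm B p (F x - a) < ε := by
  have h1 : Tn B p (Filter.comap (fun z : D => nm B p (z - 1)) (nhds 0)) (fun z => z) 1 :=
    Filter.tendsto_comap
  have h2 := (hF h1).ev_lt hε
  rw [Filter.eventually_comap, Metric.eventually_nhds_iff] at h2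
  obtain ⟨δ, hδ, h⟩ := h2
  refine ⟨δ, hδ, fun z hz => h ?_ z rfl⟩
  rw [Real.dist_0_eq_abs, abs_of_nonneg (nm_nonneg B p _)]
  exact hz

theorem tn_th {p : Pl k} {j : D} (hj : j ≠ 0) {l : Filter D} (h : Tn B p l (fun x => x) 1) :
    Tn B p l (fun x => th j x) 1 := by
  have h1 := (((Tn.const j).mul h).mul (Tn.const j⁻¹)).mul h
  rw [mul_one, mul_one, mul_inv_cancel₀ hj] at h1
  exact h1

end loc

end Vale.Agent.P011.Six.H359
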