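import Vale.Agent.P011.One.HQ1
import Vale.Agent.P011.Even.NormLoc
import Vale.Agent.P011.Six.H359.Frame

/-!
Degree six (helper359): unitary elements `u` of `D` commuting with `i` with `u j u j⁻¹ = 1` lie in
the quaternion algebra over a symmetric field.
-/

open Module NumberField IsDedekindDomain Polynomial

set_option linter.unusedSectionVars false

namespace Vale.Agent.P011.Six.H359

open Vale.Agent.P011.Arith Vale.Agent.P011.Even Vale.Agent.P011.Two Vale.Agent.P011.One

section gen2

variable {k D : Type} [Field k] [NumberField k] [DivisionRing D] [Algebra k D]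

open scoped IsMulCommutative in
/-- The field generated by two commuting elements. -/
theorem exists_gen2 {N : ℕ} (B : Module.Basis (Fin N) k D) {y z : D} (hyz : y * z = z * y) :
    ∃ (E : Type) (_ : Field E) (_ : NumberField E) (_ : Algebra k E) (j : E →ₐ[k] D) (g h : E),
      j g = y ∧ j h = z ∧ ∀ P : E → Prop, (∀ c : k, P (algebraMap k E c)) → P g → P h →
        (∀ a b, P a → P b → P (a + b)) → (∀ a b, P a → P b → P (a * b)) → ∀ x, P x := by
  have _ : FiniteDimensional k D := Module.Finite.of_basis B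
  have hcomm : ∀ a ∈ Algebra.adjoin k ({y, z} : Set D), ∀ b ∈ Algebra.adjoin k ({y, z} : Set D),
      a * b = b * a := by
    intro a ha b hb
    have h1 : ∀ c ∈ ({y, z} : Set D), ∀ e ∈ ({y, z} : Set D), c * e = e * c := by
      rintro c (rfl | rfl) e (rfl | rfl)
      · rfl
      · exact hyz
      · exact hyz.symm
      · rfl
    have h2 : ∀ a ∈ Algebra.adjoin k ({y, z} : Set D), ∀ c ∈ ({y, z} : Set D), a * c = c * a := by
      intro a ha c hc
      induction ha using Algebra.adjoin_induction with
      | mem e he => exact h1 e he c hc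
      | algebraMap r => exact Algebra.commutes _ _
      | add p q _ _ hp hq => rw [add_mul, mul_add, hp, hq]
      | mul p q _ _ hp hq => rw [mul_assoc, hq, ← mul_assoc, hp, mul_assoc]
    induction hb using Algebra.adjoin_induction with
    | mem e he => exact h2 a ha e he
    | algebraMap r => exact (Algebra.commutes _ _).symm
    | add p q _ _ hp hq => rw [add_mul, mul_add, hp, hq]
    | mul p q _ _ hp hq => rw [← mul_assoc, hp, mul_assoc, hq, mul_assoc]
  have _ : IsMulCommutative (Algebra.adjoin k ({y, z} : Set D)) :=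
    IsMulCommutative.of_setLike_mul_comm fun a ha b hb => hcomm a ha b hb
  let _ : Field (Algebra.adjoin k ({y, z} : Set D)) := fieldOfFiniteDimensional k _
  refine ⟨Algebra.adjoin k ({y, z} : Set D), inferInstance, numberField_fin (k := k),
    inferInstance, (Algebra.adjoin k ({y, z} : Set D)).val,
    ⟨y, Algebra.subset_adjoin (Or.inl rfl)⟩, ⟨z, Algebra.subset_adjoin (Or.inr rfl)⟩, rfl, rfl, ?_⟩
  intro P hc hg hh hadd hmul x
  obtain ⟨x, hx⟩ := x
  induction hx using Algebra.adjoin_induction with
  | mem e he =>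
    rcases he with rfl | he
    · exact hg
    · have he' : e = z := he
      subst he'
      exact hh
  | algebraMap r => exact hc r
  | add p q hp' hq' hp hq => exact hadd ⟨p, hp'⟩ ⟨q, hq'⟩ hp hq
  | mul p q hp' hq' hp hq => exact hmul ⟨p, hp'⟩ ⟨q, hq'⟩ hp hq

end gen2

section up

variable {F E : Type} [Field F] [NumberField F] [Field E] [NumberField E] [Algebra F E]

/-- The local condition goes up. -/
theorem sup_up {v : HeightOneSpectrum (𝓞 F)} {w : HeightOneSpectrum (𝓞 E)} (h : Ab w v)
    {a b : Fˣ} (hb : b ∈ NF a ⊔ LS (v.valuation F)) :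
    inc F E b ∈ NF (inc F E a) ⊔ LS (w.valuation E) := by
  obtain ⟨x, hx, y, hy, rfl⟩ := Subgroup.mem_sup.mp hb
  rw [map_mul]
  refine mul_mem (Subgroup.mem_sup_left ?_) (Subgroup.mem_sup_right ?_)
  · obtain ⟨p, q, hpq⟩ := hx
    refine ⟨algebraMap F E p, algebraMap F E q, ?_⟩
    rw [inc_val, hpq, inc_val]
    simp only [map_sub, map_mul, map_pow]
  · exact LS_map h hy

end up

variable {k K D : Type} [Field k] [NumberField k] [Field K] [NumberField K] [StarRing K]
    [DivisionRing D] [StarRing D] [Algebra k K] [Algebra k D] [Algebra K D]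
    [IsScalarTower k K D] {d : kˣ} {s : K} {al be : kˣ} {i j : D}

/-- The quaternion form of `u`. -/
theorem exists_qelt_u (hS : Setting k K D d s) {N : ℕ} (B : Module.Basis (Fin N) k D)
    (hF : Fr k al be i j) {u : D} (hui : u * i = i * u) (huu : u * star u = 1)
    (huj : (u * j) * (u * j) = algebraMap k D be) :
    ∃ (F : Type) (_ : Field F) (_ : NumberField F) (_ : Algebra k F) (ι : F →ₐ[k] D)
      (p₀ p₁ : F), QElt ι (inc k F al) (inc k F be) i j p₀ p₁ 0 0 u ∧
      ι (2 * p₀) = u + star u := by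
  have hu0 : u ≠ 0 := left_ne_zero_of_mul_eq_one huu
  have hus : star u = u⁻¹ := eq_inv_of_mul_eq_one_right huu
  have huu' : star u * u = 1 := by rw [hus, inv_mul_cancel₀ hu0]
  have hj0 := hF.j_ne
  have hsi : star u * i = i * star u := by rw [hus]; exact inv_comm hui
  -- conjugation by `j`
  have h1 : j * u = star u * j := by
    have e : u * (j * u) * j = u * (star u * j) * j := by
      rw [← mul_assoc u (star u), huu, one_mul, hF.jj, ← huj]
      simp only [mul_assoc]
    exact mul_left_cancel₀ hu0 (mul_right_cancel₀ hj0 e)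
  have h2 : j * star u = u * j := by
    have e : u * (j * star u) * u = u * (u * j) * u := by
      calc u * (j * star u) * u = u * j * (star u * u) := by simp only [mul_assoc]
        _ = u * j := by rw [huu', mul_one]
        _ = u * (u * star u) * j := by rw [huu, mul_one]
        _ = u * u * (star u * j) := by simp only [mul_assoc]
        _ = u * u * (j * u) := by rw [h1]
        _ = u * (u * j) * u := by simp only [mul_assoc]
    exact mul_left_cancel₀ hu0 (mul_right_cancel₀ hu0 e)
  obtain ⟨y, hy⟩ : ∃ y, y = u + star u := ⟨_, rfl⟩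
  obtain ⟨z, hz⟩ : ∃ z, z = i * (u - star u) := ⟨_, rfl⟩
  have hyi : y * i = i * y := by rw [hy, add_mul, mul_add, hui, hsi]
  have hzi : z * i = i * z := by rw [hz, mul_assoc, sub_mul, hui, hsi, ← mul_sub]
  have hyj : y * j = j * y := by rw [hy, add_mul, mul_add, h1, h2]; abel
  have hzj : z * j = j * z := by
    rw [hz, mul_assoc, sub_mul, ← h1, ← h2, ← mul_assoc, hF.ji, ← mul_sub, neg_mul, mul_assoc,
      ← mul_neg, ← mul_neg]
    congr 2
    abel
  have hys : star y = y := by rw [hy, star_add, star_star, add_comm]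
  have hzs : star z = z := by
    rw [hz, star_mul, star_sub, star_star, hF.si, mul_neg, ← neg_mul, neg_sub, sub_mul, hui, hsi,
      ← mul_sub]
  have hyz : y * z = z * y := by
    have e : u * star u = star u * u := by rw [huu, huu']
    have e1 : y * (u - star u) = (u - star u) * y := by
      rw [hy, add_mul, mul_sub, mul_sub, sub_mul, mul_add, mul_add, e]
      abel
    rw [hz, ← mul_assoc, hyi, mul_assoc, e1, mul_assoc]
  obtain ⟨F, _, _, _, ι, g, h, hg, hh, hind⟩ := exists_gen2 B hyz
  have sym : ∀ x, star (ι x) = ι x := by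
    refine hind _ (fun c => ?_) (by rw [hg, hys]) (by rw [hh, hzs]) (fun a b ha hb => ?_)
      (fun a b ha hb => ?_)
    · rw [ι.commutes, star_alg hS]
    · rw [map_add, star_add, ha, hb]
    · rw [map_mul, star_mul, ha, hb, ← map_mul, mul_comm, map_mul]
  have comm : ∀ w : D, y * w = w * y → z * w = w * z → ∀ x, ι x * w = w * ι x := by
    intro w hw1 hw2
    refine hind _ (fun c => ?_) (by rw [hg, hw1]) (by rw [hh, hw2]) (fun a b ha hb => ?_)
      (fun a b ha hb => ?_)
    · rw [ι.commutes]
      exact Algebra.commutes _ _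
    · rw [map_add, add_mul, mul_add, ha, hb]
    · rw [map_mul, mul_assoc, hb, ← mul_assoc, ha, mul_assoc]
  have h2D := two_ne_D hS
  have hal : (algebraMap k F al) ≠ 0 := (_root_.map_ne_zero _).mpr al.ne_zero
  obtain ⟨p₀, hp₀⟩ : ∃ p₀ : F, p₀ = g / 2 := ⟨_, rfl⟩
  obtain ⟨p₁, hp₁⟩ : ∃ p₁ : F, p₁ = h / (2 * algebraMap k F al) := ⟨_, rfl⟩
  have e0 : ι (2 * p₀) = y := by
    rw [hp₀, mul_div_cancel₀ _ (two_ne_zero), hg]
  have e1 : ι (2 * p₁) * i = u - star u := by
    have e : ι (2 * p₁) * algebraMap k D al = z := by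
      rw [← ι.commutes, ← map_mul, ← hh]
      congr 1
      rw [hp₁]
      field_simp
    have e' : i * (ι (2 * p₁) * i) = i * (u - star u) := by
      rw [← hz, ← e, ← hF.ii, ← mul_assoc i, ← comm i hyi hzi, mul_assoc]
    exact mul_left_cancel₀ hF.i_ne e'
  have hu : u = ι p₀ + ι p₁ * i := by
    have e : 2 * u = 2 * (ι p₀ + ι p₁ * i) := by
      have e2 : 2 * (ι p₀ + ι p₁ * i) = ι (2 * p₀) + ι (2 * p₁) * i := by
        rw [map_mul, map_mul, map_ofNat]
        noncomm_ring
      rw [e2, e0, e1, hy]
      noncomm_ring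
    exact mul_left_cancel₀ h2D e
  have hu' : star u = ι p₀ - ι p₁ * i := by
    nth_rewrite 1 [hu]
    rw [star_add, star_mul, sym, sym, hF.si, neg_mul, comm i hyi hzi, ← sub_eq_add_neg]
  have hi : Function.Injective ι := (ι : F →+* D).injective
  refine ⟨F, inferInstance, inferInstance, inferInstance, ι, p₀, p₁,
    ⟨⟨sym, hF.si, hF.sj, ?_, ?_, hF.ij, comm i hyi hzi, comm j hyj hzj⟩, ?_, ?_⟩, by rw [e0, hy]⟩
  · rw [inc_val, ι.commutes, hF.ii]
  · rw [inc_val, ι.commutes, hF.jj]
  · have e : ι (p₀ ^ 2 - algebraMap k F al * p₁ ^ 2) = 1 := by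
      rw [← huu, hu']
      nth_rewrite 1 [hu]
      rw [map_sub, map_mul, map_pow, map_pow, ι.commutes, ← hF.ii]
      have c1 := comm i hyi hzi p₀
      have c2 := comm i hyi hzi p₁
      have c3 : ι p₀ * ι p₁ = ι p₁ * ι p₀ := by rw [← map_mul, mul_comm, map_mul]
      have e2 : (ι p₀ + ι p₁ * i) * (ι p₀ - ι p₁ * i) = ι p₀ ^ 2 - ι p₀ * ι p₁ * i +
          ι p₁ * (i * ι p₀) - ι p₁ * (i * ι p₁) * i := by noncomm_ring
      rw [e2, ← c1, ← c2, c3]
      have e3 : i * i * ι p₁ ^ 2 = ι p₁ * (ι p₁ * i) * i := by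
        rw [hF.ii, Algebra.commutes, ← hF.ii]
        noncomm_ring
      rw [e3]
      noncomm_ring
    have e' := hi (e.trans (map_one ι).symm)
    rw [inc_val, inc_val]
    linear_combination e'
  · rw [map_zero, zero_mul, zero_mul, add_zero, add_zero]
    exact hu

end Vale.Agent.P011.Six.H359
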