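import Vale.Agent.P011.Even.NormLoc
import Vale.Agent.P011.Six.H359.Frame

/-!
Degree six (helper359): the element `z = q (1 + θ)` of the centralizer of `L`.
-/

open Module NumberField IsDedekindDomain Polynomial

set_option linter.unusedSectionVars false

namespace Vale.Agent.P011.Six.H359

open Vale.Agent.P011.Arith Vale.Agent.P011.Even Vale.Agent.P011.Two Vale.Agent.P011.One

variable {k K D : Type} [Field k] [NumberField k] [Field K] [NumberField K] [StarRing K]
    [DivisionRing D] [StarRing D] [Algebra k K] [Algebra k D] [Algebra K D]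
    [IsScalarTower k K D] {d : kˣ} {s : K} {al be : kˣ} {i j x : D}
    {L : Type} [Field L] [NumberField L] [Algebra k L]

/-- If `(u j)² = be` and `u` is unitary, then `u j` is antisymmetric. -/
theorem j_star (hF : Fr k al be i j) {u : D} (huu : u * star u = 1)
    (huj : (u * j) * (u * j) = algebraMap k D be) : j * star u = u * j := by
  have hu0 : u ≠ 0 := left_ne_zero_of_mul_eq_one huu
  have hus : star u = u⁻¹ := eq_inv_of_mul_eq_one_right huu
  have huu' : star u * u = 1 := by rw [hus, inv_mul_cancel₀ hu0]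
  have hj0 := hF.j_ne
  have h1 : j * u = star u * j := by
    have e : u * (j * u) * j = u * (star u * j) * j := by
      rw [← mul_assoc u (star u), huu, one_mul, hF.jj, ← huj]
      simp only [mul_assoc]
    exact mul_left_cancel₀ hu0 (mul_right_cancel₀ hj0 e)
  have e : u * (j * star u) * u = u * (u * j) * u := by
    calc u * (j * star u) * u = u * j * (star u * u) := by simp only [mul_assoc]
      _ = u * j := by rw [huu', mul_one]
      _ = u * (u * star u) * j := by rw [huu, mul_one]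
      _ = u * u * (star u * j) := by simp only [mul_assoc]
      _ = u * u * (j * u) := by rw [h1]
      _ = u * (u * j) * u := by simp only [mul_assoc]
  exact mul_left_cancel₀ hu0 (mul_right_cancel₀ hu0 e)

/-- The properties of `z = (q0 + q1 i) (1 + θ)` and `u = z x⁻¹`. -/
theorem z_facts (_hS : Setting k K D d s) (hF : Fr k al be i j) (hxi : x * i = i * x)
    (hx : x * star x = 1) {ι : L →ₐ[k] D} {c q0 q1 : L} (hc : ι c = 2 + th j x + (th j x)⁻¹)
    (sym : ∀ y, star (ι y) = ι y)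
    (comm : ∀ z : D, th j x * z = z * th j x → ∀ y, ι y * z = z * ι y)
    (hq : (q0 ^ 2 - algebraMap k L al * q1 ^ 2) * c = 1) {z u : D}
    (hz : z = (ι q0 + ι q1 * i) * (1 + th j x)) (hu : u = z * x⁻¹) :
    z * star z = 1 ∧ z * i = i * z ∧ (∀ y, ι y * z = z * ι y) ∧ u * i = i * u ∧
      u * star u = 1 ∧ (u * j) * (u * j) = algebraMap k D be ∧
      QFr ι (inc k L al) (inc k L be) i (u * j) := by
  have hx0 : x ≠ 0 := left_ne_zero_of_mul_eq_one hx
  have hsx : star x = x⁻¹ := eq_inv_of_mul_eq_one_right hx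
  have hj0 := hF.j_ne
  obtain ⟨θ, hθ⟩ : ∃ θ, θ = th j x := ⟨_, rfl⟩
  obtain ⟨g, hg⟩ : ∃ g, g = gg j x := ⟨_, rfl⟩
  have hgi : g * i = -(i * g) := by rw [hg]; exact hF.gg_i hxi
  have hgθ : g * θ = θ * g := by rw [hg, hθ]; exact hF.gg_comm hx0
  have hgg : g * g * θ = algebraMap k D be := by rw [hg, hθ]; exact hF.gg_gg hx0
  have hθ0 : θ ≠ 0 := by rw [hθ]; exact th_ne hj0 hx0
  have hθi : θ * i = i * θ := by rw [hθ]; exact hF.th_comm hxi
  have hθs : star θ = θ⁻¹ := by rw [hθ]; exact hF.star_th hx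
  rw [← hθ] at hc comm hz
  have ci := comm i hθi
  have cg := comm g hgθ.symm
  have cθ := comm θ rfl
  obtain ⟨q, hqd⟩ : ∃ q, q = ι q0 + ι q1 * i := ⟨_, rfl⟩
  obtain ⟨q', hqd'⟩ : ∃ q', q' = ι q0 - ι q1 * i := ⟨_, rfl⟩
  obtain ⟨n, hn⟩ : ∃ n, n = 1 + θ := ⟨_, rfl⟩
  obtain ⟨n', hn'⟩ : ∃ n', n' = 1 + θ⁻¹ := ⟨_, rfl⟩
  rw [← hqd, ← hn] at hz
  have c10 : ι q0 * ι q1 = ι q1 * ι q0 := by rw [← map_mul, mul_comm, map_mul]
  have hqq : q * q' = ι (q0 ^ 2 - algebraMap k L al * q1 ^ 2) := by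
    have e1 : q * q' = ι q0 ^ 2 - ι q0 * ι q1 * i + ι q1 * (i * ι q0) - ι q1 * (i * ι q1) * i := by
      rw [hqd, hqd']
      noncomm_ring
    have e3 : ι q1 * (ι q1 * i) * i = algebraMap k D al * ι q1 ^ 2 := by
      rw [Algebra.commutes, ← hF.ii]
      noncomm_ring
    rw [e1, ← ci, ← ci, e3, c10, map_sub, map_mul, map_pow, map_pow, ι.commutes]
    noncomm_ring
  have hqn : q * n = n * q := by
    have e0 := cθ q0
    have e1 := cθ q1
    rw [hqd, hn]
    have e2 : (ι q0 + ι q1 * i) * (1 + θ) = ι q0 + ι q1 * i + ι q0 * θ + ι q1 * (i * θ) := by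
      noncomm_ring
    rw [e2, e0, ← hθi, ← mul_assoc, e1]
    noncomm_ring
  have hqn' : q' * n = n * q' := by
    have e0 := cθ q0
    have e1 := cθ q1
    rw [hqd', hn]
    have e2 : (ι q0 - ι q1 * i) * (1 + θ) = ι q0 - ι q1 * i + ι q0 * θ - ι q1 * (i * θ) := by
      noncomm_ring
    rw [e2, e0, ← hθi, ← mul_assoc, e1]
    noncomm_ring
  have hgq : g * q = q' * g := by
    rw [hqd, hqd', mul_add, sub_mul, ← cg, ← mul_assoc, ← cg, mul_assoc, hgi, mul_neg, mul_assoc,
      ← sub_eq_add_neg]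
  have hgn : g * n = n * g := by rw [hn, mul_add, add_mul, mul_one, one_mul, hgθ]
  have hsq : star q = q' := by
    rw [hqd, hqd', star_add, star_mul, sym, sym, hF.si, neg_mul, ← ci, ← sub_eq_add_neg]
  have hsn : star n = n' := by rw [hn, hn', star_add, star_one, hθs]
  have hnn' : n * n' = ι c := by
    rw [hn, hn', hc]
    have e : (1 + θ) * (1 + θ⁻¹) = 1 + θ + θ⁻¹ + θ * θ⁻¹ := by noncomm_ring
    rw [e, mul_inv_cancel₀ hθ0]
    have : (2 : D) = 1 + 1 := by norm_num
    rw [this]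
    abel
  have hnn : n * n = ι c * θ := by
    rw [hn, hc]
    have e : (2 + θ + θ⁻¹) * θ = 2 * θ + θ * θ + θ⁻¹ * θ := by noncomm_ring
    rw [e, inv_mul_cancel₀ hθ0]
    noncomm_ring
  have hzz : z * star z = 1 := by
    rw [hz, star_mul, hsq, hsn]
    have e : q * n * (n' * q') = q * (n * n') * q' := by simp only [mul_assoc]
    have e' : ι c * q' = q' * ι c := by
      rw [hqd', mul_sub, sub_mul, ← map_mul, ← mul_assoc, ← map_mul, mul_assoc, ← ci,
        ← mul_assoc, ← map_mul, ← map_mul, mul_comm c, mul_comm c]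
    rw [e, hnn', mul_assoc, e', ← mul_assoc, hqq, ← map_mul, hq, map_one]
  have hzi : z * i = i * z := by
    have e0 : n * i = i * n := by rw [hn, add_mul, mul_add, one_mul, mul_one, hθi]
    have e1 : q * i = i * q := by rw [hqd, add_mul, mul_add, ← ci q0, ← mul_assoc i, ← ci q1]
    rw [hz, mul_assoc, e0, ← mul_assoc, e1, mul_assoc]
  have hzι : ∀ y, ι y * z = z * ι y := by
    intro y
    have e0 : ι y * q = q * ι y := by
      rw [hqd, mul_add, add_mul, ← map_mul, ← mul_assoc, ← map_mul, mul_assoc, ← ci, ← mul_assoc,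
        ← map_mul, ← map_mul, mul_comm y, mul_comm y]
    have e1 : ι y * n = n * ι y := by rw [hn, mul_add, add_mul, one_mul, mul_one, cθ]
    rw [hz, ← mul_assoc, e0, mul_assoc, e1, mul_assoc]
  have hui : u * i = i * u := by
    rw [hu, mul_assoc, inv_comm hxi, ← mul_assoc, hzi, mul_assoc]
  have huu : u * star u = 1 := by
    rw [hu, star_mul, star_inv₀, hsx, inv_inv, mul_assoc, ← mul_assoc x⁻¹, inv_mul_cancel₀ hx0,
      one_mul, hzz]
  have hug : u * j = z * g := by rw [hu, hg, gg, mul_assoc]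
  have huj : (u * j) * (u * j) = algebraMap k D be := by
    have e : z * g * (z * g) = q * q' * (n * n) * (g * g) := by
      rw [hz]
      calc q * n * g * (q * n * g) = q * n * (g * q) * n * g := by simp only [mul_assoc]
        _ = q * (n * q') * (g * n) * g := by rw [hgq]; simp only [mul_assoc]
        _ = q * (q' * n) * (n * g) * g := by rw [← hqn', hgn]
        _ = _ := by simp only [mul_assoc]
    rw [hug, e, hqq, hnn, ← mul_assoc (ι _) (ι c) θ, ← map_mul, hq, map_one, one_mul, ← hgg,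
      ← mul_assoc, ← hgθ, mul_assoc, ← hgθ, ← mul_assoc]
  refine ⟨hzz, hzi, hzι, hui, huu, huj, ⟨sym, hF.si, ?_, ?_, ?_, ?_, ci, ?_⟩⟩
  · rw [star_mul, hF.sj, neg_mul, j_star hF huu huj]
  · rw [inc_val, ι.commutes, hF.ii]
  · rw [inc_val, ι.commutes, huj]
  · rw [← mul_assoc, ← hui, mul_assoc, hF.ij, mul_neg, mul_assoc]
  · intro y
    rw [hug, ← mul_assoc, hzι, mul_assoc, cg, mul_assoc]

end Vale.Agent.P011.Six.H359
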