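import Vale.Agent.P011.Pow.Numb
import Vale.Agent.P011.Six.H359.Core3
import Vale.Agent.P011.Six.H359.HasseD
import Vale.Agent.P011.Six.H359.Near1
import Vale.Agent.P011.Six.H359.Uel
import Vale.Agent.P011.Six.H359.Zel

/-!
Degree six (helper359): step (1). An element `x` of the centralizer of `i`, close to one, is a
product of an element of `N` and of an element `z` of the centralizer of a cubic symmetric field.
-/

open Module NumberField IsDedekindDomain Polynomial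

set_option linter.unusedSectionVars false

namespace Vale.Agent.P011.Six.H359

open Vale.Agent.P011.Arith Vale.Agent.P011.Even Vale.Agent.P011.Two Vale.Agent.P011.One
  Vale.Agent.P011.Pow

variable {k K D : Type} [Field k] [NumberField k] [Field K] [NumberField K] [StarRing K]
    [DivisionRing D] [StarRing D] [Algebra k K] [Algebra k D] [Algebra K D]
    [IsScalarTower k K D] {d : kˣ} {s : K} {al be : kˣ} {i j : D}

/-- The cubic relation of `θ`, and `θ` is a norm, without the centralizer. -/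
theorem core' (hS : Setting k K D d s) (hdeg : finrank K D = 6 ^ 2) (hF : Fr k al be i j) {x : D}
    (hxi : x * i = i * x) (hx : x * star x = 1)
    {Ω : Type} [Field Ω] [Algebra K Ω] (f : D →ₐ[K] Matrix (Fin 6) (Fin 6) Ω)
    (hdet : (f x).det = 1) :
    (∃ z : K, th j x = algebraMap K D z ∧ z ^ 3 = 1) ∨
    ∃ (a : K) (P Q : K[X]), th j x ^ 3 - algebraMap K D a * th j x ^ 2 +
        algebraMap K D (star a) * th j x - 1 = 0 ∧
      (∀ b0 b1 b2 : K, algebraMap K D b0 + algebraMap K D b1 * th j x +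
        algebraMap K D b2 * th j x ^ 2 = 0 → b0 = 0 ∧ b1 = 0 ∧ b2 = 0) ∧
      (aeval (th j x) P) ^ 2 - algebraMap k D al * (aeval (th j x) Q) ^ 2 = th j x := by
  obtain ⟨L, _, _, _, K', _, _, _, _, C, _, _, _, _, _, _, T, jC, hSC, hdC, h⟩ :=
    exists_isCent hS (hF.nsq_a hS) (hF.nsq_ad hS) (m := 3) hdeg (hF.t_mem hS)
  exact core hS hdeg h hSC hdC rfl hF hxi hx f hdet

section consts

variable {M : ℕ} (B : Module.Basis (Fin M) k D) (v : HeightOneSpectrum (𝓞 k))

open Filter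

/-- The first constants: closeness of `θ`. -/
theorem consts1 (hS : Setting k K D d s) (hF : Fr k al be i j) {ε : ℝ} (hε : 0 < ε) :
    ∃ η : ℝ, 0 < η ∧ ∀ x : D, nm B (.inl v) (x - 1) < η →
      nm B (.inl v) ((2 + th j x + (th j x)⁻¹) * 4⁻¹ - 1) < ε ∧
      nm B (.inl v) (4 * (2 + th j x + (th j x)⁻¹)⁻¹ - 1) < ε ∧
      nm B (.inl v) ((1 + th j x) * 2⁻¹ - 1) < ε ∧
      nm B (.inl v) (x⁻¹ - 1) < ε ∧
      nm B (.inl v) ((th j x + (th j x)⁻¹ - 2) * 2⁻¹) < ε ∧
      nm B (.inl v) ((th j x - (th j x)⁻¹) * (2 * algebraMap K D s)⁻¹) < ε ∧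
      nm B (.inl v) (2 - (x + x⁻¹)) < ε ∧
      th j x ^ 2 + th j x + 1 ≠ 0 := by
  have h2 := two_ne_D hS
  have h4 : (4 : D) ≠ 0 := by
    have h : (4 : D) = 2 * 2 := by norm_num
    rw [h]
    exact mul_ne_zero h2 h2
  have h3 : (3 : D) ≠ 0 := by
    have h : (algebraMap k D) 3 ≠ 0 := (_root_.map_ne_zero _).mpr three_ne_zero
    rwa [map_ofNat] at h
  have hj := hF.j_ne
  -- the limits
  have F0 : ∀ {l : Filter D}, Tn B (.inl v : Pl k) l (fun x => x) 1 →
      Tn B (.inl v : Pl k) l (fun x => 2 + th j x + (th j x)⁻¹) 4 := fun h => by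
    have h1 := ((Tn.const (2 : D)).add (tn_th B hj h)).add ((tn_th B hj h).inv one_ne_zero)
    have e : (2 : D) + 1 + 1⁻¹ = 4 := by norm_num
    rwa [e] at h1
  have F1 : ∀ {l : Filter D}, Tn B (.inl v : Pl k) l (fun x => x) 1 →
      Tn B (.inl v : Pl k) l (fun x => (2 + th j x + (th j x)⁻¹) * 4⁻¹) 1 := fun h => by
    have h1 := (F0 h).mul (Tn.const (4 : D)⁻¹)
    rwa [mul_inv_cancel₀ h4] at h1
  have F2 : ∀ {l : Filter D}, Tn B (.inl v : Pl k) l (fun x => x) 1 →
      Tn B (.inl v : Pl k) l (fun x => 4 * (2 + th j x + (th j x)⁻¹)⁻¹) 1 := fun h => by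
    have h1 := (Tn.const (4 : D)).mul ((F0 h).inv h4)
    rwa [mul_inv_cancel₀ h4] at h1
  have F3 : ∀ {l : Filter D}, Tn B (.inl v : Pl k) l (fun x => x) 1 →
      Tn B (.inl v : Pl k) l (fun x => (1 + th j x) * 2⁻¹) 1 := fun h => by
    have h1 := ((Tn.const (1 : D)).add (tn_th B hj h)).mul (Tn.const (2 : D)⁻¹)
    have e : ((1 : D) + 1) * 2⁻¹ = 1 := by
      rw [one_add_one_eq_two, mul_inv_cancel₀ h2]
    rwa [e] at h1
  have F4 : ∀ {l : Filter D}, Tn B (.inl v : Pl k) l (fun x => x) 1 →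
      Tn B (.inl v : Pl k) l (fun x => x⁻¹) 1 := fun h => by
    have h1 := h.inv one_ne_zero
    rwa [inv_one] at h1
  have F5 : ∀ {l : Filter D}, Tn B (.inl v : Pl k) l (fun x => x) 1 →
      Tn B (.inl v : Pl k) l (fun x => (th j x + (th j x)⁻¹ - 2) * 2⁻¹) 0 := fun h => by
    have h1 := (((tn_th B hj h).add ((tn_th B hj h).inv one_ne_zero)).sub
      (Tn.const (2 : D))).mul (Tn.const (2 : D)⁻¹)
    have e : ((1 : D) + 1⁻¹ - 2) * 2⁻¹ = 0 := by
      rw [inv_one, one_add_one_eq_two, sub_self, zero_mul]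
    rwa [e] at h1
  have F6 : ∀ {l : Filter D}, Tn B (.inl v : Pl k) l (fun x => x) 1 →
      Tn B (.inl v : Pl k) l
        (fun x => (th j x - (th j x)⁻¹) * (2 * algebraMap K D s)⁻¹) 0 := fun h => by
    have h1 := ((tn_th B hj h).sub ((tn_th B hj h).inv one_ne_zero)).mul
      (Tn.const (2 * algebraMap K D s)⁻¹)
    have e : ((1 : D) - 1⁻¹) * (2 * algebraMap K D s)⁻¹ = 0 := by
      rw [inv_one, sub_self, zero_mul]
    rwa [e] at h1
  have F7 : ∀ {l : Filter D}, Tn B (.inl v : Pl k) l (fun x => x) 1 →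
      Tn B (.inl v : Pl k) l (fun x => 2 - (x + x⁻¹)) 0 := fun h => by
    have h1 := (Tn.const (2 : D)).sub (h.add (h.inv one_ne_zero))
    have e : (2 : D) - (1 + 1⁻¹) = 0 := by
      rw [inv_one, one_add_one_eq_two, sub_self]
    rwa [e] at h1
  have F8 : ∀ {l : Filter D}, Tn B (.inl v : Pl k) l (fun x => x) 1 →
      Tn B (.inl v : Pl k) l (fun x => th j x ^ 2 + th j x + 1) 3 := fun h => by
    have h1 := (((tn_th B hj h).mul (tn_th B hj h)).add (tn_th B hj h)).add (Tn.const (1 : D))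
    have e : (1 : D) * 1 + 1 + 1 = 3 := by norm_num
    rw [e] at h1
    simpa only [pow_two] using h1
  obtain ⟨η1, p1, H1⟩ := ev_one B (p := .inl v) F1 hε
  obtain ⟨η2, p2, H2⟩ := ev_one B (p := .inl v) F2 hε
  obtain ⟨η3, p3, H3⟩ := ev_one B (p := .inl v) F3 hε
  obtain ⟨η4, p4, H4⟩ := ev_one B (p := .inl v) F4 hε
  obtain ⟨η5, p5, H5⟩ := ev_one B (p := .inl v) F5 hε
  obtain ⟨η6, p6, H6⟩ := ev_one B (p := .inl v) F6 hε
  obtain ⟨η7, p7, H7⟩ := ev_one B (p := .inl v) F7 hε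
  obtain ⟨η8, p8, H8⟩ := ev_one B (p := .inl v) F8 (ε := nm B (.inl v) 3) (nm_pos' B _ h3)
  refine ⟨min (min (min η1 η2) (min η3 η4)) (min (min η5 η6) (min η7 η8)), by positivity,
    fun x hx => ?_⟩
  simp only [lt_min_iff] at hx
  obtain ⟨⟨⟨x1, x2⟩, x3, x4⟩, ⟨x5, x6⟩, x7, x8⟩ := hx
  refine ⟨H1 x x1, H2 x x2, H3 x x3, H4 x x4, ?_, ?_, ?_, ?_⟩
  · simpa only [sub_zero] using H5 x x5
  · simpa only [sub_zero] using H6 x x6
  · simpa only [sub_zero] using H7 x x7
  · intro h0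
    have h := H8 x x8
    rw [h0, zero_sub, nm_neg] at h
    exact lt_irrefl _ h

end consts


/-- Elements `u` of the quaternion algebras `(al, be)` over symmetric fields, close to one, lie in
`N`. -/
theorem mem_N (hS : Setting k K D d s) (hF : Fr k al be i j) {M : ℕ}
    (B : Module.Basis (Fin M) k D) {e : ℕ} {N : Set D} (hN : HQ1 k e N)
    {S : Finset (HeightOneSpectrum (𝓞 k))}
    (hbe : ∀ v : HeightOneSpectrum (𝓞 k), be ∉ NF al ⊔ LS (v.valuation k) → v ∈ S)
    {δ : HeightOneSpectrum (𝓞 k) → ℝ}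
    (H : ∀ (v : HeightOneSpectrum (𝓞 k)) (F : Type) [Field F] [NumberField F] [Algebra k F]
      (j : F →ₐ[k] D) (w : HeightOneSpectrum (𝓞 F)), Ab w v → ∀ y : F,
      nm B (.inl v) (j y) < δ v → w.valuation F y < w.valuation F (algebraMap k F (4 * (e : k) ^ 4)))
    {u : D} (hui : u * i = i * u) (huu : u * star u = 1)
    (huj : (u * j) * (u * j) = algebraMap k D be)
    (hnear : ∀ v ∈ S, nm B (.inl v) (2 - (u + star u)) < δ v) : u ∈ N := by
  obtain ⟨F, _, _, _, ι, p₀, p₁, hQ, hp⟩ := exists_qelt_u hS B hF hui huu huj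
  refine hN F ι _ _ _ _ _ _ _ _ _ hQ fun ω hω => ?_
  obtain ⟨v, hv⟩ := Arith.exists_below (F := k) ω
  have hvS : v ∈ S := hbe v fun h => hω (sup_up hv h)
  have h1 := H v F ι ω hv (2 - 2 * p₀) (by
    rw [map_sub, hp, map_ofNat]
    exact hnear v hvS)
  rwa [map_mul, map_pow, map_natCast, map_ofNat] at h1

/-- The output of step (1): `x = u z` with `u` in `N`, `z` in the centralizer of the cubic
symmetric field `L`. -/
structure Dat1 (d : kˣ) (s : K) (al be : kˣ) (i j x : D) (N : Set D) {L : Type} [Field L]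
    [Algebra k L] (ι : L →ₐ[k] D) (c t0 t1 q0 q1 : L) (a : K) (u z : D) : Prop where
  rk : finrank k L = 3
  hc : ι c = 2 + th j x + (th j x)⁻¹
  gen : ∀ y : L, ∃ p : k[X], y = aeval c p
  sym : ∀ y, star (ι y) = ι y
  hth : th j x = ι t0 + ι t1 * algebraMap K D s
  hn : t0 ^ 2 - algebraMap k L d * t1 ^ 2 = 1
  hct : c = 2 * t0 + 2
  cub : th j x ^ 3 - algebraMap K D a * th j x ^ 2 + algebraMap K D (star a) * th j x - 1 = 0
  lin : ∀ b0 b1 b2 : K, algebraMap K D b0 + algebraMap K D b1 * th j x +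
    algebraMap K D b2 * th j x ^ 2 = 0 → b0 = 0 ∧ b1 = 0 ∧ b2 = 0
  hq : (q0 ^ 2 - algebraMap k L al * q1 ^ 2) * c = 1
  hz : z = (ι q0 + ι q1 * i) * (1 + th j x)
  zz : z * star z = 1
  zi : z * i = i * z
  zι : ∀ y, ι y * z = z * ι y
  uu : u * star u = 1
  uN : u ∈ N
  xz : x = u * z
  fr : QFr ι (inc k L al) (inc k L be) i (star u * j)

/-- **Step (1).** -/
theorem step1 (hS : Setting k K D d s) (hdeg : finrank K D = 6 ^ 2) (hF : Fr k al be i j)
    {Ω : Type} [Field Ω] [Algebra K Ω] (f : D →ₐ[K] Matrix (Fin 6) (Fin 6) Ω) {M : ℕ}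
    (B : Module.Basis (Fin M) k D) {e : ℕ} (he : 0 < e) {N : Set D} (hN : HQ1 k e N) :
    ∃ S0 : Set (HeightOneSpectrum (𝓞 k)), S0.Finite ∧
    ∀ S : Finset (HeightOneSpectrum (𝓞 k)), S0 ⊆ S → ∀ γ : HeightOneSpectrum (𝓞 k) → kˣ,
    ∃ η : HeightOneSpectrum (𝓞 k) → ℝ, (∀ v, 0 < η v) ∧ ∀ x : D, x * i = i * x →
      x * star x = 1 → (f x).det = 1 → (∀ v ∈ S, nm B (.inl v) (x - 1) < η v) →
      x ∈ N ∨ ∃ (L : Type) (_ : Field L) (_ : NumberField L) (_ : Algebra k L) (ι : L →ₐ[k] D)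
        (c t0 t1 q0 q1 : L) (a : K) (u z : D), Dat1 d s al be i j x N ι c t0 t1 q0 q1 a u z ∧
        ∀ v ∈ S, ∀ w : HeightOneSpectrum (𝓞 L), Ab w v →
          w.valuation L (2 * q0 - 1) < w.valuation L (algebraMap k L (γ v)) ∧
          w.valuation L q1 < w.valuation L (algebraMap k L (γ v)) ∧
          w.valuation L (t0 - 1) < w.valuation L (algebraMap k L (γ v)) ∧
          w.valuation L t1 < w.valuation L (algebraMap k L (γ v)) := by
  classical
  obtain ⟨v₀, -⟩ := exists_out (k := k) Set.finite_empty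
  have hbadf : {v : HeightOneSpectrum (𝓞 k) | be ∉ NF al ⊔ LS (v.valuation k)}.Finite :=
    Set.Finite.preimage (Sum.inl_injective.injOn) (bad_finite al be)
  refine ⟨{v | v.valuation k ((Units.mk0 (2 : k) two_ne_zero : kˣ) : k) ≠ 1} ∪
    {v | v.valuation k (al : k) ≠ 1} ∪ {v | v.valuation k (d : k) ≠ 1} ∪
    {v | be ∉ NF al ⊔ LS (v.valuation k)} ∪ {v₀},
    ((((finite_ne_one _).union (finite_ne_one _)).union (finite_ne_one _)).union hbadf).union
      (Set.finite_singleton _), ?_⟩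
  intro S hS0 γ
  have hv₀ : v₀ ∈ S := hS0 (Or.inr rfl)
  have hbe : ∀ v : HeightOneSpectrum (𝓞 k), be ∉ NF al ⊔ LS (v.valuation k) → v ∈ S :=
    fun v hv => hS0 (Or.inl (Or.inr hv))
  have he' : (4 * (e : k) ^ 4) ≠ 0 :=
    mul_ne_zero (by norm_num) (pow_ne_zero _ (Nat.cast_ne_zero.mpr he.ne'))
  choose δu hδu Hu using fun v : HeightOneSpectrum (𝓞 k) => val_of_small B v _ he'
  choose δ1 hδ1 H1 using fun v : HeightOneSpectrum (𝓞 k) => consts1 B v hS hF (hδu v)
  choose δ2 hδ2 H2 using fun v : HeightOneSpectrum (𝓞 k) => near_mul B (.inl v : Pl k) (hδ1 v)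
  choose δ3 hδ3 H3 using fun v : HeightOneSpectrum (𝓞 k) => near_mul B (.inl v : Pl k) (hδ2 v)
  choose δa hδa Ha using fun v : HeightOneSpectrum (𝓞 k) =>
    val_of_small B v (γ v : k) (γ v).ne_zero
  choose δb hδb Hb using fun v : HeightOneSpectrum (𝓞 k) =>
    val_of_small B v (2 * (γ v : k)) (mul_ne_zero two_ne_zero (γ v).ne_zero)
  choose δ4 hδ4 H4 using fun v : HeightOneSpectrum (𝓞 k) => val_of_small B v (4 : k) (by norm_num)
  obtain ⟨δq, hδq, Hq⟩ := exists_q B S ⟨v₀, hv₀⟩ i (fun v => min (δ3 v) (min (δa v) (δb v)))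
    (fun v => lt_min (hδ3 v) (lt_min (hδa v) (hδb v)))
  choose η hη Hη using fun v : HeightOneSpectrum (𝓞 k) => consts1 B v hS hF
    (ε := min (min (min (δ4 v) (δq v)) (min (δ3 v) (δ2 v))) (min (δa v) (δu v)))
    (lt_min (lt_min (lt_min (hδ4 v) (hδq v)) (lt_min (hδ3 v) (hδ2 v))) (lt_min (hδa v) (hδu v)))
  refine ⟨η, hη, fun x hxi hx hdet hnear => ?_⟩
  have hx0 : x ≠ 0 := left_ne_zero_of_mul_eq_one hx
  have hsx : star x = x⁻¹ := eq_inv_of_mul_eq_one_right hx
  have hj0 := hF.j_ne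
  have hθs : star (th j x) = (th j x)⁻¹ := hF.star_th hx
  have hθ0 : th j x ≠ 0 := th_ne hj0 hx0
  have hη' := fun v hv => Hη v x (hnear v hv)
  rcases core' hS hdeg hF hxi hx f hdet with ⟨z, hz, hz3⟩ | ⟨a, P, Q, hcub, hli, hPQ⟩
  · left
    have h1 : th j x = 1 := by
      have h2 := (hη' v₀ hv₀).2.2.2.2.2.2.2
      have h3 : (th j x - 1) * (th j x ^ 2 + th j x + 1) = 0 := by
        have e : (th j x - 1) * (th j x ^ 2 + th j x + 1) = th j x ^ 3 - 1 := by noncomm_ring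
        rw [e, hz, ← map_pow, hz3, map_one, sub_self]
      rcases mul_eq_zero.mp h3 with h | h
      · exact sub_eq_zero.mp h
      · exact absurd h h2
    refine mem_N hS hF B hN hbe (fun v => Hu v) hxi hx ?_ fun v hv => ?_
    · have h2 : j * x * j⁻¹ = x⁻¹ := eq_inv_of_mul_eq_one_left h1
      have h3 : x * j * (x * j) = x * (j * x * j⁻¹) * (j * j) := by
        calc x * j * (x * j) = x * (j * x * (j⁻¹ * j)) * j := by
              rw [inv_mul_cancel₀ hj0, mul_one]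
              simp only [mul_assoc]
          _ = _ := by simp only [mul_assoc]
      rw [h3, h2, mul_inv_cancel₀ hx0, one_mul, hF.jj]
    · rw [hsx]
      exact (hη' v hv).2.2.2.2.2.2.1.trans_le ((min_le_right _ _).trans (min_le_right _ _))
  right
  obtain ⟨L, _, _, _, ι, c, t0, t1, hrk, hc, hgen, sym, comm, hθ, hn, hct, hc0⟩ :=
    exists_L hS B hθs hθ0 hcub hli
  have hιi : Function.Injective ι := (ι : L →+* D).injective
  obtain ⟨c', hc'⟩ : ∃ c' : Lˣ, (c' : L) = c := ⟨Units.mk0 c hc0, rfl⟩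
  have hcN : c' ∈ NF (inc k L al) := by
    refine c_mem_NF hS sym hθ hn hPQ c' (by rw [hc', hct]) fun w => ?_
    obtain ⟨v, hv⟩ := Arith.exists_below (F := k) w
    by_cases hvS : v ∈ S
    · right
      have h1 := H4 v L ι w hv (c' / 4 - 1 : L) (by
        rw [map_sub, map_div₀, map_ofNat, map_one, hc', hc, div_eq_mul_inv]
        exact (hη' v hvS).1.trans_le ((min_le_left _ _).trans ((min_le_left _ _).trans
          (min_le_left _ _))))
      rwa [map_ofNat] at h1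
    · left
      have hv' : v ∉ ({v | v.valuation k ((Units.mk0 (2 : k) two_ne_zero : kˣ) : k) ≠ 1} ∪
          {v | v.valuation k (al : k) ≠ 1} ∪ {v | v.valuation k (d : k) ≠ 1} ∪
          {v | be ∉ NF al ⊔ LS (v.valuation k)} ∪ {v₀} : Set (HeightOneSpectrum (𝓞 k))) :=
        fun h => hvS (hS0 h)
      simp only [Set.mem_union, Set.mem_ofPred_eq, not_or, not_not, Units.val_mk0] at hv'
      obtain ⟨⟨⟨⟨h2, h3⟩, h4⟩, -⟩, -⟩ := hv'
      refine ⟨?_, (val_eq_one_iff hv _).mpr h3, (val_eq_one_iff hv _).mpr h4⟩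
      have h5 := (val_eq_one_iff hv _).mpr h2
      rwa [map_ofNat] at h5
  -- the unit `4 / c`
  obtain ⟨cc, hcc⟩ : ∃ cc : Lˣ, (cc : L) = 4 / c := ⟨Units.mk0 (4 / c)
    (div_ne_zero (by norm_num) hc0), rfl⟩
  have hccN : cc ∈ NF (inc k L al) := by
    have h1 : cc = Units.mk0 (2 : L) two_ne_zero ^ 2 * c'⁻¹ := by
      ext
      rw [Units.val_mul, Units.val_pow_eq_pow_val, Units.val_mk0, Units.val_inv_eq_inv_val, hcc,
        hc']
      field_simp
      norm_num
    rw [h1]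
    exact mul_mem (Sch.sq_mem_NF _ _) (inv_mem hcN)
  obtain ⟨p0, p1, hp, hpn⟩ := Hq L ι (inc k L al) cc hccN fun v hv => by
    rw [hcc, map_div₀, map_ofNat, hc, div_eq_mul_inv]
    exact (hη' v hv).2.1.trans_le ((min_le_left _ _).trans ((min_le_left _ _).trans
      (min_le_right _ _)))
  obtain ⟨q0, hq0⟩ : ∃ q0 : L, q0 = p0 / 2 := ⟨_, rfl⟩
  obtain ⟨q1, hq1⟩ : ∃ q1 : L, q1 = p1 / 2 := ⟨_, rfl⟩
  have hq : (q0 ^ 2 - algebraMap k L al * q1 ^ 2) * c = 1 := by
    rw [inc_val, hcc] at hp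
    rw [hq0, hq1]
    field_simp at hp ⊢
    linear_combination hp
  obtain ⟨z, hz⟩ : ∃ z, z = (ι q0 + ι q1 * i) * (1 + th j x) := ⟨_, rfl⟩
  obtain ⟨u, hu⟩ : ∃ u, u = z * x⁻¹ := ⟨_, rfl⟩
  obtain ⟨hzz, hzi, hzι, hui, huu, huj, hfr⟩ := z_facts hS hF hxi hx hc sym comm hq hz hu
  have hu0 : u ≠ 0 := left_ne_zero_of_mul_eq_one huu
  have hus : star u = u⁻¹ := eq_inv_of_mul_eq_one_right huu
  have huu' : star u * u = 1 := by rw [hus, inv_mul_cancel₀ hu0]
  have hz2 : z = (ι p0 + ι p1 * i) * ((1 + th j x) * 2⁻¹) := by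
    have h2 := two_ne_D hS
    have e0 : ι q0 = ι p0 * 2⁻¹ := by rw [hq0, map_div₀, map_ofNat, div_eq_mul_inv]
    have e1 : ι q1 = ι p1 * 2⁻¹ := by rw [hq1, map_div₀, map_ofNat, div_eq_mul_inv]
    have c2 : ∀ y : D, (2 : D)⁻¹ * y = y * 2⁻¹ := fun y => by
      have h : (2 : D)⁻¹ = algebraMap k D (2 : k)⁻¹ := by rw [map_inv₀, map_ofNat]
      rw [h]
      exact Algebra.commutes _ _
    rw [hz, e0, e1, mul_assoc (ι p1), c2 i, ← mul_assoc, ← add_mul, mul_assoc, c2]
  have hznear : ∀ v ∈ S, nm B (.inl v) (z - 1) < δ2 v := by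
    intro v hv
    rw [hz2]
    refine H3 v _ _ ((hpn v hv).2.2.trans_le (min_le_left _ _)) ?_
    exact (hη' v hv).2.2.1.trans_le ((min_le_left _ _).trans ((min_le_right _ _).trans
      (min_le_left _ _)))
  have hunear : ∀ v ∈ S, nm B (.inl v) (u - 1) < δ1 v := by
    intro v hv
    rw [hu]
    refine H2 v _ _ (hznear v hv) ?_
    exact (hη' v hv).2.2.2.1.trans_le ((min_le_left _ _).trans ((min_le_right _ _).trans
      (min_le_right _ _)))
  have hsuj : (star u * j) * (star u * j) = algebraMap k D be := by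
    have h1 := j_star hF huu huj
    calc star u * j * (star u * j) = star u * (j * star u) * j := by simp only [mul_assoc]
      _ = (star u * u) * (j * j) := by rw [h1]; simp only [mul_assoc]
      _ = _ := by rw [huu', one_mul, hF.jj]
  have hsN : star u ∈ N := by
    refine mem_N hS hF B hN hbe (fun v => Hu v) (u := star u) (by rw [hus]; exact inv_comm hui)
      (by rw [star_star, huu']) hsuj fun v hv => ?_
    rw [star_star, add_comm, hus]
    exact (H1 v u (hunear v hv)).2.2.2.2.2.2.1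
  refine ⟨L, inferInstance, inferInstance, inferInstance, ι, c, t0, t1, q0, q1, a, star u, z,
    ⟨hrk, hc, hgen, sym, hθ, hn, hct, hcub, hli, hq, hz, hzz, hzi, hzι, by rw [star_star, huu'],
      hsN, ?_, by rwa [star_star]⟩, fun v hv w hw => ?_⟩
  · rw [hus, hu, mul_inv_rev, inv_inv, mul_assoc,
      inv_mul_cancel₀ (left_ne_zero_of_mul_eq_one hzz), mul_one]
  · obtain ⟨b1, b2, -⟩ := hpn v hv
    obtain ⟨-, -, -, -, b5, b6, -, -⟩ := hη' v hv
    have hθi : (th j x)⁻¹ = ι t0 - ι t1 * algebraMap K D s := by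
      rw [← hθs]
      nth_rewrite 1 [hθ]
      rw [star_add, star_mul, sym, sym, star_sD hS, neg_mul, ← sub_eq_add_neg,
        Algebra.commutes s (ι t1)]
    have h2 := two_ne_D hS
    have hs0 : algebraMap K D s ≠ 0 := (_root_.map_ne_zero _).mpr hS.s_ne
    refine ⟨?_, ?_, ?_, ?_⟩
    · have e : 2 * q0 - 1 = p0 - 1 := by rw [hq0]; ring
      rw [e]
      exact Ha v L ι w hw _ (by
        rw [map_sub, map_one]
        exact b1.trans_le ((min_le_right _ _).trans (min_le_left _ _)))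
    · have h3 := Hb v L ι w hw p1 (b2.trans_le ((min_le_right _ _).trans (min_le_right _ _)))
      have e : p1 = 2 * q1 := by rw [hq1]; ring
      rw [e, map_mul (w.valuation L), map_mul (algebraMap k L), map_ofNat (algebraMap k L),
        map_mul (w.valuation L)] at h3
      exact lt_of_mul_lt_mul_left' h3
    · refine Ha v L ι w hw _ ?_
      have e : ι (t0 - 1) = (th j x + (th j x)⁻¹ - 2) * 2⁻¹ := by
        rw [eq_mul_inv_iff_mul_eq₀ h2, hθi]
        nth_rewrite 1 [hθ]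
        have e2 : (2 : D) = 1 + 1 := by norm_num
        rw [map_sub, map_one, mul_two, e2]
        abel
      rw [e]
      exact b5.trans_le ((min_le_right _ _).trans (min_le_left _ _))
    · refine Ha v L ι w hw _ ?_
      have e : ι t1 = (th j x - (th j x)⁻¹) * (2 * algebraMap K D s)⁻¹ := by
        rw [eq_mul_inv_iff_mul_eq₀ (mul_ne_zero h2 hs0), hθi]
        nth_rewrite 1 [hθ]
        noncomm_ring
      rw [e]
      exact b6.trans_le ((min_le_right _ _).trans (min_le_left _ _))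

end Vale.Agent.P011.Six.H359
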