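import Vale.Agent.P011.Even.PncSign
import Vale.Agent.P011.RP.Dense

/-!
Elements of an extension of odd degree which are local norms at the finite places and have
prescribed signs.
-/

open NumberField IsDedekindDomain Module

namespace Vale.Agent.P011.Six.H359

open Vale.Agent.P011.Arith Vale.Agent.P011.Even

variable {F : Type} [Field F] [NumberField F] {E : Type} [Field E] [NumberField E] [Algebra F E]

/-- A place above which detects the bad norms. -/
theorem exists_det (hodd : Odd (finrank F E)) {d : Fˣ} {p : Pl F} (hp : d ∉ LSp p) :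
    ∃ q₀ : Pl E, Above q₀ p ∧ inc F E d ∉ LSp q₀ ∧ ∀ c : Eˣ, q₀ ∈ bad (inc F E d) c →
      (∀ q : Pl E, Above q p → q ≠ q₀ → q ∉ bad (inc F E d) c) → p ∈ bad d (nrm F E c) := by
  classical
  by_contra hcon
  push Not at hcon
  -- an element which is not a local norm
  obtain ⟨r, hr⟩ : ∃ r : Fˣ, r ∉ NF d ⊔ LSp p := by
    by_contra h
    push Not at h
    exact NF_sup_ne_top d p hp (by rw [eq_top_iff]; exact fun x _ => h x)
  have hfin : {q : Pl E | Above q p ∧ q ∈ bad (inc F E d) (inc F E r)}.Finite :=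
    (above_set_finite (E := E) p).subset fun q hq => hq.1
  -- induction over the finite set
  have key : ∀ Q : Finset (Pl E), (∀ q ∈ Q, Above q p ∧ inc F E d ∉ LSp q) →
      ∃ c : Eˣ, p ∉ bad d (nrm F E c) ∧ ∀ q, Above q p → (q ∈ bad (inc F E d) c ↔ q ∈ Q) := by
    intro Q
    induction Q using Finset.induction_on with
    | empty =>
      intro _
      refine ⟨1, ?_, fun q _ => ?_⟩
      · rw [map_one, bad_one]
        exact Set.notMem_empty _
      · rw [bad_one]
        simp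
    | insert q Q hq ih =>
      intro h
      obtain ⟨c, hc, hcQ⟩ := ih fun q' hq' => h q' (Finset.mem_insert_of_mem hq')
      obtain ⟨h1, h2⟩ := h q (Finset.mem_insert_self q Q)
      obtain ⟨c', hc1, hc2, hc3⟩ := hcon q h1 h2
      refine ⟨c' * c, ?_, fun q' hq' => ?_⟩
      · rw [map_mul, bad_mul, Set.mem_symmDiff]
        tauto
      · rw [bad_mul, Set.mem_symmDiff, hcQ q' hq', Finset.mem_insert]
        by_cases hqq : q' = q
        · subst hqq
          tauto
        · have := hc2 q' hq' hqq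
          tauto
  obtain ⟨c, hc, hcQ⟩ := key hfin.toFinset (by
    intro q hq
    rw [Set.Finite.mem_toFinset] at hq
    exact ⟨hq.1, notMem_LSp_of_bad hq.2⟩)
  have h1 : p ∉ bad d (nrm F E (inc F E r * c)) := by
    refine nrm_good fun q hq => ?_
    rw [bad_mul, Set.mem_symmDiff, hcQ q hq, Set.Finite.mem_toFinset]
    simp only [Set.mem_ofPred_eq]
    tauto
  have h2 : nrm F E (inc F E r) = r ^ (finrank F E) := by
    apply Units.ext
    rw [nrm_val, inc_val, Algebra.norm_algebraMap, Units.val_pow_eq_pow_val]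
  rw [map_mul, h2, bad_mul, Set.mem_symmDiff] at h1
  have h3 : p ∈ bad d (r ^ (finrank F E)) := by
    obtain ⟨m, hm⟩ := hodd
    rw [hm, pow_succ, pow_mul', mem_bad]
    intro h4
    have h5 : (r ^ m) ^ 2 ∈ NF d ⊔ LSp p :=
      Subgroup.mem_sup_right (Sq_le_LSp p (mem_Sq_iff.mpr ⟨r ^ m, by push_cast; ring⟩))
    exact hr ((Subgroup.mul_mem_cancel_left _ h5).mp h4)
  tauto

/-- The isolated real places. -/
theorem isol_iff (hodd : Odd (finrank F E)) {d : Fˣ} (hd : ¬ IsSquare (algebraMap F E (d : F)))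
    {φ : F →+* ℝ} (hφ : φ d < 0) {q : Pl E} (hq : Above q (Sum.inr φ)) :
    Isol (inc F E d) q ↔ Isol d (Sum.inr φ) := by
  classical
  have hdF : ¬ IsSquare (d : F) := by
    rintro ⟨r, hr⟩
    exact hd ⟨algebraMap F E r, by rw [hr, map_mul]⟩
  have hT : ∀ p ∈ ({Sum.inr φ} : Set (Pl F)), Par E d p := by
    rintro p rfl
    exact par_inr φ d
  refine ⟨fun h => isol_below hT (Set.mem_singleton _) hq h, fun h => ?_⟩
  by_contra hcon
  obtain ⟨p₀, hp₀, hJ⟩ := exists_not_isol hdF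
  obtain ⟨q₀, hq₀, hdq₀, hdet⟩ := exists_det hodd hp₀
  have hne : (Sum.inr φ : Pl F) ≠ p₀ := by
    rintro rfl
    exact hJ h
  have hqne : q ≠ q₀ := by
    rintro rfl
    exact hne (above_unique hq hq₀)
  have hdq : inc F E d ∉ LSp q := by
    rcases q with w | ψ
    · exact absurd hq (by simp [Above])
    · have hq' : ψ.comp (algebraMap F E) = φ := hq
      refine notMem_LSR.mpr ?_
      change ψ (algebraMap F E (d : F)) < 0
      have : ψ (algebraMap F E (d : F)) = φ d := by rw [← hq']; rfl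
      rw [this]
      exact hφ
  -- the place above the nonisolated one
  have h0 : ¬ Isol (inc F E d) q₀ := by
    rintro ⟨c, hc⟩
    refine hJ ⟨nrm F E c, ?_⟩
    ext p
    rw [Set.mem_singleton_iff]
    constructor
    · intro hp
      by_contra hpne
      refine nrm_good (fun q' hq' h => ?_) hp
      rw [hc, Set.mem_singleton_iff] at h
      rw [h] at hq'
      exact hpne (above_unique hq' hq₀)
    · rintro rfl
      refine hdet c (by rw [hc]; rfl) fun q' _ hne' => ?_
      rw [hc]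
      exact hne'
  obtain ⟨c, hc⟩ := exists_bad_pair (a := inc F E d) hd hqne hdq hdq₀ hcon h0
  obtain ⟨b, hb⟩ := h
  refine hJ ⟨nrm F E c * b, ?_⟩
  have e1 : bad d (nrm F E c) = {Sum.inr φ, p₀} := by
    ext p
    rw [Set.mem_insert_iff, Set.mem_singleton_iff]
    constructor
    · intro hp
      by_contra hpne
      rw [not_or] at hpne
      refine nrm_good (fun q' hq' h => ?_) hp
      rw [hc, Set.mem_insert_iff, Set.mem_singleton_iff] at h
      rcases h with rfl | rfl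
      · exact hpne.1 (above_unique hq' hq)
      · exact hpne.2 (above_unique hq' hq₀)
    · rintro (rfl | rfl)
      · have h1 := par_inr (E := E) φ d c
        rw [← not_iff_not, not_not, Nat.not_even_iff_odd] at h1
        rw [h1]
        have h2 : {q' : Pl E | Above q' (Sum.inr φ) ∧ q' ∈ bad (inc F E d) c} = {q} := by
          ext q'
          simp only [Set.mem_ofPred_eq, Set.mem_singleton_iff, hc, Set.mem_insert_iff]
          constructor
          · rintro ⟨h3, rfl | rfl⟩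
            · rfl
            · exact absurd (above_unique h3 hq₀) hne
          · rintro rfl
            exact ⟨hq, Or.inl rfl⟩
        rw [h2]
        simp
      · refine hdet c (by rw [hc]; exact Or.inr rfl) fun q' hq' hne' => ?_
        rw [hc, Set.mem_insert_iff, Set.mem_singleton_iff, not_or]
        refine ⟨?_, hne'⟩
        rintro rfl
        exact hne (above_unique hq hq')
  rw [bad_mul, e1, hb]
  ext p
  simp only [Set.mem_symmDiff, Set.mem_insert_iff, Set.mem_singleton_iff]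
  constructor
  · rintro (⟨rfl | rfl, h1⟩ | ⟨rfl, h1⟩)
    · exact absurd rfl h1
    · rfl
    · exact absurd (Or.inl rfl) h1
  · rintro rfl
    exact Or.inl ⟨Or.inr rfl, fun h => hne h.symm⟩

/-- **Local norms at the finite places with prescribed signs.** -/
theorem exists_signs (hodd : Odd (finrank F E)) {d : Fˣ}
    (hd : ¬ IsSquare (algebraMap F E (d : F))) (g : Eˣ)
    (hg : ∀ φ : F →+* ℝ, φ d < 0 → 0 < φ (Algebra.norm F (g : E))) :
    ∃ b : Eˣ, (∀ w : HeightOneSpectrum (𝓞 E), b ∈ NF (inc F E d) ⊔ LS (w.valuation E)) ∧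
      nrm F E b ∈ NF d ∧
      ∀ ψ : E →+* ℝ, ψ (algebraMap F E d) < 0 → 0 < ψ (b : E) * ψ (g : E) := by
  classical
  obtain ⟨B, hBd⟩ : ∃ B : Set (Pl E), B = Sum.inr '' {ψ | ψ (algebraMap F E d) < 0 ∧
    ψ (g : E) < 0} := ⟨_, rfl⟩
  have hBr : ∀ q ∈ B, ∃ ψ : E →+* ℝ, q = Sum.inr ψ ∧ ψ (algebraMap F E d) < 0 ∧ ψ (g : E) < 0 := by
    intro q hq
    rw [hBd] at hq
    obtain ⟨ψ, hψ, rfl⟩ := hq
    exact ⟨ψ, rfl, hψ⟩
  have hBf : B.Finite := hBd ▸ (Set.toFinite _).image _
  obtain ⟨f, hf⟩ : ∃ f : (F →+* ℝ) → ℕ, f = fun φ =>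
    {q : Pl E | Above q (Sum.inr φ) ∧ q ∈ B}.ncard := ⟨_, rfl⟩
  have hfeven : ∀ φ : F →+* ℝ, φ d < 0 → Even (f φ) := by
    intro φ hφ
    have h1 : {q : Pl E | Above q (Sum.inr φ) ∧ q ∈ B} =
        Sum.inr '' {ψ : E →+* ℝ | ψ.comp (algebraMap F E) = φ ∧ ψ (g : E) < 0} := by
      ext q
      constructor
      · rintro ⟨h1, h2⟩
        obtain ⟨ψ, rfl, h3, h4⟩ := hBr q h2
        exact ⟨ψ, ⟨h1, h4⟩, rfl⟩
      · rintro ⟨ψ, ⟨h1, h2⟩, rfl⟩
        refine ⟨h1, ?_⟩
        rw [hBd]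
        refine ⟨ψ, ⟨?_, h2⟩, rfl⟩
        have : ψ (algebraMap F E (d : F)) = φ d := by rw [← h1]; rfl
        rw [this]
        exact hφ
    rw [hf]
    change Even {q : Pl E | Above q (Sum.inr φ) ∧ q ∈ B}.ncard
    rw [h1, Set.ncard_image_of_injective _ Sum.inr_injective, ← sign_norm (E := E) φ g]
    exact hg φ hφ
  obtain ⟨c, hc⟩ : ∃ c : Eˣ, bad (inc F E d) c = B := by
    rw [exists_bad_iff (a := inc F E d) hd hBf (fun q hq => by
      obtain ⟨ψ, rfl, h1, -⟩ := hBr q hq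
      exact notMem_LSR.mpr h1)]
    have hfin : Finite (F →+* ℝ) := inferInstance
    have := Fintype.ofFinite (F →+* ℝ)
    let T' : Finset (F →+* ℝ) := Finset.univ.filter fun φ => φ d < 0 ∧ ¬ Isol d (Sum.inr φ)
    have hfin : ∀ φ : F →+* ℝ, {q : Pl E | Above q (Sum.inr φ) ∧ q ∈ B}.Finite := fun φ =>
      hBf.subset fun q hq => hq.2
    have e1 : {q | q ∈ B ∧ ¬ Isol (inc F E d) q} =
        ((T'.biUnion fun φ => (hfin φ).toFinset : Finset (Pl E)) : Set (Pl E)) := by
      ext q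
      simp only [Set.mem_ofPred_eq, Finset.coe_biUnion, Set.mem_iUnion, Set.Finite.coe_toFinset,
        exists_prop, T', Finset.coe_filter, Finset.mem_univ, true_and]
      constructor
      · rintro ⟨h3, h4⟩
        obtain ⟨ψ, rfl, h5, -⟩ := hBr q h3
        have h6 : (ψ.comp (algebraMap F E)) d < 0 := h5
        have h8 : Above (Sum.inr ψ : Pl E) (Sum.inr (ψ.comp (algebraMap F E)) : Pl F) := rfl
        exact ⟨ψ.comp (algebraMap F E), ⟨h6, fun h7 => h4 ((isol_iff hodd hd h6 h8).mpr h7)⟩,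
          h8, h3⟩
      · rintro ⟨φ, ⟨h4, h5⟩, h6, h7⟩
        exact ⟨h7, fun h8 => h5 ((isol_iff hodd hd h4 h6).mp h8)⟩
    rw [e1, Set.ncard_coe_finset, Finset.card_biUnion]
    · refine Finset.even_sum _ fun φ hφ => ?_
      have h1 := hfeven φ (Finset.mem_filter.mp hφ).2.1
      rw [hf] at h1
      rwa [← Set.ncard_eq_toFinset_card _ (hfin φ)]
    · intro p _ p' _ hne
      rw [Function.onFun, Finset.disjoint_left]
      intro q hq hq'
      rw [Set.Finite.mem_toFinset] at hq hq'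
      exact hne (Sum.inr_injective (above_unique hq.1 hq'.1))
  refine ⟨c, fun w => ?_, mem_NF_of_bad ?_, fun ψ hψ => ?_⟩
  · refine notMem_bad_inl.mp ?_
    rw [hc, hBd]
    rintro ⟨ψ, -, h⟩
    exact absurd h (by simp)
  · ext p
    simp only [Set.mem_empty_iff_false, iff_false]
    intro hp
    rcases p with v | φ
    · refine nrm_good (fun q' hq' h => ?_) hp
      rw [hc] at h
      obtain ⟨ψ, rfl, -⟩ := hBr q' h
      exact absurd hq' (by simp [Above])
    · have hφ : φ d < 0 := notMem_LSR.mp (notMem_LSp_of_bad hp)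
      have h1 := par_inr (E := E) φ d c
      rw [hc] at h1
      have h2 := hfeven φ hφ
      rw [hf] at h2
      exact h1.mpr h2 hp
  · have h1 : (Sum.inr ψ : Pl E) ∈ bad (inc F E d) c ↔ ψ (g : E) < 0 := by
      rw [hc, hBd]
      constructor
      · rintro ⟨ψ', hψ', h⟩
        have : ψ' = ψ := Sum.inr_injective h
        rw [← this]
        exact hψ'.2
      · exact fun h => ⟨ψ, ⟨hψ, h⟩, rfl⟩
    have h2 : (Sum.inr ψ : Pl E) ∈ bad (inc F E d) c ↔ ψ (c : E) < 0 := by
      have h5 : NF (inc F E d) ⊔ LSR ψ = LSR ψ := sup_eq_right.mpr (NF_le_LSR hψ)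
      rw [← not_iff_not, notMem_bad_inr, h5, mem_LSR, not_lt]
      exact ⟨le_of_lt, fun h => lt_of_le_of_ne h ((map_ne_zero ψ).mpr c.ne_zero).symm⟩
    have h3 : ψ (c : E) ≠ 0 := (map_ne_zero ψ).mpr c.ne_zero
    have h4 : ψ (g : E) ≠ 0 := (map_ne_zero ψ).mpr g.ne_zero
    rcases lt_or_gt_of_ne h4 with h5 | h5
    · have h6 : ψ (c : E) < 0 := h2.mp (h1.mpr h5)
      exact mul_pos_of_neg_of_neg h6 h5
    · have h6 : 0 < ψ (c : E) := by
        rcases lt_or_gt_of_ne h3 with h7 | h7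
        · exact absurd (h1.mp (h2.mpr h7)) (not_lt.mpr h5.le)
        · exact h7
      exact mul_pos h6 h5

/-- The sign of `1 - b t²` can be prescribed at the places where `b` is positive. -/
theorem exists_sign_norm (b : Eˣ) (p : (E →+* ℝ) → Prop) :
    ∃ t : E, ∀ τ : E →+* ℝ, (0 < τ b → p τ → 1 - τ b * (τ t) ^ 2 < 0) ∧
      ((¬ (0 < τ b ∧ p τ)) → 0 < 1 - τ b * (τ t) ^ 2) := by
  classical
  have h1 : ∀ τ : E →+* ℝ, ∃ (r ε : ℝ), 0 < ε ∧ ∀ y : ℝ, |y - r| < ε →
      (0 < τ b → p τ → 1 - τ b * y ^ 2 < 0) ∧ ((¬ (0 < τ b ∧ p τ)) → 0 < 1 - τ b * y ^ 2) := by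
    intro τ
    by_cases h : 0 < τ b ∧ p τ
    · have h1 : IsOpen {x : ℝ | 1 - τ b * x ^ 2 < 0} := isOpen_lt (by fun_prop) (by fun_prop)
      have h2 : (1 + 1 / τ b) ∈ {x : ℝ | 1 - τ b * x ^ 2 < 0} := by
        have h1 : 0 < τ b := h.1
        have h2 : τ b * (1 + 1 / τ b) ^ 2 = τ b + 2 + 1 / τ b := by field_simp; ring
        have h3 : 0 < 1 / τ b := by positivity
        rw [Set.mem_ofPred_eq, h2]
        linarith
      obtain ⟨ε, hε, h3⟩ := Metric.isOpen_iff.1 h1 _ h2
      exact ⟨_, ε, hε, fun y hy => ⟨fun _ _ => h3 (by rwa [Metric.mem_ball, Real.dist_eq]),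
        fun h4 => absurd h h4⟩⟩
    · have h1 : IsOpen {x : ℝ | 0 < 1 - τ b * x ^ 2} := isOpen_lt (by fun_prop) (by fun_prop)
      have h2 : (0 : ℝ) ∈ {x : ℝ | 0 < 1 - τ b * x ^ 2} := by simp
      obtain ⟨ε, hε, h3⟩ := Metric.isOpen_iff.1 h1 _ h2
      exact ⟨0, ε, hε, fun y hy => ⟨fun h4 h5 => absurd ⟨h4, h5⟩ h,
        fun _ => h3 (by rwa [Metric.mem_ball, Real.dist_eq])⟩⟩
  choose r ε hε h2 using h1
  obtain ⟨δ, hδ, hδε⟩ : ∃ δ : ℝ, 0 < δ ∧ ∀ τ : E →+* ℝ, δ ≤ ε τ := by
    rcases isEmpty_or_nonempty (E →+* ℝ) with h | h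
    · exact ⟨1, one_pos, fun τ => (h.false τ).elim⟩
    · obtain ⟨τ₀, h0⟩ := Finite.exists_min ε
      exact ⟨ε τ₀, hε τ₀, h0⟩
  obtain ⟨t, ht⟩ := RP.real_dense r hδ
  exact ⟨t, fun τ => h2 τ _ ((ht τ).trans_le (hδε τ))⟩

/-- **Local norms at the finite places with prescribed signs**, positive where `d` is. -/
theorem exists_signs_pos (hodd : Odd (finrank F E)) {d : Fˣ}
    (hd : ¬ IsSquare (algebraMap F E (d : F))) (g : Eˣ)
    (hg : ∀ φ : F →+* ℝ, φ d < 0 → 0 < φ (Algebra.norm F (g : E))) :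
    ∃ b : Eˣ, (∀ w : HeightOneSpectrum (𝓞 E), b ∈ NF (inc F E d) ⊔ LS (w.valuation E)) ∧
      nrm F E b ∈ NF d ∧
      ∀ ψ : E →+* ℝ, (ψ (algebraMap F E d) < 0 → 0 < ψ (b : E) * ψ (g : E)) ∧
        (0 < ψ (algebraMap F E d) → 0 < ψ (b : E)) := by
  obtain ⟨b, h1, h2, h3⟩ := exists_signs hodd hd g hg
  obtain ⟨t, ht⟩ := exists_sign_norm (inc F E d) (fun ψ => ψ (b : E) < 0)
  have h0 : (1 : E) ^ 2 - ((inc F E d : Eˣ) : E) * t ^ 2 ≠ 0 := by
    intro h
    rw [inc_val] at h
    by_cases ht0 : t = 0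
    · rw [ht0] at h
      simp at h
    · exact hd ⟨t⁻¹, by field_simp; linear_combination -h⟩
  have hv : ((Units.mk0 _ h0 : Eˣ) : E) = (1 : E) ^ 2 - ((inc F E d : Eˣ) : E) * t ^ 2 := rfl
  have hN : Units.mk0 _ h0 ∈ NF (inc F E d) := ⟨1, t, hv⟩
  have hval : ∀ ψ : E →+* ℝ, ψ ((Units.mk0 _ h0 : Eˣ) : E) =
      1 - ψ ((inc F E d : Eˣ) : E) * (ψ t) ^ 2 := by
    intro ψ
    rw [hv, map_sub, map_mul, map_pow, map_pow, map_one, one_pow]
  refine ⟨Units.mk0 _ h0 * b, fun w => mul_mem (Subgroup.mem_sup_left hN) (h1 w), ?_,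
    fun ψ => ⟨fun hψ => ?_, fun hψ => ?_⟩⟩
  · rw [map_mul]
    exact mul_mem (nrm_mem_NF hN) h2
  · have h4 : 0 < ψ ((Units.mk0 _ h0 : Eˣ) : E) := by
      rw [hval]
      refine (ht ψ).2 fun h => ?_
      have := h.1
      rw [inc_val] at this
      linarith
    rw [Units.val_mul, map_mul, mul_assoc]
    exact mul_pos h4 (h3 ψ hψ)
  · rw [Units.val_mul, map_mul]
    have hb0 : ψ (b : E) ≠ 0 := (map_ne_zero ψ).mpr b.ne_zero
    rcases lt_or_gt_of_ne hb0 with h4 | h4
    · refine mul_pos_of_neg_of_neg ?_ h4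
      rw [hval]
      refine (ht ψ).1 ?_ h4
      rw [inc_val]
      exact hψ
    · refine mul_pos ?_ h4
      rw [hval]
      exact (ht ψ).2 fun h => absurd h.2 (not_lt.mpr h4.le)

/-- **The parameter for the signs.** At the real places of `F` where `d` is positive and the
condition `P` holds there is a single real place above. -/
theorem exists_b (hodd : Odd (finrank F E)) {d : Fˣ}
    (hd : ¬ IsSquare (algebraMap F E (d : F))) (B : Eˣ) {P : (F →+* ℝ) → Prop}
    (hP : ∀ φ : F →+* ℝ, P φ → 0 < φ d → ∀ ψ ψ' : E →+* ℝ, ψ.comp (algebraMap F E) = φ →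
      ψ'.comp (algebraMap F E) = φ → ψ = ψ') :
    ∃ b : Eˣ, (∀ w : HeightOneSpectrum (𝓞 E),
        inc F E (nrm F E b) * b⁻¹ ∈ NF (inc F E d) ⊔ LS (w.valuation E)) ∧
      ∃ e : Fˣ, ∀ ψ : E →+* ℝ, P (ψ.comp (algebraMap F E)) →
        0 < ψ (algebraMap F E e * (b : E) * (B : E)) := by
  have hN : Algebra.norm F ((inc F E (nrm F E B) * B : Eˣ) : E) =
      (Algebra.norm F (B : E)) ^ (finrank F E + 1) := by
    rw [Units.val_mul, map_mul, inc_val, Algebra.norm_algebraMap, nrm_val, pow_succ]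
  have hN0 : Algebra.norm F (B : E) ≠ 0 := by
    rw [← nrm_val]
    exact (nrm F E B).ne_zero
  have heven : Even (finrank F E + 1) := hodd.add_one
  obtain ⟨b, h1, h2, h3⟩ := exists_signs_pos hodd hd (inc F E (nrm F E B) * B) (by
    intro φ _
    rw [hN, map_pow]
    exact heven.pow_pos ((map_ne_zero φ).mpr hN0))
  refine ⟨b, fun w => mul_mem (Subgroup.mem_sup_left ?_) (inv_mem (h1 w)), nrm F E B,
    fun ψ hψ => ?_⟩
  · obtain ⟨x, y, hxy⟩ := h2
    refine ⟨algebraMap F E x, algebraMap F E y, ?_⟩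
    rw [inc_val, hxy, inc_val, map_sub, map_mul, map_pow, map_pow]
  · have hd0 : ψ (algebraMap F E (d : F)) ≠ 0 :=
      (map_ne_zero ψ).mpr ((map_ne_zero _).mpr d.ne_zero)
    rcases lt_or_gt_of_ne hd0 with h4 | h4
    · have h5 := (h3 ψ).1 h4
      rw [Units.val_mul, map_mul, inc_val] at h5
      rw [map_mul, map_mul]
      nlinarith
    · have h5 := (h3 ψ).2 h4
      -- a single real place
      have h6 : 0 < (ψ.comp (algebraMap F E)) (Algebra.norm F (B : E)) ↔ 0 < ψ (B : E) := by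
        rw [sign_norm]
        have hB0 : ψ (B : E) ≠ 0 := (map_ne_zero ψ).mpr B.ne_zero
        have hset : {ψ' : E →+* ℝ | ψ'.comp (algebraMap F E) = ψ.comp (algebraMap F E) ∧
            ψ' (B : E) < 0} = if ψ (B : E) < 0 then {ψ} else ∅ := by
          split_ifs with h
          · ext ψ'
            simp only [Set.mem_ofPred_eq, Set.mem_singleton_iff]
            constructor
            · rintro ⟨h7, -⟩
              exact hP _ hψ h4 ψ' ψ h7 rfl
            · rintro rfl
              exact ⟨rfl, h⟩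
          · ext ψ'
            simp only [Set.mem_ofPred_eq, Set.mem_empty_iff_false, iff_false, not_and]
            intro h7 h8
            rw [hP _ hψ h4 ψ' ψ h7 rfl] at h8
            exact h h8
        rw [hset]
        split_ifs with h
        · simp [not_lt.mpr h.le]
        · simp [lt_of_le_of_ne (not_lt.mp h) hB0.symm]
      have h7 : 0 < (ψ.comp (algebraMap F E)) (Algebra.norm F (B : E)) * ψ (B : E) := by
        have hB0 : ψ (B : E) ≠ 0 := (map_ne_zero ψ).mpr B.ne_zero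
        have hB1 : (ψ.comp (algebraMap F E)) (Algebra.norm F (B : E)) ≠ 0 :=
          (map_ne_zero _).mpr hN0
        rcases lt_or_gt_of_ne hB0 with h8 | h8
        · refine mul_pos_of_neg_of_neg ?_ h8
          by_contra h9
          exact absurd (h6.mp (lt_of_le_of_ne (not_lt.mp h9) hB1.symm)) (not_lt.mpr h8.le)
        · exact mul_pos (h6.mpr h8) h8
      rw [map_mul, map_mul, nrm_val]
      have e1 : ψ (algebraMap F E (Algebra.norm F (B : E))) =
          (ψ.comp (algebraMap F E)) (Algebra.norm F (B : E)) := rfl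
      rw [e1]
      nlinarith

end Vale.Agent.P011.Six.H359
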