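import Vale.Agent.P011.Six.H359.Rc
import Vale.Agent.P011.Six.H359.Step1
import Vale.Agent.P011.Six.H422.Block
import Vale.Agent.P011.Pow.MP

/-!
Assembly: from the choice of a good element to the statement on the elements close to one at
finitely many places.
-/

open NumberField IsDedekindDomain Module Filter Topology Matrix

set_option linter.unusedSectionVars false

namespace Vale.Agent.P011.Six.H359

open Vale.Agent.P011.Arith Vale.Agent.P011.Even Vale.Agent.P011.Two Vale.Agent.P011.MPQ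
open Vale.Agent.P011.One Vale.Agent.P011.Pow

variable {k K D : Type} [Field k] [NumberField k] [Field K] [NumberField K] [StarRing K]
  [DivisionRing D] [StarRing D] [Algebra k K] [Algebra k D] [Algebra K D] [IsScalarTower k K D]
  {d : kˣ} {s : K} {M : ℕ} {Ω : Type} [Field Ω] [Algebra K Ω]

/-- The statement on the unitary elements of norm one commuting with `i` which are close to one at
finitely many finite places and at the real places where `al` is negative. -/
def AbR (B : Basis (Fin M) k D) (f : D →ₐ[K] Matrix (Fin 6) (Fin 6) Ω) (al : kˣ) (i : D)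
    (N : Set D) : Prop :=
  ∃ S : Set (HeightOneSpectrum (𝓞 k)), S.Finite ∧ ∃ η : ℝ, 0 < η ∧ ∀ x : D, x * i = i * x →
    x * star x = 1 → (f x).det = 1 → (∀ v ∈ S, nm B (.inl v) (x - 1) < η) →
    (∀ φ : k →+* ℝ, φ al < 0 → nm B (.inr φ) (x - 1) < η) → x ∈ N

theorem unit_symm {x : D} (h : x * star x = 1) : star x * x = 1 := by
  have h0 : x ≠ 0 := left_ne_zero_of_mul_eq_one h
  rw [eq_inv_of_mul_eq_one_right h, inv_mul_cancel₀ h0]

/-- **Removing the condition at the real places.** -/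
theorem abAt_of_abR (hS : Setting k K D d s) (hdeg : finrank K D = 6 ^ 2)
    (f : D →ₐ[K] Matrix (Fin 6) (Fin 6) Ω) (B : Basis (Fin M) k D) {al be : kˣ} {i j : D}
    (hF : Fr k al be i j) {N : Set D} (hmul : ∀ x ∈ N, ∀ y ∈ N, x * y ∈ N) {e : ℕ} (he : 0 < e)
    (hpow : ∀ x ∈ GU f, x ^ e ∈ N) (h : AbR B f al i N) :
    AbAt B f N (algebraMap K D s * i) := by
  classical
  obtain ⟨S, hSf, η, hη, h⟩ := h
  -- constants at the finite places
  have hprod : ∀ q : Pl k, ∃ ε : ℝ, 0 < ε ∧ ∀ ν g : D, nm B q (ν - 1) < ε → nm B q (g - 1) < ε →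
      nm B q (star ν * g - 1) < η := by
    intro q
    have h1 := nb_fst B q ((1 : D), (1 : D))
    have h2 := nb_snd B q ((1 : D), (1 : D))
    have h3 := (tn_star hS h1).mul h2
    simp only [star_one, mul_one] at h3
    obtain ⟨ε, hε, hε'⟩ := ev_nb B q (h3.ev_lt hη)
    refine ⟨ε / 2, half_pos hε, fun ν g e1 e2 => hε' (ν, g) ?_⟩
    change nm B q (ν - 1) + nm B q (g - 1) < ε
    linarith
  choose ε hε hprod using hprod
  refine ⟨S, hSf, fun v => ε (.inl v), fun v => hε _, fun x hxt hx1 hxd hxn => ?_⟩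
  have hx2 : x * star x = 1 := by
    have h0 : x ≠ 0 := right_ne_zero_of_mul_eq_one hx1
    rw [eq_inv_of_mul_eq_one_left hx1, mul_inv_cancel₀ h0]
  have hs0 : algebraMap K D s ≠ 0 := sS_ne hS
  have hxi : x * i = i * x := by
    rw [← mul_assoc, ← Algebra.commutes, mul_assoc, mul_assoc] at hxt
    exact mul_left_cancel₀ hs0 hxt
  -- constants at the real places
  have hreal : ∀ q : Pl k, ∃ ε : ℝ, 0 < ε ∧ ∀ ν : D, nm B q (ν - x) < ε →
      nm B q (star ν * x - 1) < η := by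
    intro q
    have h1 := nb_fst B q (x, x)
    have h3 := (tn_star hS h1).mul (Tn.const (B := B) (p := q) (l := nb B q (x, x)) x)
    rw [hx1] at h3
    obtain ⟨ε, hε, hε'⟩ := ev_nb B q (h3.ev_lt hη)
    refine ⟨ε, hε, fun ν e1 => hε' (ν, x) ?_⟩
    change nm B q (ν - x) + nm B q (x - x) < ε
    rw [sub_self, nm_zero, add_zero]
    exact e1
  choose κ hκ hreal using hreal
  -- a common bound
  obtain ⟨θ, hθ, hθ1, hθ2⟩ : ∃ θ : ℝ, 0 < θ ∧ (∀ v ∈ S, θ ≤ ε (.inl v)) ∧
      ∀ φ : k →+* ℝ, θ ≤ κ (.inr φ) := by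
    obtain ⟨θ₁, h1, h2⟩ := exists_le_all hSf.toFinset (fun v => ε (.inl v)) fun v => hε _
    have := Fintype.ofFinite (k →+* ℝ)
    obtain ⟨θ₂, h3, h4⟩ := exists_le_all (Finset.univ : Finset (k →+* ℝ)) (fun φ => κ (.inr φ))
      fun φ => hκ _
    exact ⟨min θ₁ θ₂, lt_min h1 h3, fun v hv => (min_le_left _ _).trans
      (h2 v (hSf.mem_toFinset.mpr hv)), fun φ => (min_le_right _ _).trans (h4 φ (Finset.mem_univ _))⟩
  obtain ⟨y, hyi, hyy, hyd, hy1, hy2⟩ := rc hS hdeg f B hF hxi hx2 hxd he hSf hθ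
  obtain ⟨ν, hν⟩ : ∃ ν, ν = y ^ e := ⟨_, rfl⟩
  have hyG : y ∈ GU f := ⟨hyy, hyd⟩
  have hνN : ν ∈ N := hν ▸ hpow y hyG
  have hci : ∀ m : ℕ, y ^ m * i = i * y ^ m := fun m =>
    ((show Commute y i from hyi).pow_left m).eq
  have hνi : ν * i = i * ν := hν ▸ hci e
  have hνν : ν * star ν = 1 := by
    rw [hν, star_pow]
    have h1 : Commute y (star y) := by
      change y * star y = star y * y
      rw [hyy, unit_symm hyy]
    rw [← h1.mul_pow, hyy, one_pow]
  have hνd : (f ν).det = 1 := by rw [hν, map_pow, Matrix.det_pow, hyd, one_pow]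
  have hsν : star ν * i = i * star ν := by
    have h1 := congrArg star hνi
    rw [star_mul, star_mul, hF.si, mul_neg, neg_mul, neg_inj] at h1
    exact h1.symm
  have hνs := unit_symm hνν
  rw [← hν] at hy1 hy2
  have hsd : (f (star ν)).det = 1 := by
    have h1 : (f (ν * star ν)).det = 1 := by rw [hνν, map_one, Matrix.det_one]
    rw [map_mul, Matrix.det_mul, hνd, one_mul] at h1
    exact h1
  have hz : star ν * x ∈ N := by
    refine h (star ν * x) ?_ ?_ ?_ (fun v hv => ?_) fun φ hφ => ?_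
    · rw [mul_assoc, hxi, ← mul_assoc, hsν, mul_assoc]
    · rw [star_mul, star_star, mul_assoc, ← mul_assoc x, hx2, one_mul, hνs]
    · rw [map_mul, Matrix.det_mul, hsd, hxd, one_mul]
    · exact hprod _ _ _ ((hy1 v hv).trans_le (hθ1 v hv)) (hxn v hv)
    · exact hreal _ _ ((hy2 φ hφ).trans_le (hθ2 φ))
  have h1 : x = ν * (star ν * x) := by rw [← mul_assoc, hνν, one_mul]
  rw [h1]
  exact hmul _ hνN _ hz

/-- The choice of a good element: near one at the places of `S` there is `ν` such that for all `x`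
close to one the discriminant of `x ν` is good. -/
def NuAt (B : Basis (Fin M) k D) (f : D →ₐ[K] Matrix (Fin 6) (Fin 6) Ω) (d : kˣ) (s : K)
    (al be : kˣ) (i j : D) (N : Set D) : Prop :=
  ∀ S : Set (HeightOneSpectrum (𝓞 k)), S.Finite → ∀ ε : ℝ, 0 < ε → ∃ ν ∈ N, ν * i = i * ν ∧
    (∀ v ∈ S, nm B (.inl v) (ν - 1) < ε) ∧
    ∃ S' : Set (HeightOneSpectrum (𝓞 k)), S'.Finite ∧ ∃ η : ℝ, 0 < η ∧ ∀ x : D, x * i = i * x →
      x * star x = 1 → (f x).det = 1 → (∀ v ∈ S', nm B (.inl v) (x - 1) < η) →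
      (∀ φ : k →+* ℝ, φ al < 0 → nm B (.inr φ) (x - 1) < η) →
      ∀ (L : Type) [Field L] [NumberField L] [Algebra k L] (ι : L →ₐ[k] D) (c t0 t1 q0 q1 : L)
        (a : K) (u z : D), Dat1 d s al be i j (x * ν) N ι c t0 t1 q0 q1 a u z →
        ∃ e1 e2 e3 : k, (al : k) * e1 ^ 2 + be * e2 ^ 2 - al * be * e3 ^ 2 =
          d * Algebra.discr k (fun i : Fin 3 => c ^ (i : ℕ))

/-- **The elements close to one at finitely many places**, from the choice of a good element. -/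
theorem abR_of_nu (hS : Setting k K D d s) (hdeg : finrank K D = 6 ^ 2)
    (f : D →ₐ[K] Matrix (Fin 6) (Fin 6) Ω) (B : Basis (Fin M) k D) {al be : kˣ} {i j : D}
    (hF : Fr k al be i j) {N : Set D} (hmul : ∀ x ∈ N, ∀ y ∈ N, x * y ∈ N)
    (hinv : ∀ x ∈ N, star x ∈ N) (hNG : N ⊆ GU f) {e : ℕ} (he : 0 < e) (hHQ : HQ1 k e N)
    (hNu : NuAt B f d s al be i j N) : AbR B f al i N := by
  classical
  obtain ⟨γ, hγ⟩ := H422.cubic_block hS hdeg al be he hHQ hmul
  obtain ⟨S0, hS0, hstep⟩ := step1 hS hdeg hF f B he hHQ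
  have hbadf : {v : HeightOneSpectrum (𝓞 k) | be ∉ NF al ⊔ LS (v.valuation k)}.Finite :=
    Set.Finite.preimage (Sum.inl_injective.injOn) (bad_finite al be)
  obtain ⟨S, hSd⟩ : ∃ S : Finset (HeightOneSpectrum (𝓞 k)),
    S = hS0.toFinset ∪ hbadf.toFinset := ⟨_, rfl⟩
  have hS0S : S0 ⊆ (S : Set (HeightOneSpectrum (𝓞 k))) := by
    intro v hv
    rw [hSd, Finset.coe_union, Set.Finite.coe_toFinset]
    exact Or.inl hv
  obtain ⟨η, hη, hstep⟩ := hstep S hS0S γ
  -- products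
  have hprod : ∀ v : HeightOneSpectrum (𝓞 k), ∃ ε : ℝ, 0 < ε ∧ ∀ g ν : D,
      nm B (.inl v) (g - 1) < ε → nm B (.inl v) (ν - 1) < ε → nm B (.inl v) (g * ν - 1) < η v := by
    intro v
    obtain ⟨δ, hδ, h⟩ := near_mul B (.inl v : Pl k) (hη v)
    exact ⟨δ, hδ, fun g ν h1 h2 => h g ν h1 h2⟩
  choose ε hε hprod using hprod
  obtain ⟨θ, hθ, hθS⟩ := exists_le_all S ε hε
  obtain ⟨ν, hνN, hνi, hν1, S', hS', η', hη', hx'⟩ := hNu S S.finite_toSet θ hθ
  refine ⟨S' ∪ S, hS'.union S.finite_toSet, min η' θ, lt_min hη' hθ,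
    fun x hxi hxx hxd hx1 hx2 => ?_⟩
  obtain ⟨hνν, hνd⟩ := hNG hνN
  have hp1 : x * ν * i = i * (x * ν) := by rw [mul_assoc, hνi, ← mul_assoc, hxi, mul_assoc]
  have hp2 : x * ν * star (x * ν) = 1 := by
    rw [star_mul, mul_assoc, ← mul_assoc ν, hνν, one_mul, hxx]
  have hp3 : (f (x * ν)).det = 1 := by rw [map_mul, Matrix.det_mul, hxd, hνd, one_mul]
  have hp4 : x * ν ∈ N := by
    rcases hstep (x * ν) hp1 hp2 hp3 (fun v hv => hprod v x ν
      (((hx1 v (Or.inr hv)).trans_le (min_le_right _ _)).trans_le (hθS v hv))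
      ((hν1 v hv).trans_le (hθS v hv))) with h1 | ⟨L, _, _, _, ι, c, t0, t1, q0, q1, a, u, z, hD, hcl⟩
    · exact h1
    · refine hγ (x * ν) i j L ι c t0 t1 q0 q1 a u z hD (fun v hv w hw => ?_)
        (hx' x hxi hxx hxd (fun v hv => (hx1 v (Or.inl hv)).trans_le (min_le_left _ _))
          (fun φ hφ => (hx2 φ hφ).trans_le (min_le_left _ _)) L ι c t0 t1 q0 q1 a u z hD)
      refine hcl v ?_ w hw
      rw [hSd, Finset.mem_union, Set.Finite.mem_toFinset, Set.Finite.mem_toFinset]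
      exact Or.inr hv
  have h1 : x = x * ν * star ν := by rw [mul_assoc, hνν, mul_one]
  rw [h1]
  exact hmul _ hp4 _ (hinv _ hνN)

/-- **The assembly in degree six.** -/
theorem pf_six (hS : Setting k K D d s) (hdeg : finrank K D = 6 ^ 2)
    (f : D →ₐ[K] Matrix (Fin 6) (Fin 6) Ω) (B : Basis (Fin M) k D) {al be : kˣ} {i j : D}
    (hF : Fr k al be i j) (N : Subgroup (SUD f)) [N.Normal] (hN : N.index ≠ 0)
    (hNu : NuAt B f d s al be i j (Im N)) : ∃ S : Set (Pl k), S.Finite ∧ PF B (GU f) (Im N) S := by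
  have hpow : ∀ g : SUD f, g ^ N.index ∈ N := fun g => Subgroup.pow_index_mem _ g
  have hsym : star (algebraMap K D s * i) = algebraMap K D s * i := by
    rw [star_mul, hF.si, hS.star_alg, hS.star_s, map_neg, neg_mul_neg, ← Algebra.commutes]
  have hsq : algebraMap K D s * i * (algebraMap K D s * i) =
      algebraMap k D ((d * al : kˣ) : k) := by
    rw [← mul_assoc, mul_assoc (algebraMap K D s) i, ← Algebra.commutes s i, ← mul_assoc,
      mul_assoc, hF.ii, sS_sq hS, Units.val_mul, map_mul]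
  have ht : algebraMap K D s * i ∈ Xa (k := k) D (d * al) := ⟨hsym, hsq⟩
  refine pf_of_abAt hS (by norm_num) hdeg f B ht N hN ?_
  refine abAt_of_abR hS hdeg f B hF (fun x hx y hy => mul_im hx hy) (Nat.pos_of_ne_zero hN)
    (fun x hx => pow_im hpow hx) ?_
  refine abR_of_nu hS hdeg f B hF (fun x hx y hy => mul_im hx hy) ?_ im_sub
    (Nat.pos_of_ne_zero hN) (hq1_im f N hN (Nat.pos_of_ne_zero hN) hpow) hNu
  rintro _ ⟨g, hg, rfl⟩
  refine ⟨g⁻¹, N.inv_mem hg, ?_⟩
  have h1 := g.2.1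
  have h2 : (((g⁻¹ : SUD f) : Dˣ) : D) * (((g : SUD f) : Dˣ) : D) = 1 := by
    rw [← Units.val_mul, ← Subgroup.coe_mul, inv_mul_cancel, Subgroup.coe_one, Units.val_one]
  calc (((g⁻¹ : SUD f) : Dˣ) : D) = (((g⁻¹ : SUD f) : Dˣ) : D) *
      ((((g : SUD f) : Dˣ) : D) * star (((g : SUD f) : Dˣ) : D)) := by rw [h1, mul_one]
    _ = star (((g : SUD f) : Dˣ) : D) := by rw [← mul_assoc, h2, one_mul]

end Vale.Agent.P011.Six.H359
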