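import Vale.Agent.P011.Six.H359.Logs
import Mathlib.GroupTheory.Perm.Cycle.Type
import Mathlib.FieldTheory.PrimitiveElement

/-!
Embeddings for which the involution is the complex conjugation.
-/

open NumberField IsDedekindDomain Module Filter Topology Matrix IntermediateField Polynomial

set_option linter.unusedSectionVars false

namespace Vale.Agent.P011.Six.H359

open Vale.Agent.P011.Arith Vale.Agent.P011.Even Vale.Agent.P011.Two Vale.Agent.P011.MPQ

variable {k K : Type} [Field k] [NumberField k] [Field K] [NumberField K] [StarRing K]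
  [Algebra k K] {d : kˣ} {s : K}
  {E : Type} [Field E] [NumberField E] [Algebra k E] [Algebra K E] [IsScalarTower k K E]

theorem exists_em (φ : k →+* ℝ) : ∃ σ : E →+* ℂ, Em φ σ := by
  have hfd : FiniteDimensional k E := Module.Finite.of_restrictScalars_finite ℚ k E
  obtain ⟨e, P, he, -⟩ := exists_mat φ (finBasis k E)
  exact ⟨e ⟨0, finrank_pos⟩, he _⟩

/-- **An embedding for which the involution is the complex conjugation.** -/
theorem exists_compact {D : Type} [DivisionRing D] [StarRing D] [Algebra k D] [Algebra K D]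
    [IsScalarTower k K D] (hS : Setting k K D d s) {al : kˣ} {iE : E} {st : E →+* E}
    (h6 : finrank K E = 6)
    (hst : ∀ y, st (st y) = y) (stK : ∀ c : K, st (algebraMap K E c) = algebraMap K E (star c))
    (hi : st iE = -iE) (hii : iE * iE = algebraMap k E al)
    (hiK : ∀ c : K, algebraMap K E c ≠ iE) {φ : k →+* ℝ} (hφ : φ al < 0) (hφd : φ d < 0) :
    ∃ σ₀ : E →+* ℂ, Em φ σ₀ ∧ σ₀.comp st = cg σ₀ := by
  classical
  have hfin : FiniteDimensional K E := Module.Finite.of_restrictScalars_finite ℚ K E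
  obtain ⟨σ₁, hσ₁⟩ := exists_em (E := E) φ
  -- the intermediate field
  have hint : IsIntegral K iE := Algebra.IsIntegral.isIntegral iE
  have hM2 : finrank K K⟮iE⟯ = 2 := by
    rw [adjoin.finrank hint]
    have h1 : minpoly K iE ∣ (X ^ 2 - C (algebraMap k K (al : k))) := by
      apply minpoly.dvd
      rw [map_sub, map_pow, aeval_X, aeval_C, pow_two, hii,
        ← IsScalarTower.algebraMap_apply k K E, sub_self]
    have h2 : (X ^ 2 - C (algebraMap k K (al : k)) : K[X]).natDegree = 2 := natDegree_X_pow_sub_C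
    have h3 := natDegree_le_of_dvd h1 (by
      intro h
      rw [h, natDegree_zero] at h2
      exact absurd h2 (by norm_num))
    have h4 := minpoly.natDegree_pos hint
    have h5 : (minpoly K iE).natDegree ≠ 1 := by
      intro h
      obtain ⟨c, hc⟩ := minpoly.natDegree_eq_one_iff.mp h
      exact hiK c hc
    omega
  have h3 : finrank K⟮iE⟯ E = 3 := by
    have h1 := finrank_mul_finrank K K⟮iE⟯ E
    rw [hM2, h6] at h1
    omega
  let ρ : K⟮iE⟯ →+* ℂ := σ₁.comp (algebraMap K⟮iE⟯ E)
  let _ : Algebra K⟮iE⟯ ℂ := ρ.toAlgebra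
  have halg : ∀ m : K⟮iE⟯, algebraMap K⟮iE⟯ ℂ m = σ₁ (m : E) := fun m => rfl
  have hκs : σ₁ (algebraMap K E s) * σ₁ (algebraMap K E s) = ((φ d : ℝ) : ℂ) := by
    rw [← map_mul, ← map_mul, ← pow_two, hS.sq, ← IsScalarTower.algebraMap_apply k K E, hσ₁]
  have hre : (σ₁ (algebraMap K E s)).re = 0 := (sq_neg hκs hφd).1
  have hrei : (σ₁ iE).re = 0 := by
    refine (sq_neg (r := φ al) ?_ hφ).1
    rw [← map_mul, hii, hσ₁]
  have hpure : ∀ z : ℂ, z.re = 0 → (starRingEnd ℂ) (-z) = z := by
    intro z hz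
    apply Complex.ext
    · rw [Complex.conj_re, Complex.neg_re, hz, neg_zero]
    · rw [Complex.conj_im, Complex.neg_im, neg_neg]
  -- the involution fixes the embedding of the intermediate field
  have hfix : ∀ σ : E →+* ℂ, (∀ m : K⟮iE⟯, σ (m : E) = σ₁ (m : E)) → ∀ m : K⟮iE⟯,
      cg (σ.comp st) (m : E) = σ₁ (m : E) := by
    intro σ hσ m
    rw [← hσ m]
    have key : ∀ y ∈ K⟮iE⟯, cg (σ.comp st) y = σ y := by
      intro y hy
      refine IntermediateField.adjoin_induction (F := K) (s := {iE})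
        (p := fun y _ => cg (σ.comp st) y = σ y) ?_ ?_ ?_ ?_ ?_ hy
      · intro y hy
        rw [Set.mem_singleton_iff] at hy
        rw [hy, cg_apply, RingHom.comp_apply, hi, map_neg]
        have h1 := hσ ⟨iE, mem_adjoin_simple_self K iE⟩
        change σ iE = σ₁ iE at h1
        rw [h1]
        exact hpure _ hrei
      · intro c
        rw [cg_apply, RingHom.comp_apply, stK]
        have h1 : ∀ c : K, σ (algebraMap K E c) = σ₁ (algebraMap K E c) := fun c =>
          hσ (algebraMap K K⟮iE⟯ c)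
        rw [h1, h1]
        obtain ⟨a, b, rfl⟩ := hS.span c
        rw [star_add, star_mul', (hS.fix _).mpr ⟨a, rfl⟩, (hS.fix _).mpr ⟨b, rfl⟩, hS.star_s]
        simp only [map_add, map_mul, map_neg, ← IsScalarTower.algebraMap_apply k K E]
        rw [hσ₁ a, hσ₁ b, Complex.conj_ofReal, Complex.conj_ofReal, ← map_neg, hpure _ hre]
      · intro a b _ _ ha hb
        rw [map_add, map_add, ha, hb]
      · intro a _ ha
        rw [map_inv₀, map_inv₀, ha]
      · intro a b _ _ ha hb
        rw [map_mul, map_mul, ha, hb]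
    exact key _ m.2
  let T : (E →ₐ[K⟮iE⟯] ℂ) → (E →ₐ[K⟮iE⟯] ℂ) := fun σ =>
    { cg ((σ : E →+* ℂ).comp st) with
      commutes' := fun m => hfix (σ : E →+* ℂ) (fun m => σ.commutes m) m }
  have hT : ∀ σ y, T σ y = (starRingEnd ℂ) (σ (st y)) := fun _ _ => rfl
  have hinv : Function.Involutive T := by
    intro σ
    ext y
    rw [hT, hT, hst, Complex.conj_conj]
  have hcard : Fintype.card (E →ₐ[K⟮iE⟯] ℂ) = 3 := by
    rw [AlgHom.card, h3]
  obtain ⟨σ, hσ⟩ := Equiv.Perm.exists_fixed_point_of_prime (p := 2) (n := 1)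
    (α := E →ₐ[K⟮iE⟯] ℂ) (by rw [hcard]; norm_num) (σ := hinv.toPerm) (by
      ext σ
      simp [pow_two, hinv σ])
  have hσ' : T σ = σ := hσ
  refine ⟨(σ : E →+* ℂ), fun c => ?_, ?_⟩
  · have h1 : algebraMap k E c = ((algebraMap K K⟮iE⟯ (algebraMap k K c) : K⟮iE⟯) : E) := by
      rw [IsScalarTower.algebraMap_apply k K E]
      rfl
    rw [h1]
    change σ (algebraMap K⟮iE⟯ E (algebraMap K K⟮iE⟯ (algebraMap k K c))) = _
    rw [σ.commutes, halg, ← h1, hσ₁]
  · ext y
    have h1 := AlgHom.congr_fun hσ' y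
    rw [hT] at h1
    rw [RingHom.comp_apply, cg_apply]
    change σ (st y) = (starRingEnd ℂ) (σ y)
    rw [← h1, Complex.conj_conj]

end Vale.Agent.P011.Six.H359
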