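import Mathlib

/-!
Degree six (helper359): generators of cubic extensions.
-/

open Module Polynomial

namespace Vale.Agent.P011.Six.H359

/-- An element of a cubic extension lies in the ground field or generates the extension. -/
theorem cubic_gen {F E : Type*} [Field F] [Field E] [Algebra F E] (h3 : finrank F E = 3) (u : E) :
    (∃ c : F, algebraMap F E c = u) ∨
    ∃ p0 p1 p2 : F, u ^ 3 + algebraMap F E p2 * u ^ 2 + algebraMap F E p1 * u +
        algebraMap F E p0 = 0 ∧ Algebra.norm F u = -p0 ∧
      (∀ b0 b1 b2 : F, algebraMap F E b0 + algebraMap F E b1 * u + algebraMap F E b2 * u ^ 2 = 0 →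
        b0 = 0 ∧ b1 = 0 ∧ b2 = 0) ∧
      ∀ e : E, ∃ b0 b1 b2 : F,
        e = algebraMap F E b0 + algebraMap F E b1 * u + algebraMap F E b2 * u ^ 2 := by
  classical
  have hfin : FiniteDimensional F E := Module.finite_of_finrank_pos (by rw [h3]; norm_num)
  have hint : IsIntegral F u := Algebra.IsIntegral.isIntegral u
  have hdvd : (minpoly F u).natDegree ∣ 3 := by
    rw [← IntermediateField.adjoin.finrank hint, ← h3]
    exact Dvd.intro _ (Module.finrank_mul_finrank F (IntermediateField.adjoin F {u}) E)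
  rcases (Nat.dvd_prime Nat.prime_three).mp hdvd with h1 | h1
  · left
    exact minpoly.natDegree_eq_one_iff.mp h1
  right
  have hmonic := minpoly.monic hint
  have hli : ∀ b0 b1 b2 : F,
      algebraMap F E b0 + algebraMap F E b1 * u + algebraMap F E b2 * u ^ 2 = 0 →
        b0 = 0 ∧ b1 = 0 ∧ b2 = 0 := by
    intro b0 b1 b2 h
    obtain ⟨q, hq⟩ : ∃ q : F[X], q = C b0 + C b1 * X + C b2 * X ^ 2 := ⟨_, rfl⟩
    have hq0 : q = 0 := by
      refine Polynomial.eq_zero_of_dvd_of_natDegree_lt (minpoly.dvd F u (p := q) ?_) ?_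
      · rw [hq, map_add, map_add, map_mul, map_mul, map_pow, aeval_C, aeval_C, aeval_C, aeval_X, h]
      · rw [h1, hq]
        compute_degree!
    have e0 := congrArg (fun p => coeff p 0) hq0
    have e1 := congrArg (fun p => coeff p 1) hq0
    have e2 := congrArg (fun p => coeff p 2) hq0
    rw [hq] at e0 e1 e2
    simp [coeff_X, coeff_C] at e0 e1 e2
    exact ⟨e0, e1, e2⟩
  obtain ⟨p0, p1, p2, hp⟩ : ∃ p0 p1 p2 : F, u ^ 3 + algebraMap F E p2 * u ^ 2 +
      algebraMap F E p1 * u + algebraMap F E p0 = 0 := by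
    refine ⟨(minpoly F u).coeff 0, (minpoly F u).coeff 1, (minpoly F u).coeff 2, ?_⟩
    have h2 := minpoly.aeval F u
    rw [aeval_eq_sum_range, h1, Finset.sum_range_succ, Finset.sum_range_succ,
      Finset.sum_range_succ, Finset.sum_range_one] at h2
    have h3' : (minpoly F u).coeff 3 = 1 := by
      have := hmonic.coeff_natDegree
      rwa [h1] at this
    rw [h3'] at h2
    simp only [Algebra.smul_def, map_one, one_mul, pow_zero, mul_one, pow_one] at h2
    rw [← h2]
    ring
  have hlin : LinearIndependent F ![(1 : E), u, u ^ 2] := by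
    rw [Fintype.linearIndependent_iff]
    intro g hg
    rw [Fin.sum_univ_three] at hg
    simp only [Matrix.cons_val_zero, Matrix.cons_val_one, Matrix.cons_val_two, Matrix.head_cons,
      Matrix.tail_cons, Algebra.smul_def, mul_one, Matrix.cons_val] at hg
    obtain ⟨h4, h5, h6⟩ := hli _ _ _ hg
    intro i
    fin_cases i
    · exact h4
    · exact h5
    · exact h6
  let b : Basis (Fin 3) F E := basisOfLinearIndependentOfCardEqFinrank hlin (by
    rw [Fintype.card_fin, h3])
  have hb : ∀ i, b i = ![(1 : E), u, u ^ 2] i := fun i => by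
    rw [show b = basisOfLinearIndependentOfCardEqFinrank hlin (by
      rw [Fintype.card_fin, h3]) from rfl, coe_basisOfLinearIndependentOfCardEqFinrank]
  have hb0 : b 0 = 1 := hb 0
  have hb1 : b 1 = u := hb 1
  have hb2 : b 2 = u ^ 2 := hb 2
  refine ⟨p0, p1, p2, hp, ?_, hli, fun e => ⟨b.repr e 0, b.repr e 1, b.repr e 2, ?_⟩⟩
  · have e0 : u * b 0 = b 1 := by rw [hb0, hb1, mul_one]
    have e1 : u * b 1 = b 2 := by rw [hb1, hb2]; ring
    have e2 : u * b 2 = (-p0) • b 0 + (-p1) • b 1 + (-p2) • b 2 := by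
      rw [hb0, hb1, hb2, Algebra.smul_def, Algebra.smul_def, Algebra.smul_def, map_neg, map_neg,
        map_neg]
      linear_combination hp
    rw [Algebra.norm_eq_matrix_det b, Matrix.det_fin_three]
    simp only [Algebra.leftMulMatrix_eq_repr_mul, e0, e1, e2]
    simp only [map_add, map_smul, Finsupp.add_apply, Finsupp.smul_apply, Basis.repr_self,
      Finsupp.single_apply, smul_eq_mul]
    simp
  · have h4 := b.sum_repr e
    rw [Fin.sum_univ_three, hb0, hb1, hb2, Algebra.smul_def, Algebra.smul_def, Algebra.smul_def,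
      mul_one] at h4
    exact h4.symm

end Vale.Agent.P011.Six.H359
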