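import Vale.Agent.P011.Pow.Kappa
import Vale.Agent.P011.Six.H359.Frame
import Vale.Agent.P011.Six.H359.Cubic

/-!
Degree six (helper359): the cubic relation of `θ = j x j⁻¹ x`, and `θ` is a norm.
-/

open Module NumberField Polynomial

set_option linter.unusedSectionVars false

namespace Vale.Agent.P011.Six.H359

open Vale.Agent.P011.Arith Vale.Agent.P011.Even Vale.Agent.P011.Two Vale.Agent.P011.One
  Vale.Agent.P011.Pow
open Vale.Agent.P011.W (HasNrd exists_maxfield hasNrd_norm hasNrd_of_det hasNrd_iff)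

section cen

variable {k K D L K' C : Type} [Field k] [NumberField k] [Field K] [NumberField K] [StarRing K]
    [DivisionRing D] [StarRing D] [Algebra k K] [Algebra k D] [Algebra K D] [IsScalarTower k K D]
    [Field L] [NumberField L] [Algebra k L] [Field K'] [NumberField K'] [StarRing K']
    [Algebra K K'] [DivisionRing C] [StarRing C] [Algebra L K'] [Algebra L C] [Algebra K' C]
    [IsScalarTower L K' C]
    {d : kˣ} {s : K} {t : D} {a : kˣ} {T : L} {jC : C →+* D} {al be : kˣ} {i j x : D}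

/-- Conjugation as a ring homomorphism. -/
def cj (y : D) (hy : y ≠ 0) : D →+* D where
  toFun z := y * z * y⁻¹
  map_one' := by rw [mul_one, mul_inv_cancel₀ hy]
  map_mul' z w := by
    calc y * (z * w) * y⁻¹ = y * z * (y⁻¹ * y) * w * y⁻¹ := by
          rw [inv_mul_cancel₀ hy, mul_one]; simp only [mul_assoc]
      _ = _ := by simp only [mul_assoc]
  map_zero' := by rw [mul_zero, zero_mul]
  map_add' z w := by rw [mul_add, add_mul]

theorem cj_apply (y : D) (hy : y ≠ 0) (z : D) : cj y hy z = y * z * y⁻¹ := rfl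

omit [NumberField k] [NumberField K] [StarRing K] [StarRing D] in
theorem comm_s (y : D) : y * algebraMap K D s = algebraMap K D s * y := (Algebra.commutes _ _).symm

theorem comm_t (ht : t = algebraMap K D s * i) {y : D} (hy : y * i = i * y) : y * t = t * y := by
  rw [ht, ← mul_assoc, comm_s, mul_assoc, hy, mul_assoc]

theorem anti_t (ht : t = algebraMap K D s * i) {y : D} (hy : y * i = -(i * y)) :
    y * t = -(t * y) := by
  rw [ht, ← mul_assoc, comm_s, mul_assoc, hy, mul_neg, mul_assoc]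

theorem algT (h : IsCent k K D L K' C t a T jC) :
    jC (algebraMap K' C (algebraMap L K' T)) = t := by
  rw [← IsScalarTower.algebraMap_apply, h.jT]

theorem rep_D (h : IsCent k K D L K' C t a T jC) (ht : t = algebraMap K D s * i) (c : K') :
    ∃ u v : K, jC (algebraMap K' C c) = algebraMap K D u + algebraMap K D v * i := by
  obtain ⟨u, v, rfl⟩ := h.repK c
  refine ⟨u, v * s, ?_⟩
  rw [map_add, map_add, map_mul, map_mul, h.jK, h.jK, algT h, ht, map_mul (algebraMap K D),
    mul_assoc]

theorem TT (h : IsCent k K D L K' C t a T jC) :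
    (algebraMap L K' T) ^ 2 = algebraMap K K' (algebraMap k K a) := by
  rw [pow_two, ← map_mul, h.sqT, h.comp]

/-- The nontrivial automorphism of `K'` over `K`. -/
theorem exists_sig (hS : Setting k K D d s) (h : IsCent k K D L K' C t a T jC)
    (ht : t = algebraMap K D s * i) (hF : Fr k al be i j) :
    ∃ σ : K' ≃ₐ[K] K', σ (algebraMap L K' T) = -algebraMap L K' T ∧
      ∀ (y : D), y * i = -(i * y) → ∀ c : K',
        y * jC (algebraMap K' C c) = jC (algebraMap K' C (σ c)) * y := by
  have ht0 : t ≠ 0 := by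
    rw [ht]
    exact mul_ne_zero ((_root_.map_ne_zero _).mpr hS.s_ne) hF.i_ne
  have hns : ¬ IsSquare (algebraMap k K a) := by
    refine not_sq hS (R := K) (y := t) (z := j) ?_ ?_ ht0 hF.j_ne
    · rw [h.sq, ← IsScalarTower.algebraMap_apply]
    · rw [ht, hF.tj]
  obtain ⟨σ, hσ⟩ := Arith.exists_sigma h.rkK hns (TT h)
  refine ⟨σ, hσ, fun y hy c => ?_⟩
  obtain ⟨u, v, rfl⟩ := h.repK c
  have h1 := anti_t ht hy
  rw [sigma_coords hσ, map_add, map_add, map_sub, map_sub, map_mul, map_mul, h.jK, h.jK, algT h,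
    mul_add, sub_mul, ← Algebra.commutes u y, ← mul_assoc, ← Algebra.commutes v y, mul_assoc, h1,
    mul_neg, mul_assoc, ← sub_eq_add_neg]

/-- The reduced norm of `θ` in the centralizer of `i`. -/
theorem nrd_th (hS : Setting k K D d s) (hdeg : finrank K D = 6 ^ 2)
    (h : IsCent k K D L K' C t a T jC) (hSC : Setting L K' C (inc k L d) (algebraMap K K' s))
    (hdC : finrank K' C = 3 ^ 2)
    (ht : t = algebraMap K D s * i) (hF : Fr k al be i j) (hxi : x * i = i * x)
    {Ω : Type} [Field Ω] [Algebra K Ω] (f : D →ₐ[K] Matrix (Fin 6) (Fin 6) Ω)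
    (hdet : (f x).det = 1) {thC : C} (hthC : jC thC = th j x) : HasNrd K' 3 thC 1 := by
  have i1 := hS.fin
  have i2 := hS.cen
  have i3 := hSC.fin
  have i4 := hSC.cen
  have hj0 := hF.j_ne
  obtain ⟨σ, hσ, hσy⟩ := exists_sig hS h ht hF
  obtain ⟨xC, hxC⟩ := (h.range x).mp (comm_t ht hxi)
  obtain ⟨ν, hν1, hν2⟩ := exists_nrd_cent hdeg hdC (by rw [h.rkK]) jC h.jK xC
  have hν3 : Algebra.norm K ν = 1 := by
    refine W.HasNrd.unique hdeg hν2 ?_
    rw [hxC]
    exact hasNrd_of_det hdeg f (by rw [hdet, map_one])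
  obtain ⟨τ, hτ⟩ : ∃ τ : C →+* C, ∀ y, jC (τ y) = j * jC y * j⁻¹ := by
    refine exists_lift_hom ((cj j hj0).comp jC) jC h.inj fun y => ?_
    obtain ⟨z, hz⟩ := (h.range (j * jC y * j⁻¹)).mp (comm_t ht (hF.conj_comm (by
      have h1 := h.comm y
      have h2 : i = algebraMap K D s⁻¹ * t := by
        rw [ht, ← mul_assoc, ← map_mul, inv_mul_cancel₀ hS.s_ne, map_one, one_mul]
      rw [h2, ← mul_assoc, ← Algebra.commutes, mul_assoc, h1, mul_assoc])))
    exact ⟨z, hz⟩
  have hτn : HasNrd K' 3 (τ xC) (σ ν) := by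
    rw [hasNrd_iff]
    intro Ω' _ φ f' hf'
    refine (hasNrd_iff.mp hν1) Ω' (φ.comp (σ : K' →+* K')) (f'.comp τ) fun c => ?_
    have h1 : τ (algebraMap K' C c) = algebraMap K' C (σ c) := by
      apply h.inj
      rw [hτ, hσy j hF.ji, mul_assoc, mul_inv_cancel₀ hj0, mul_one]
    change f' (τ (algebraMap K' C c)) = _
    rw [h1, hf']
    rfl
  have h2 : thC = τ xC * xC := by
    apply h.inj
    rw [hthC, map_mul, hτ, hxC, th]
  have h3 : σ ν * ν = 1 := by
    have h4 : Algebra.norm K ν = 1 := hν3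
    obtain ⟨u, v, rfl⟩ := h.repK ν
    have h5 := norm_quad h.rkK (S := algebraMap L K' T) (a := algebraMap k K a) (by
      rw [← pow_two, TT h]) h.repK u v
    rw [h5] at h4
    rw [sigma_coords hσ]
    have h6 := congrArg (algebraMap K K') h4
    rw [map_sub, map_mul, map_pow, map_pow, map_one, ← TT h] at h6
    linear_combination h6
  rw [h2, ← h3]
  exact hτn.mul hν1

end cen

end Vale.Agent.P011.Six.H359
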