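import Vale.Agent.P011.Six.H359.Core

/-!
Degree six (helper359): the cubic relation of `θ = j x j⁻¹ x`, and `θ` is a norm.
-/

open Module NumberField Polynomial

set_option linter.unusedSectionVars false

namespace Vale.Agent.P011.Six.H359

open Vale.Agent.P011.Arith Vale.Agent.P011.Even Vale.Agent.P011.Two Vale.Agent.P011.One
  Vale.Agent.P011.Pow
open Vale.Agent.P011.W (HasNrd exists_maxfield hasNrd_norm hasNrd_of_det hasNrd_iff)

section cen

variable {k K D L K' C : Type} [Field k] [NumberField k] [Field K] [NumberField K] [StarRing K]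
    [DivisionRing D] [StarRing D] [Algebra k K] [Algebra k D] [Algebra K D] [IsScalarTower k K D]
    [Field L] [NumberField L] [Algebra k L] [Field K'] [NumberField K'] [StarRing K']
    [Algebra K K'] [DivisionRing C] [StarRing C] [Algebra L K'] [Algebra L C] [Algebra K' C]
    [IsScalarTower L K' C]
    {d : kˣ} {s : K} {t : D} {a : kˣ} {T : L} {jC : C →+* D} {al be : kˣ} {i j x : D}

/-- `θ` is a norm from the extension generated by `i`. -/
theorem norm_th (h : IsCent k K D L K' C t a T jC) (hdC : finrank K' C = 3 ^ 2)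
    (ht : t = algebraMap K D s * i) (hF : Fr k al be i j) {E : Type} [Field E] [Algebra K' E]
    (φ : E →ₐ[K'] C) (hE : finrank K' E = 3) {u : E} {θ g : D} (hu : jC (φ u) = θ)
    (hgi : g * i = -(i * g)) (hgθ : g * θ = θ * g) (hθi : θ * i = i * θ) (hg0 : g ≠ 0)
    (hθ0 : θ ≠ 0) (hgg : g * g * θ = algebraMap k D be) (σ : K' →+* K')
    (hσy : ∀ (y : D), y * i = -(i * y) → ∀ c : K',
        y * jC (algebraMap K' C c) = jC (algebraMap K' C (σ c)) * y)
    (hgen : ∀ e : E, ∃ b0 b1 b2 : K',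
        e = algebraMap K' E b0 + algebraMap K' E b1 * u + algebraMap K' E b2 * u ^ 2) :
    ∃ P Q : K[X], (aeval θ P) ^ 2 - algebraMap k D al * (aeval θ Q) ^ 2 = θ := by
  have hu0 : u ≠ 0 := by
    rintro rfl
    rw [map_zero, map_zero] at hu
    exact hθ0 hu.symm
  obtain ⟨Φ, hΦ⟩ : ∃ Φ : E →+* D, ∀ e, Φ e = jC (φ e) := ⟨jC.comp (φ : E →+* C), fun _ => rfl⟩
  have hΦu : Φ u = θ := by rw [hΦ, hu]
  have hΦc : ∀ c : K', Φ (algebraMap K' E c) = jC (algebraMap K' C c) := fun c => by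
    rw [hΦ, φ.commutes]
  have hgi' : g⁻¹ * i = -(i * g⁻¹) := by
    have h1 : g⁻¹ * (g * i) * g⁻¹ = -(g⁻¹ * (i * g) * g⁻¹) := by rw [hgi]; noncomm_ring
    rw [← mul_assoc, inv_mul_cancel₀ hg0, one_mul, mul_assoc g⁻¹, mul_assoc i,
      mul_inv_cancel₀ hg0, mul_one] at h1
    rw [h1, neg_neg]
  have cθ : cj g⁻¹ (inv_ne_zero hg0) θ = θ := by
    rw [cj_apply, inv_inv, mul_assoc, ← hgθ, ← mul_assoc, inv_mul_cancel₀ hg0, one_mul]
  have cc : ∀ c : K', cj g⁻¹ (inv_ne_zero hg0) (jC (algebraMap K' C c)) =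
      jC (algebraMap K' C (σ c)) := by
    intro c
    rw [cj_apply, hσy _ hgi', mul_assoc, mul_inv_cancel₀ (inv_ne_zero hg0), mul_one]
  have cK : ∀ c : K, cj g⁻¹ (inv_ne_zero hg0) (algebraMap K D c) = algebraMap K D c := by
    intro c
    rw [cj_apply, ← Algebra.commutes, mul_assoc, mul_inv_cancel₀ (inv_ne_zero hg0), mul_one]
  have ci : cj g⁻¹ (inv_ne_zero hg0) i = -i := by
    rw [cj_apply, hgi', neg_mul, mul_assoc, mul_inv_cancel₀ (inv_ne_zero hg0), mul_one]
  obtain ⟨σE, hσE⟩ : ∃ σE : E →+* E, ∀ e, Φ (σE e) = cj g⁻¹ (inv_ne_zero hg0) (Φ e) := by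
    refine exists_lift_hom ((cj g⁻¹ (inv_ne_zero hg0)).comp Φ) Φ Φ.injective fun e => ?_
    obtain ⟨b0, b1, b2, rfl⟩ := hgen e
    refine ⟨algebraMap K' E (σ b0) + algebraMap K' E (σ b1) * u +
      algebraMap K' E (σ b2) * u ^ 2, ?_⟩
    rw [RingHom.comp_apply]
    simp only [map_add, map_mul, map_pow, hΦc, hΦu, cc, cθ]
  -- the semilinear map
  have hW : ∀ y : C, ∃ z : C, jC z = algebraMap k D ((be⁻¹ : kˣ) : k) * (j * jC y * g) := by
    intro y
    obtain ⟨z, hz⟩ := (h.range (algebraMap k D ((be⁻¹ : kˣ) : k) * (j * jC y * g))).mp (by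
      have e1 := anti_t ht hgi
      have e2 := anti_t ht hF.ji
      have e3 := h.comm y
      have e4 : (j * jC y * g) * t = t * (j * jC y * g) := by
        rw [mul_assoc, e1, mul_neg, ← mul_assoc, mul_assoc j, e3, ← mul_assoc j, e2, neg_mul,
          neg_mul, neg_neg]
        simp only [mul_assoc]
      rw [mul_assoc, e4, ← mul_assoc, Algebra.commutes, mul_assoc])
    exact ⟨z, hz⟩
  choose W hW using hW
  let mE : Module E C :=
    { smul := fun e y => y * φ e
      one_smul := fun y => by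
        change y * φ 1 = y
        rw [map_one, mul_one]
      mul_smul := fun e e' y => by
        change y * φ (e * e') = (y * φ e') * φ e
        rw [mul_comm, map_mul, mul_assoc]
      smul_zero := fun e => zero_mul _
      smul_add := fun e y z => add_mul _ _ _
      add_smul := fun e e' y => by
        change y * φ (e + e') = y * φ e + y * φ e'
        rw [map_add, mul_add]
      zero_smul := fun y => by
        change y * φ 0 = 0
        rw [map_zero, mul_zero] }
  have hsm : ∀ (e : E) (y : C), e • y = y * φ e := fun _ _ => rfl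
  have tow : IsScalarTower K' E C := ⟨fun c e y => by
    rw [hsm, hsm, map_smul, mul_smul_comm]⟩
  have h33 : finrank E C = 3 := by
    have h1 := Module.finrank_mul_finrank K' E C
    rw [hE, hdC] at h1
    omega
  have hbe : algebraMap k D ((be⁻¹ : kˣ) : k) * algebraMap k D be = 1 := by
    rw [← map_mul, Units.inv_mul, map_one]
  have hgg' : g * g = algebraMap k D be * θ⁻¹ := by
    rw [← hgg, mul_assoc, mul_inv_cancel₀ hθ0, mul_one]
  obtain ⟨m, hm⟩ := semilin h33 σE W (fun y z => by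
      apply h.inj
      rw [hW, map_add, map_add, hW, hW, mul_add, add_mul, mul_add]) (fun e y => by
      apply h.inj
      rw [hW, hsm, hsm, map_mul, map_mul, hW, ← hΦ, ← hΦ, hσE, cj_apply, inv_inv]
      simp only [mul_assoc]
      rw [← mul_assoc g g⁻¹, mul_inv_cancel₀ hg0, one_mul]) u⁻¹ (fun y => by
      apply h.inj
      rw [hW, hW, hsm, map_mul, ← hΦ, map_inv₀, hΦu]
      obtain ⟨Y, hY⟩ : ∃ Y, Y = jC y := ⟨_, rfl⟩
      obtain ⟨A, hA⟩ : ∃ A, A = algebraMap k D ((be⁻¹ : kˣ) : k) := ⟨_, rfl⟩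
      obtain ⟨Bb, hB⟩ : ∃ Bb, Bb = algebraMap k D (be : k) := ⟨_, rfl⟩
      have cA : ∀ z : D, z * A = A * z := fun z => by rw [hA]; exact (Algebra.commutes _ _).symm
      have cB : ∀ z : D, z * Bb = Bb * z := fun z => by rw [hB]; exact (Algebra.commutes _ _).symm
      have hAB : ∀ z : D, A * (Bb * z) = z := fun z => by rw [← mul_assoc, hA, hB, hbe, one_mul]
      rw [← hY, ← hA]
      have e1 : j * (A * (j * Y * g)) * g = A * ((j * j) * Y * (g * g)) := by
        rw [← mul_assoc j A, cA j]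
        simp only [mul_assoc]
      have e2 : Bb * Y * (Bb * θ⁻¹) = Bb * (Bb * (Y * θ⁻¹)) := by
        rw [mul_assoc, ← mul_assoc Y, cB Y, mul_assoc]
      rw [e1, hF.jj, hgg', ← hB, e2, hAB, hAB])
  have hσu : σE u = u := Φ.injective (by rw [hσE, hΦu, cθ])
  have hm2 : (u ^ 2 * m) * σE (u ^ 2 * m) = u := by
    rw [map_mul, map_pow, hσu]
    have h1 : u ^ 2 * m * (u ^ 2 * σE m) = u ^ 4 * (m * σE m) := by ring
    rw [h1, hm]
    field_simp
  obtain ⟨c0, c1, c2, hm'⟩ := hgen (u ^ 2 * m)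
  obtain ⟨a0, b0, h0⟩ := rep_D h ht c0
  obtain ⟨a1, b1, h1⟩ := rep_D h ht c1
  obtain ⟨a2, b2, h2⟩ := rep_D h ht c2
  have hθ2i : θ ^ 2 * i = i * θ ^ 2 := by rw [pow_two, mul_assoc, hθi, ← mul_assoc, hθi, mul_assoc]
  obtain ⟨P, hP⟩ : ∃ P : K[X], P = Polynomial.C a0 + Polynomial.C a1 * X + Polynomial.C a2 * X ^ 2 :=
    ⟨_, rfl⟩
  obtain ⟨Q, hQ⟩ : ∃ Q : K[X], Q = Polynomial.C b0 + Polynomial.C b1 * X + Polynomial.C b2 * X ^ 2 :=
    ⟨_, rfl⟩
  have hPv : aeval θ P = algebraMap K D a0 + algebraMap K D a1 * θ + algebraMap K D a2 * θ ^ 2 := by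
    rw [hP, map_add, map_add, map_mul, map_mul, map_pow, aeval_C, aeval_C, aeval_C, aeval_X]
  have hQv : aeval θ Q = algebraMap K D b0 + algebraMap K D b1 * θ + algebraMap K D b2 * θ ^ 2 := by
    rw [hQ, map_add, map_add, map_mul, map_mul, map_pow, aeval_C, aeval_C, aeval_C, aeval_X]
  have hm3 : Φ (u ^ 2 * m) = aeval θ P + aeval θ Q * i := by
    rw [hm', map_add, map_add, map_mul, map_mul, map_pow, hΦc, hΦc, hΦc, hΦu, h0, h1, h2, hPv, hQv]
    simp only [add_mul, mul_assoc, hθi, hθ2i]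
    abel
  have hm4 : Φ (σE (u ^ 2 * m)) = aeval θ P - aeval θ Q * i := by
    rw [hσE, hm3, map_add, map_mul, ci, mul_neg, ← sub_eq_add_neg]
    have h3 : ∀ R : K[X], cj g⁻¹ (inv_ne_zero hg0) (aeval θ R) = aeval θ R := by
      intro R
      induction R using Polynomial.induction_on' with
      | add p q hp hq => rw [map_add, map_add, hp, hq]
      | monomial n c => rw [aeval_monomial, map_mul, map_pow, cK, cθ]
    rw [h3, h3]
  have hcom : ∀ R : K[X], aeval θ R * i = i * aeval θ R := by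
    intro R
    induction R using Polynomial.induction_on' with
    | add p q hp hq => rw [map_add, add_mul, mul_add, hp, hq]
    | monomial n c =>
      rw [aeval_monomial, mul_assoc, (Commute.pow_left hθi n : Commute (θ ^ n) i).eq,
        ← mul_assoc, Algebra.commutes, mul_assoc]
  refine ⟨P, Q, ?_⟩
  have h5 : (aeval θ P + aeval θ Q * i) * (aeval θ P - aeval θ Q * i) = θ := by
    rw [← hm3, ← hm4, ← map_mul, hm2, hΦu]
  refine Eq.trans ?_ h5
  obtain ⟨A, hA⟩ : ∃ A, A = aeval θ P := ⟨_, rfl⟩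
  obtain ⟨B, hB⟩ : ∃ B, B = aeval θ Q := ⟨_, rfl⟩
  have hAi : A * i = i * A := by rw [hA, hcom]
  have hBi : B * i = i * B := by rw [hB, hcom]
  have hAB : A * B = B * A := by rw [hA, hB, ← map_mul, mul_comm, map_mul]
  rw [← hA, ← hB, ← hF.ii]
  have e1 : (A + B * i) * (A - B * i) = A * A - A * B * i + B * (i * A) - B * (i * B) * i := by
    noncomm_ring
  rw [e1, ← hAi, ← hBi, hAB, pow_two, pow_two]
  have e2 : i * i * (B * B) = B * (B * i) * i := by
    calc i * i * (B * B) = i * (i * B) * B := by simp only [mul_assoc]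
      _ = i * (B * i) * B := by rw [hBi]
      _ = (i * B) * (i * B) := by simp only [mul_assoc]
      _ = (B * i) * (B * i) := by rw [hBi]
      _ = B * (i * B) * i := by simp only [mul_assoc]
      _ = B * (B * i) * i := by rw [hBi]
  rw [e2]
  noncomm_ring

end cen

end Vale.Agent.P011.Six.H359
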