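import Vale.Agent.P011.Two.Cont
import Mathlib.RingTheory.Discriminant
import Mathlib.Analysis.Complex.Basic

/-!
Complex embeddings above a real place: coordinates with prescribed values and closeness.
-/

open NumberField IsDedekindDomain Module Filter Topology Matrix

set_option linter.unusedSectionVars false

namespace Vale.Agent.P011.Six.H359

open Vale.Agent.P011.Arith Vale.Agent.P011.Even Vale.Agent.P011.Two

section emb

variable {k E : Type} [Field k] [NumberField k] [Field E] [NumberField E] [Algebra k E]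

/-- The complex embedding lies above the real one. -/
def Em (φ : k →+* ℝ) (σ : E →+* ℂ) : Prop := ∀ x : k, σ (algebraMap k E x) = (φ x : ℂ)

/-- The conjugate embedding. -/
noncomputable def cg (σ : E →+* ℂ) : E →+* ℂ := (starRingEnd ℂ).comp σ

theorem cg_apply (σ : E →+* ℂ) (x : E) : cg σ x = (starRingEnd ℂ) (σ x) := rfl

theorem cg_cg (σ : E →+* ℂ) : cg (cg σ) = σ := by
  ext x
  rw [cg_apply, cg_apply, Complex.conj_conj]

theorem Em.cg {φ : k →+* ℝ} {σ : E →+* ℂ} (h : Em φ σ) : Em φ (cg σ) := by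
  intro x
  rw [cg_apply, h x, Complex.conj_ofReal]

/-- The matrix of the embeddings. -/
theorem exists_mat (φ : k →+* ℝ) {r : ℕ} (b : Basis (Fin r) k E) :
    ∃ (e : Fin r → (E →+* ℂ)) (P : Matrix (Fin r) (Fin r) ℂ), (∀ m, Em φ (e m)) ∧
      (∀ σ : E →+* ℂ, Em φ σ → ∃ m, e m = σ) ∧
      (Matrix.of fun l m => e m (b l)) * P = 1 ∧ P * (Matrix.of fun l m => e m (b l)) = 1 := by
  classical
  let _ : Algebra k ℂ := (Complex.ofRealHom.comp φ).toAlgebra
  have halg : ∀ x : k, algebraMap k ℂ x = (φ x : ℂ) := fun x => rfl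
  have hfin : FiniteDimensional k E := Module.Finite.of_basis b
  have hcard : Fintype.card (E →ₐ[k] ℂ) = r := by
    rw [AlgHom.card k E ℂ, finrank_eq_card_basis b, Fintype.card_fin]
  let e₀ : Fin r ≃ (E →ₐ[k] ℂ) := (Fintype.equivFinOfCardEq hcard).symm
  have h1 := Algebra.discr_eq_det_embeddingsMatrixReindex_pow_two k ℂ b e₀
  have h2 : (Algebra.embeddingsMatrixReindex k ℂ b e₀).det ≠ 0 := by
    intro h
    rw [h, zero_pow two_ne_zero, map_eq_zero] at h1
    exact Algebra.discr_not_zero_of_basis k b h1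
  have h3 : (Matrix.of fun l m => ((e₀ m : E →ₐ[k] ℂ) : E →+* ℂ) (b l)) =
      Algebra.embeddingsMatrixReindex k ℂ b e₀ := by
    ext l m
    rfl
  have h4 : IsUnit (Algebra.embeddingsMatrixReindex k ℂ b e₀).det := isUnit_iff_ne_zero.mpr h2
  refine ⟨fun m => (e₀ m : E →+* ℂ), (Algebra.embeddingsMatrixReindex k ℂ b e₀)⁻¹,
    fun m x => (e₀ m).commutes x, fun σ hσ => ?_, ?_, ?_⟩
  · let σ' : E →ₐ[k] ℂ := { σ with commutes' := fun x => hσ x }
    refine ⟨e₀.symm σ', ?_⟩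
    change ((e₀ (e₀.symm σ') : E →ₐ[k] ℂ) : E →+* ℂ) = σ
    rw [Equiv.apply_symm_apply]
    rfl
  · rw [h3, Matrix.mul_nonsing_inv _ h4]
  · rw [h3, Matrix.nonsing_inv_mul _ h4]

/-- **Real coordinates with prescribed values.** -/
theorem exists_coord (φ : k →+* ℝ) {r : ℕ} (b : Basis (Fin r) k E) (W : (E →+* ℂ) → ℂ)
    (hW : ∀ σ, Em φ σ → W (cg σ) = (starRingEnd ℂ) (W σ)) :
    ∃ c : Fin r → ℝ, ∀ σ : E →+* ℂ, Em φ σ → ∑ l, (c l : ℂ) * σ (b l) = W σ := by
  obtain ⟨e, P, he, hsurj, hMP, hPM⟩ := exists_mat φ b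
  obtain ⟨M, hM⟩ : ∃ M : Matrix (Fin r) (Fin r) ℂ, M = Matrix.of fun l m => e m (b l) := ⟨_, rfl⟩
  rw [← hM] at hMP hPM
  obtain ⟨c, hc⟩ : ∃ c : Fin r → ℂ, c = (fun m => W (e m)) ᵥ* P := ⟨_, rfl⟩
  have h1 : c ᵥ* M = fun m => W (e m) := by
    rw [hc, Matrix.vecMul_vecMul, hPM, Matrix.vecMul_one]
  have h2 : ∀ σ : E →+* ℂ, Em φ σ → ∑ l, c l * σ (b l) = W σ := by
    intro σ hσ
    obtain ⟨m, rfl⟩ := hsurj σ hσ
    have h := congrFun h1 m
    rw [← h, hM]
    rfl
  -- the coordinates are real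
  have h3 : (fun l => (starRingEnd ℂ) (c l)) ᵥ* M = fun m => W (e m) := by
    ext m
    have h4 := h2 (cg (e m)) (he m).cg
    rw [hW _ (he m)] at h4
    have h5 := congrArg (starRingEnd ℂ) h4
    rw [Complex.conj_conj, map_sum] at h5
    rw [← h5, hM]
    change ∑ l, (starRingEnd ℂ) (c l) * e m (b l) = _
    refine Finset.sum_congr rfl fun l _ => ?_
    rw [map_mul, cg_apply, Complex.conj_conj]
  have h4 : (fun l => (starRingEnd ℂ) (c l)) = c := by
    have h5 := congrArg (fun v => v ᵥ* P) (h3.trans h1.symm)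
    simp only [Matrix.vecMul_vecMul, hMP, Matrix.vecMul_one] at h5
    exact h5
  refine ⟨fun l => (c l).re, fun σ hσ => ?_⟩
  rw [← h2 σ hσ]
  refine Finset.sum_congr rfl fun l _ => ?_
  rw [Complex.conj_eq_iff_re.mp (congrFun h4 l)]

/-- Small values imply small coordinates. -/
theorem coord_tendsto (φ : k →+* ℝ) {r : ℕ} (b : Basis (Fin r) k E) {X : Type} {F : Filter X}
    {z : X → E} (h : ∀ σ : E →+* ℂ, Em φ σ → Tendsto (fun n => σ (z n)) F (𝓝 0)) (l : Fin r) :
    Tendsto (fun n => φ (b.repr (z n) l)) F (𝓝 0) := by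
  obtain ⟨e, P, he, hsurj, hMP, hPM⟩ := exists_mat φ b
  obtain ⟨M, hM⟩ : ∃ M : Matrix (Fin r) (Fin r) ℂ, M = Matrix.of fun l m => e m (b l) := ⟨_, rfl⟩
  rw [← hM] at hMP hPM
  have h1 : ∀ n, (fun l => (φ (b.repr (z n) l) : ℂ)) ᵥ* M = fun m => e m (z n) := by
    intro n
    ext m
    conv_rhs => rw [← b.sum_repr (z n), map_sum]
    rw [hM]
    change ∑ l, (φ (b.repr (z n) l) : ℂ) * e m (b l) = _
    refine Finset.sum_congr rfl fun l _ => ?_
    rw [Algebra.smul_def, map_mul, he m]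
  have h2 : ∀ n, (φ (b.repr (z n) l) : ℂ) = ∑ m, e m (z n) * P m l := by
    intro n
    have h3 := congrArg (fun v => v ᵥ* P) (h1 n)
    simp only [Matrix.vecMul_vecMul, hMP, Matrix.vecMul_one] at h3
    exact congrFun h3 l
  have h3 : Tendsto (fun n => ∑ m, e m (z n) * P m l) F (𝓝 (∑ m, 0 * P m l)) :=
    tendsto_finsetSum _ fun m _ => (h _ (he m)).mul_const _
  simp only [zero_mul, Finset.sum_const_zero] at h3
  have h4 : Tendsto (fun n => (φ (b.repr (z n) l) : ℂ)) F (𝓝 0) := h3.congr fun n => (h2 n).symm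
  have h5 := (Complex.continuous_re.tendsto _).comp h4
  rw [Complex.zero_re] at h5
  exact h5.congr fun n => Complex.ofReal_re _

/-- Convergence of the embeddings implies convergence in the algebra. -/
theorem tn_of_emb {D : Type} [DivisionRing D] [Algebra k D] {N : ℕ} (B : Basis (Fin N) k D)
    (j : E →ₐ[k] D) (φ : k →+* ℝ) {X : Type} {F : Filter X} {z : X → E} {a : E}
    (h : ∀ σ : E →+* ℂ, Em φ σ → Tendsto (fun n => σ (z n)) F (𝓝 (σ a))) :
    Tn B (.inr φ) F (fun n => j (z n)) (j a) := by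
  have hfd : FiniteDimensional k E := Module.Finite.of_restrictScalars_finite ℚ k E
  obtain ⟨r, b⟩ : ∃ r : ℕ, Nonempty (Basis (Fin r) k E) := ⟨_, ⟨finBasis k E⟩⟩
  obtain ⟨b⟩ := b
  have h1 : ∀ l, Tendsto (fun n => φ (b.repr (z n - a) l)) F (𝓝 0) := fun l =>
    coord_tendsto φ b (fun σ hσ => by
      have h2 := (h σ hσ).sub_const (σ a)
      rw [sub_self] at h2
      refine h2.congr fun n => ?_
      rw [map_sub]) l
  have h2 : Tendsto (fun n => ∑ l, |φ (b.repr (z n - a) l)| * nm B (.inr φ) (j (b l))) F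
      (𝓝 (∑ l, |(0 : ℝ)| * nm B (.inr φ) (j (b l)))) :=
    tendsto_finsetSum _ fun l _ => ((h1 l).abs).mul_const _
  simp only [abs_zero, zero_mul, Finset.sum_const_zero] at h2
  refine squeeze_zero (fun n => nm_nonneg B _ _) (fun n => ?_) h2
  have h3 : j (z n) - j a = ∑ l, (b.repr (z n - a) l) • j (b l) := by
    rw [← map_sub]
    conv_lhs => rw [← b.sum_repr (z n - a), map_sum]
    exact Finset.sum_congr rfl fun l _ => by rw [map_smul]
  rw [h3]
  refine (nm_sum_le B _ _ _).trans (Finset.sum_le_sum fun l _ => ?_)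
  rw [nm_smul]
  exact le_rfl

/-- **Approximation** of given values at complex embeddings above finitely many real places and
of one at finitely many finite places. -/
theorem exists_approx {r : ℕ} (b : Basis (Fin r) k E) (R : Set (k →+* ℝ))
    {S : Set (HeightOneSpectrum (𝓞 k))} (hS : S.Finite) (W : (k →+* ℝ) → (E →+* ℂ) → ℂ)
    (hW : ∀ φ ∈ R, ∀ σ, Em φ σ → W φ (cg σ) = (starRingEnd ℂ) (W φ σ)) :
    ∃ w : ℕ → E, (∀ φ ∈ R, ∀ σ, Em φ σ → Tendsto (fun n => σ (w n)) atTop (𝓝 (W φ σ))) ∧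
      ∀ v ∈ S, ∀ l, Tendsto (fun n => plAbv (.inl v) (b.repr (w n - 1) l)) atTop (𝓝 0) := by
  classical
  have h1 : ∀ φ : k →+* ℝ, ∃ c : Fin r → ℝ, φ ∈ R → ∀ σ : E →+* ℂ, Em φ σ →
      ∑ l, (c l : ℂ) * σ (b l) = W φ σ := by
    intro φ
    by_cases hφ : φ ∈ R
    · obtain ⟨c, hc⟩ := exists_coord φ b (W φ) (hW φ hφ)
      exact ⟨c, fun _ => hc⟩
    · exact ⟨0, fun h => absurd h hφ⟩
  choose c hc using h1
  -- approximation of the coordinates
  have h2 : ∀ (n : ℕ) (l : Fin r), ∃ a : k, (∀ φ : k →+* ℝ, |φ a - c φ l| < 1 / ((n : ℝ) + 1)) ∧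
      ∀ v ∈ S, plAbv (.inl v) (a - b.repr 1 l) < 1 / ((n : ℝ) + 1) := by
    intro n l
    have hε : (0 : ℝ) < 1 / ((n : ℝ) + 1) := by positivity
    choose q hq1 hq2 using fun φ : k →+* ℝ => exists_rat_btwn
      (show c φ l - 1 / ((n : ℝ) + 1) / 2 < c φ l + 1 / ((n : ℝ) + 1) / 2 by linarith)
    obtain ⟨a, ha⟩ := approx (F := k) (SP S) (SP_finite hS)
      (fun p => Sum.elim (fun _ => b.repr 1 l) (fun φ => ((q φ : ℚ) : k)) p)
      (fun _ => 1 / ((n : ℝ) + 1) / 2) (fun _ => by linarith)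
    refine ⟨a, fun φ => ?_, fun v hv => ?_⟩
    · have h1 := ha (Sum.inr φ) inr_mem_SP
      rw [plAbv_inr, Sum.elim_inr, map_sub, map_ratCast] at h1
      have h2 := hq1 φ
      have h3 := hq2 φ
      rw [abs_lt] at h1 ⊢
      constructor <;> linarith [h1.1, h1.2]
    · have h1 := ha (Sum.inl v) (inl_mem_SP.mpr hv)
      rw [Sum.elim_inl] at h1
      linarith
  choose a ha1 ha2 using h2
  have h0 : Tendsto (fun n : ℕ => 1 / ((n : ℝ) + 1)) atTop (𝓝 0) :=
    tendsto_one_div_add_atTop_nhds_zero_nat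
  refine ⟨fun n => ∑ l, a n l • b l, fun φ hφ σ hσ => ?_, fun v hv l => ?_⟩
  · rw [← hc φ hφ σ hσ]
    have h3 : ∀ l, Tendsto (fun n => φ (a n l)) atTop (𝓝 (c φ l)) := by
      intro l
      rw [tendsto_iff_norm_sub_tendsto_zero]
      refine squeeze_zero (fun n => norm_nonneg _) (fun n => ?_) h0
      rw [Real.norm_eq_abs]
      exact (ha1 n l φ).le
    have h4 : ∀ n, σ (∑ l, a n l • b l) = ∑ l, (φ (a n l) : ℂ) * σ (b l) := by
      intro n
      rw [map_sum]
      refine Finset.sum_congr rfl fun l _ => ?_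
      rw [Algebra.smul_def, map_mul, hσ]
    simp only [h4]
    exact tendsto_finsetSum _ fun l _ =>
      ((Complex.continuous_ofReal.tendsto _).comp (h3 l)).mul_const _
  · refine squeeze_zero (fun n => (plAbv _).nonneg _) (fun n => ?_) h0
    have h3 : b.repr (∑ l, a n l • b l - 1) l = a n l - b.repr 1 l := by
      rw [map_sub, Finsupp.sub_apply, b.repr_sum_self]
    rw [h3]
    exact (ha2 n l v hv).le

/-- Small coordinates imply closeness. -/
theorem tn_of_coord {D : Type} [DivisionRing D] [Algebra k D] {N : ℕ} (B : Basis (Fin N) k D)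
    (j : E →ₐ[k] D) {p : Pl k} {r : ℕ} (b : Basis (Fin r) k E) {X : Type} {F : Filter X}
    {z : X → E} {a : E} (h : ∀ l, Tendsto (fun n => plAbv p (b.repr (z n - a) l)) F (𝓝 0)) :
    Tn B p F (fun n => j (z n)) (j a) := by
  have h2 : Tendsto (fun n => ∑ l, plAbv p (b.repr (z n - a) l) * nm B p (j (b l))) F
      (𝓝 (∑ l, (0 : ℝ) * nm B p (j (b l)))) :=
    tendsto_finsetSum _ fun l _ => (h l).mul_const _
  simp only [zero_mul, Finset.sum_const_zero] at h2
  refine squeeze_zero (fun n => nm_nonneg B _ _) (fun n => ?_) h2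
  have h3 : j (z n) - j a = ∑ l, (b.repr (z n - a) l) • j (b l) := by
    rw [← map_sub]
    conv_lhs => rw [← b.sum_repr (z n - a), map_sum]
    exact Finset.sum_congr rfl fun l _ => by rw [map_smul]
  rw [h3]
  refine (nm_sum_le B _ _ _).trans (Finset.sum_le_sum fun l _ => ?_)
  rw [nm_smul]

end emb

end Vale.Agent.P011.Six.H359
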