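import Vale.Agent.P011.Six.H359.Emb
import Vale.Agent.P011.One.Final
import Mathlib.RingTheory.Norm.Transitivity
import Mathlib.Analysis.SpecialFunctions.Complex.Log

/-!
Equivariant logarithms of a unitary element of norm one of a number field.
-/

open NumberField IsDedekindDomain Module Filter Topology Matrix

set_option linter.unusedSectionVars false

namespace Vale.Agent.P011.Six.H359

open Vale.Agent.P011.Arith Vale.Agent.P011.Even Vale.Agent.P011.Two Vale.Agent.P011.MPQ
open Complex (I)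
open Real (pi)

section logs

variable {E : Type} [Field E] [NumberField E]

/-- The argument of a value, equivariantly chosen. -/
noncomputable def agm (x u : E) (σ : E →+* ℂ) : ℝ :=
  if (σ x).arg = Real.pi then (if 0 < (σ u).im then Real.pi else -Real.pi) else (σ x).arg

/-- The logarithm of a value, equivariantly chosen. -/
noncomputable def lgm (x u : E) (σ : E →+* ℂ) : ℂ := (Real.log ‖σ x‖ : ℂ) + (agm x u σ : ℂ) * I

theorem exp_lgm {x u : E} {σ : E →+* ℂ} (hx : σ x ≠ 0) : Complex.exp (lgm x u σ) = σ x := by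
  have h1 : ((‖σ x‖ : ℝ) : ℂ) ≠ 0 := by
    rw [Ne, Complex.ofReal_eq_zero, norm_eq_zero]
    exact hx
  have h2 : Complex.exp (Real.log ‖σ x‖ : ℂ) = (‖σ x‖ : ℂ) := by
    rw [← Complex.ofReal_exp, Real.exp_log (norm_pos_iff.mpr hx)]
  rw [lgm, Complex.exp_add, h2, agm]
  by_cases h : (σ x).arg = Real.pi
  · rw [if_pos h]
    have h3 : σ x = (‖σ x‖ : ℂ) * Complex.exp (Real.pi * I) := by
      conv_lhs => rw [← Complex.norm_mul_exp_arg_mul_I (σ x), h]
    have h4 : Complex.exp (((if 0 < (σ u).im then Real.pi else -Real.pi : ℝ) : ℂ) * I) =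
        Complex.exp (Real.pi * I) := by
      split_ifs
      · rfl
      · rw [Complex.ofReal_neg, neg_mul, Complex.exp_neg, Complex.exp_pi_mul_I]
        norm_num
    rw [h4, ← h3]
  · rw [if_neg h, Complex.norm_mul_exp_arg_mul_I]

theorem lgm_cg {x u : E} {σ : E →+* ℂ} (hu : (σ u).im ≠ 0) :
    lgm x u (cg σ) = (starRingEnd ℂ) (lgm x u σ) := by
  have h1 : agm x u (cg σ) = -agm x u σ := by
    rw [agm, agm, cg_apply, cg_apply, Complex.arg_conj]
    by_cases h : (σ x).arg = Real.pi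
    · rw [if_pos h, if_pos rfl, if_pos h, Complex.conj_im]
      rcases lt_or_gt_of_ne hu with h2 | h2
      · rw [if_pos (by linarith), if_neg (not_lt.mpr h2.le), neg_neg]
      · rw [if_neg (by linarith), if_pos h2]
    · rw [if_neg h, if_neg h, if_neg]
      intro h2
      have h3 := Complex.neg_pi_lt_arg (σ x)
      linarith
  rw [lgm, lgm, h1, cg_apply, Complex.norm_conj, map_add, map_mul, Complex.conj_ofReal,
    Complex.conj_ofReal, Complex.conj_I]
  push_cast
  ring

theorem lgm_st {x u : E} {σ σ' : E →+* ℂ} (hu : (σ u).im ≠ 0) (hx : σ' x = (σ x)⁻¹)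
    (hu' : σ' u = -σ u) : lgm x u σ' = -lgm x u σ := by
  have h1 : agm x u σ' = -agm x u σ := by
    rw [agm, agm, hx, hu', Complex.arg_inv, Complex.neg_im]
    by_cases h : (σ x).arg = Real.pi
    · rw [if_pos h, if_pos rfl, if_pos h]
      rcases lt_or_gt_of_ne hu with h2 | h2
      · rw [if_pos (by linarith), if_neg (not_lt.mpr h2.le), neg_neg]
      · rw [if_neg (by linarith), if_pos h2]
    · rw [if_neg h, if_neg h, if_neg]
      intro h2
      have h3 := Complex.neg_pi_lt_arg (σ x)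
      linarith
  rw [lgm, lgm, h1, hx, norm_inv, Real.log_inv]
  push_cast
  ring

end logs

section sums

variable {K E : Type} [Field K] [Field E] [NumberField E] [Algebra K E]

open scoped Classical in
/-- The embeddings with a given restriction. -/
noncomputable def Fb (κ : K →+* ℂ) : Finset (E →+* ℂ) :=
  Finset.univ.filter fun σ => σ.comp (algebraMap K E) = κ

theorem mem_Fb {κ : K →+* ℂ} {σ : E →+* ℂ} :
    σ ∈ Fb (E := E) κ ↔ σ.comp (algebraMap K E) = κ := by
  classical
  rw [Fb, Finset.mem_filter]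
  simp

/-- The norm as a product over the embeddings. -/
theorem norm_fb [CharZero K] [FiniteDimensional K E] (κ : K →+* ℂ) (y : E) :
    κ (Algebra.norm K y) = ∏ σ ∈ Fb (E := E) κ, σ y := by
  classical
  let _ : Algebra K ℂ := κ.toAlgebra
  have h1 := Algebra.norm_eq_prod_embeddings K ℂ (L := E) y
  have h2 : κ (Algebra.norm K y) = algebraMap K ℂ (Algebra.norm K y) := rfl
  rw [h2, h1]
  refine Finset.prod_bij (fun (σ : E →ₐ[K] ℂ) _ => (σ : E →+* ℂ)) (fun σ _ => ?_)
    (fun σ _ σ' _ h => ?_) (fun σ hσ => ?_) (fun σ _ => rfl)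
  · rw [mem_Fb]
    ext c
    exact σ.commutes c
  · ext y
    exact RingHom.congr_fun h y
  · rw [mem_Fb] at hσ
    exact ⟨{ σ with commutes' := fun c => RingHom.congr_fun hσ c }, Finset.mem_univ _, rfl⟩

end sums

section main

variable {k K : Type} [Field k] [NumberField k] [Field K] [NumberField K] [StarRing K]
  [Algebra k K] {d : kˣ} {s : K}
  {E : Type} [Field E] [NumberField E] [Algebra k E] [Algebra K E] [IsScalarTower k K E]

theorem sq_neg {z : ℂ} {r : ℝ} (h : z * z = (r : ℂ)) (hr : r < 0) : z.re = 0 ∧ z.im ≠ 0 := by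
  have h1 := congrArg Complex.re h
  have h2 := congrArg Complex.im h
  rw [Complex.mul_re, Complex.ofReal_re] at h1
  rw [Complex.mul_im, Complex.ofReal_im] at h2
  have h3 : z.im ≠ 0 := by
    intro h0
    rw [h0] at h1
    nlinarith [mul_self_nonneg z.re]
  refine ⟨?_, h3⟩
  have h4 : z.re * z.im = 0 := by linarith
  exact (mul_eq_zero.mp h4).resolve_right h3

theorem sq_pos {z : ℂ} {r : ℝ} (h : z * z = (r : ℂ)) (hr : 0 < r) : z.im = 0 := by
  have h1 := congrArg Complex.re h
  have h2 := congrArg Complex.im h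
  rw [Complex.mul_re, Complex.ofReal_re] at h1
  rw [Complex.mul_im, Complex.ofReal_im] at h2
  have h4 : z.re * z.im = 0 := by linarith
  rcases mul_eq_zero.mp h4 with h0 | h0
  · rw [h0] at h1
    nlinarith [mul_self_nonneg z.im]
  · exact h0

/-- The structure of the centre as seen by the embeddings. -/
theorem kap_ext {D : Type} [DivisionRing D] [StarRing D] [Algebra k D] [Algebra K D]
    [IsScalarTower k K D] (hS : Setting k K D d s) {κ κ' : K →+* ℂ}
    (h : ∀ c : k, κ (algebraMap k K c) = κ' (algebraMap k K c)) (hs : κ s = κ' s) : κ = κ' := by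
  ext c
  obtain ⟨a, b, rfl⟩ := hS.span c
  rw [map_add, map_add, map_mul, map_mul, h, h, hs]

/-- **Equivariant logarithms** with vanishing partial sums. -/
theorem exists_log {D : Type} [DivisionRing D] [StarRing D] [Algebra k D] [Algebra K D]
    [IsScalarTower k K D] (hS : Setting k K D d s) {al : kˣ} {iE x : E} {st : E →+* E}
    (hst : ∀ y, st (st y) = y) (stK : ∀ c : K, st (algebraMap K E c) = algebraMap K E (star c))
    (hi : st iE = -iE) (hii : iE * iE = algebraMap k E al) (hx : x * st x = 1)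
    (hN : Algebra.norm K x = 1) {φ : k →+* ℝ} (hφ : φ al < 0)
    (hcomp : φ d < 0 → ∃ σ₀ : E →+* ℂ, Em φ σ₀ ∧ σ₀.comp st = cg σ₀) :
    ∃ lam : (E →+* ℂ) → ℂ, ∀ σ : E →+* ℂ, Em φ σ → Complex.exp (lam σ) = σ x ∧
      lam (cg σ) = (starRingEnd ℂ) (lam σ) ∧ lam (σ.comp st) = -lam σ ∧
      ∑ σ' ∈ Fb (E := E) (σ.comp (algebraMap K E)), lam σ' = 0 := by
  classical
  have hfin : FiniteDimensional K E := Module.Finite.of_restrictScalars_finite ℚ K E
  have hx0 : ∀ σ : E →+* ℂ, σ x ≠ 0 := fun σ h => by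
    have h1 := congrArg σ hx
    rw [map_mul, h, zero_mul, map_one] at h1
    exact zero_ne_one h1
  have hxs : ∀ σ : E →+* ℂ, (σ.comp st) x = (σ x)⁻¹ := fun σ => by
    rw [RingHom.comp_apply]
    refine eq_inv_of_mul_eq_one_right ?_
    rw [← map_mul, hx, map_one]
  have hu : ∀ σ : E →+* ℂ, Em φ σ → (σ iE).im ≠ 0 := fun σ hσ => by
    refine (sq_neg (r := φ al) ?_ hφ).2
    rw [← map_mul, hii, hσ]
  have hus : ∀ σ : E →+* ℂ, (σ.comp st) iE = -σ iE := fun σ => by
    rw [RingHom.comp_apply, hi, map_neg]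
  have stk : ∀ c : k, st (algebraMap k E c) = algebraMap k E c := fun c => by
    rw [IsScalarTower.algebraMap_apply k K E, stK, (hS.fix _).mpr ⟨c, rfl⟩]
  have hEst : ∀ σ : E →+* ℂ, Em φ σ → Em φ (σ.comp st) := fun σ hσ c => by
    rw [RingHom.comp_apply, stk, hσ]
  -- the embeddings of the same restriction
  have hFb : ∀ {κ : K →+* ℂ} (σ : E →+* ℂ), σ ∈ Fb (E := E) κ → (∀ c : k,
      κ (algebraMap k K c) = (φ c : ℂ)) → Em φ σ := by
    intro κ σ hσ hκ c
    rw [mem_Fb] at hσ
    rw [IsScalarTower.algebraMap_apply k K E, ← hκ, ← hσ]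
    rfl
  have hres : ∀ σ : E →+* ℂ, Em φ σ → ∀ c : k,
      (σ.comp (algebraMap K E)) (algebraMap k K c) = (φ c : ℂ) := by
    intro σ hσ c
    rw [RingHom.comp_apply, ← IsScalarTower.algebraMap_apply k K E, hσ]
  -- the sum of the logarithms
  have hexp : ∀ κ : K →+* ℂ, (∀ c : k, κ (algebraMap k K c) = (φ c : ℂ)) →
      Complex.exp (∑ σ ∈ Fb (E := E) κ, lgm x iE σ) = 1 := by
    intro κ hκ
    rw [Complex.exp_sum, Finset.prod_congr rfl fun σ _ => exp_lgm (hx0 σ), ← norm_fb, hN, map_one]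
  have hconj : ∀ κ : K →+* ℂ, (∀ c : k, κ (algebraMap k K c) = (φ c : ℂ)) →
      ∑ σ ∈ Fb (E := E) ((starRingEnd ℂ).comp κ), lgm x iE σ =
        (starRingEnd ℂ) (∑ σ ∈ Fb (E := E) κ, lgm x iE σ) := by
    intro κ hκ
    rw [map_sum]
    symm
    refine Finset.sum_bij (fun σ _ => cg σ) (fun σ hσ => ?_) (fun σ _ σ' _ h => ?_)
      (fun σ hσ => ?_) (fun σ hσ => ?_)
    · rw [mem_Fb] at hσ ⊢
      rw [← hσ]
      rfl
    · rw [← cg_cg σ, h, cg_cg]
    · refine ⟨cg σ, ?_, cg_cg σ⟩
      rw [mem_Fb] at hσ ⊢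
      ext c
      have h1 := RingHom.congr_fun hσ c
      rw [RingHom.comp_apply, cg_apply]
      rw [RingHom.comp_apply] at h1
      rw [h1, RingHom.comp_apply, Complex.conj_conj]
    · exact (lgm_cg (hu σ (hFb σ hσ hκ))).symm
  have hd0 : φ (d : k) ≠ 0 := (map_ne_zero φ).mpr d.ne_zero
  have hκs : ∀ κ : K →+* ℂ, (∀ c : k, κ (algebraMap k K c) = (φ c : ℂ)) →
      κ s * κ s = ((φ d : ℝ) : ℂ) := by
    intro κ hκ
    rw [← map_mul, ← pow_two, hS.sq, hκ]
  rcases lt_or_gt_of_ne hd0 with hd | hd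
  · -- the nonsplit case
    obtain ⟨σ₀, hσ₀, hc₀⟩ := hcomp hd
    obtain ⟨κ₀, hκ₀⟩ : ∃ κ₀ : K →+* ℂ, κ₀ = σ₀.comp (algebraMap K E) := ⟨_, rfl⟩
    have hκφ : ∀ c : k, κ₀ (algebraMap k K c) = (φ c : ℂ) := by
      rw [hκ₀]
      exact hres σ₀ hσ₀
    obtain ⟨m, hm⟩ := Complex.exp_eq_one_iff.mp (hexp κ₀ hκφ)
    have hne : cg σ₀ ≠ σ₀ := by
      intro h
      have h1 := RingHom.congr_fun h iE
      rw [cg_apply] at h1
      have h2 := congrArg Complex.im h1
      rw [Complex.conj_im] at h2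
      exact hu σ₀ hσ₀ (by linarith)
    obtain ⟨t, ht⟩ : ∃ t : ℂ, t = (m : ℂ) * (2 * Real.pi * I) := ⟨_, rfl⟩
    have htc : (starRingEnd ℂ) t = -t := by
      rw [ht, map_mul, map_mul, map_mul, Complex.conj_ofReal, Complex.conj_I]
      have h1 : (starRingEnd ℂ) (m : ℂ) = (m : ℂ) := map_intCast _ m
      have h2 : (starRingEnd ℂ) (2 : ℂ) = 2 := map_ofNat _ 2
      rw [h1, h2]
      ring
    have hte : Complex.exp t = 1 := Complex.exp_eq_one_iff.mpr ⟨m, ht⟩
    have hte' : Complex.exp (-t) = 1 := by rw [Complex.exp_neg, hte, inv_one]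
    let lam : (E →+* ℂ) → ℂ := fun σ => lgm x iE σ - (if σ = σ₀ then t else 0) +
      (if σ = cg σ₀ then t else 0)
    have hlam : ∀ σ, lam σ = lgm x iE σ - (if σ = σ₀ then t else 0) +
      (if σ = cg σ₀ then t else 0) := fun _ => rfl
    have hκs0 := sq_neg (hκs κ₀ hκφ) hd
    have hκne : (starRingEnd ℂ).comp κ₀ ≠ κ₀ := by
      intro h
      have h1 := RingHom.congr_fun h s
      rw [RingHom.comp_apply] at h1
      have h2 := congrArg Complex.im h1
      rw [Complex.conj_im] at h2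
      exact hκs0.2 (by linarith)
    have hσ₀F : σ₀ ∈ Fb (E := E) κ₀ := mem_Fb.mpr hκ₀.symm
    have hcgF : cg σ₀ ∈ Fb (E := E) ((starRingEnd ℂ).comp κ₀) := by
      rw [mem_Fb, hκ₀]
      rfl
    have hdisj : ∀ σ, σ ∈ Fb (E := E) κ₀ → σ ∉ Fb (E := E) ((starRingEnd ℂ).comp κ₀) := by
      intro σ h1 h2
      rw [mem_Fb] at h1 h2
      exact hκne (h2.symm.trans h1)
    refine ⟨lam, fun σ hσ => ⟨?_, ?_, ?_, ?_⟩⟩
    · rw [hlam, Complex.exp_add, Complex.exp_sub, exp_lgm (hx0 σ)]
      split_ifs <;> simp [hte]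
    · have e1 : (cg σ = σ₀) ↔ σ = cg σ₀ := by
        constructor
        · rintro rfl
          rw [cg_cg]
        · rintro rfl
          rw [cg_cg]
      have e2 : (cg σ = cg σ₀) ↔ σ = σ₀ := by
        constructor
        · intro h
          rw [← cg_cg σ, h, cg_cg]
        · rintro rfl
          rfl
      rw [hlam, hlam, lgm_cg (hu σ hσ), map_add, map_sub]
      simp only [e1, e2]
      split_ifs <;> simp [htc] <;> ring
    · have e1 : (σ.comp st = σ₀) ↔ σ = cg σ₀ := by
        rw [← hc₀]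
        constructor
        · rintro rfl
          ext y
          simp [hst]
        · rintro rfl
          ext y
          simp [hst]
      have e2 : (σ.comp st = cg σ₀) ↔ σ = σ₀ := by
        rw [← hc₀]
        constructor
        · intro h
          ext y
          have := RingHom.congr_fun h (st y)
          simpa [hst] using this
        · rintro rfl
          rfl
      rw [hlam, hlam, lgm_st (hu σ hσ) (hxs σ) (hus σ)]
      simp only [e1, e2]
      split_ifs <;> ring
    · -- the sum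
      obtain ⟨κ, hκ⟩ : ∃ κ : K →+* ℂ, κ = σ.comp (algebraMap K E) := ⟨_, rfl⟩
      have hκφ' : ∀ c : k, κ (algebraMap k K c) = (φ c : ℂ) := by
        rw [hκ]
        exact hres σ hσ
      rw [← hκ]
      simp only [hlam]
      rw [Finset.sum_add_distrib, Finset.sum_sub_distrib, Finset.sum_ite_eq', Finset.sum_ite_eq']
      have h1 : κ = κ₀ ∨ κ = (starRingEnd ℂ).comp κ₀ := by
        have h2 : (κ s - κ₀ s) * (κ s + κ₀ s) = 0 := by
          have h3 := hκs κ hκφ'
          have h4 := hκs κ₀ hκφ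
          linear_combination h3 - h4
        rcases mul_eq_zero.mp h2 with h3 | h3
        · left
          refine kap_ext hS (fun c => by rw [hκφ', hκφ]) (sub_eq_zero.mp h3)
        · right
          refine kap_ext hS (fun c => by
            rw [hκφ', RingHom.comp_apply, hκφ, Complex.conj_ofReal]) ?_
          rw [eq_neg_of_add_eq_zero_left h3, RingHom.comp_apply]
          apply Complex.ext
          · rw [Complex.neg_re, Complex.conj_re, hκs0.1, neg_zero]
          · rw [Complex.neg_im, Complex.conj_im]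
      rcases h1 with rfl | rfl
      · rw [if_pos hσ₀F, if_neg (fun h => hdisj _ h hcgF), hm, ← ht]
        ring
      · rw [if_neg (hdisj _ hσ₀F), if_pos hcgF, hconj _ hκφ, hm, ← ht, htc]
        ring
  · -- the split case
    refine ⟨lgm x iE, fun σ hσ => ⟨exp_lgm (hx0 σ), lgm_cg (hu σ hσ),
      lgm_st (hu σ hσ) (hxs σ) (hus σ), ?_⟩⟩
    obtain ⟨κ, hκ⟩ : ∃ κ : K →+* ℂ, κ = σ.comp (algebraMap K E) := ⟨_, rfl⟩
    have hκφ : ∀ c : k, κ (algebraMap k K c) = (φ c : ℂ) := by
      rw [hκ]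
      exact hres σ hσ
    rw [← hκ]
    have h1 : (starRingEnd ℂ).comp κ = κ := by
      refine kap_ext hS (fun c => by rw [RingHom.comp_apply, hκφ, Complex.conj_ofReal]) ?_
      rw [RingHom.comp_apply]
      exact Complex.conj_eq_iff_im.mpr (sq_pos (hκs κ hκφ) hd)
    have h2 := hconj κ hκφ
    rw [h1] at h2
    obtain ⟨r, hr⟩ := Complex.conj_eq_iff_real.mp h2.symm
    have h3 := hexp κ hκφ
    rw [hr] at h3 ⊢
    rw [← Complex.ofReal_exp, Complex.ofReal_eq_one, Real.exp_eq_one_iff] at h3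
    rw [h3, Complex.ofReal_zero]

end main

end Vale.Agent.P011.Six.H359
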