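import Vale.Agent.P011.Pow.IsCent
import Vale.Agent.P011.Six.H359.Frame
import Vale.Agent.P011.Even.GFinish

/-!
Degree six (helper359): the cubic field `L = k(θ + θ⁻¹)`.
-/

open Module NumberField Polynomial

set_option linter.unusedSectionVars false

namespace Vale.Agent.P011.Six.H359

open Vale.Agent.P011.Arith Vale.Agent.P011.Even Vale.Agent.P011.Two Vale.Agent.P011.One
  Vale.Agent.P011.Pow

section gen

/-- The degree of a field generated by a root of a polynomial of degree three. -/
theorem finrank_le_three {k L : Type*} [Field k] [Field L] [Algebra k L] {c : L}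
    (hgen : ∀ y : L, ∃ p : k[X], y = aeval c p) {p : k[X]} (hp : p.Monic)
    (hdeg : p.natDegree = 3) (hc : aeval c p = 0) : finrank k L ≤ 3 := by
  have hint : IsIntegral k c := ⟨p, hp, hc⟩
  have htop : IntermediateField.adjoin k {c} = ⊤ := by
    rw [eq_top_iff]
    intro y _
    obtain ⟨q, rfl⟩ := hgen y
    exact (IntermediateField.algebra_adjoin_le_adjoin k {c})
      (Polynomial.aeval_mem_adjoin_singleton k c)
  have h1 := IntermediateField.adjoin.finrank hint
  rw [htop, IntermediateField.finrank_top'] at h1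
  rw [h1, ← hdeg]
  exact Polynomial.natDegree_le_of_dvd (minpoly.dvd k c hc) hp.ne_zero

end gen

section field

variable {k K : Type} [Field k] [NumberField k] [Field K] [NumberField K] [StarRing K]
    {D : Type} [DivisionRing D] [StarRing D] [Algebra k K] [Algebra k D] [Algebra K D]
    [IsScalarTower k K D] {d : kˣ} {s : K}

/-- Coordinates in `K`. -/
theorem coordsK (hS : Setting k K D d s) (a : K) :
    ∃ a0 a1 : k, a = algebraMap k K a0 + algebraMap k K a1 * s ∧
      star a = algebraMap k K a0 - algebraMap k K a1 * s := by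
  obtain ⟨p, q, rfl⟩ := Arith.exists_coords hS.rank hS.ns hS.sq a
  refine ⟨p, q, rfl, ?_⟩
  have h1 : ∀ c : k, star (algebraMap k K c) = algebraMap k K c := fun c =>
    (hS.fix _).mpr ⟨c, rfl⟩
  rw [star_add, star_mul', h1, h1, hS.star_s]
  ring

/-- The cubic field generated by `θ + θ⁻¹`. -/
theorem exists_L (hS : Setting k K D d s) {N : ℕ} (B : Module.Basis (Fin N) k D) {θ : D}
    (hθs : star θ = θ⁻¹) (hθ0 : θ ≠ 0) {a : K}
    (hcub : θ ^ 3 - algebraMap K D a * θ ^ 2 + algebraMap K D (star a) * θ - 1 = 0)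
    (hli : ∀ b0 b1 b2 : K, algebraMap K D b0 + algebraMap K D b1 * θ +
        algebraMap K D b2 * θ ^ 2 = 0 → b0 = 0 ∧ b1 = 0 ∧ b2 = 0) :
    ∃ (L : Type) (_ : Field L) (_ : NumberField L) (_ : Algebra k L) (ι : L →ₐ[k] D)
      (c t0 t1 : L), finrank k L = 3 ∧ ι c = 2 + θ + θ⁻¹ ∧
      (∀ y : L, ∃ p : k[X], y = aeval c p) ∧ (∀ y, star (ι y) = ι y) ∧
      (∀ z : D, θ * z = z * θ → ∀ y, ι y * z = z * ι y) ∧
      θ = ι t0 + ι t1 * algebraMap K D s ∧ t0 ^ 2 - algebraMap k L d * t1 ^ 2 = 1 ∧
      c = 2 * t0 + 2 ∧ c ≠ 0 := by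
  obtain ⟨a0, a1, ha, ha'⟩ := coordsK hS a
  have hfin := hS.fin
  obtain ⟨E, _, _, _, j0, u, hu, -⟩ := exists_gen (Module.finBasis K D) θ
  obtain ⟨L, _, _, _, ι, c, hc, hgen⟩ := exists_gen B (2 + θ + θ⁻¹)
  have hu0 : u ≠ 0 := by
    rintro rfl
    rw [map_zero] at hu
    exact hθ0 hu.symm
  obtain ⟨cE, hcE⟩ : ∃ cE : E, cE = 2 + u + u⁻¹ := ⟨_, rfl⟩
  have hjc : j0 cE = ι c := by rw [hcE, map_add, map_add, map_inv₀, hu, hc, map_ofNat]
  let _ : Algebra k E := ((algebraMap K E).comp (algebraMap k K)).toAlgebra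
  have hkE : ∀ q : k, algebraMap k E q = algebraMap K E (algebraMap k K q) := fun q => rfl
  have hj0k : ∀ q : k, j0 (algebraMap k E q) = algebraMap k D q := fun q => by
    rw [hkE, j0.commutes, ← IsScalarTower.algebraMap_apply]
  let j1 : E →ₐ[k] D := { (j0 : E →+* D) with commutes' := hj0k }
  have hj1 : ∀ e, j1 e = j0 e := fun _ => rfl
  obtain ⟨r, hr⟩ : ∃ r : L →+* E, ∀ y, j0 (r y) = ι y := by
    refine exists_lift_hom (ι : L →+* D) (j0 : E →+* D) (j0 : E →+* D).injective fun y => ?_
    obtain ⟨p, rfl⟩ := hgen y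
    refine ⟨aeval cE p, ?_⟩
    change j1 (aeval cE p) = ι (aeval c p)
    rw [← aeval_algHom_apply, ← aeval_algHom_apply, hj1, hjc]
  have hj0i : Function.Injective j0 := (j0 : E →+* D).injective
  have hrk : ∀ q : k, r (algebraMap k L q) = algebraMap k E q := fun q => hj0i (by
    rw [hr, ι.commutes, hj0k])
  have hrc : r c = cE := hj0i (by rw [hr, hjc])
  obtain ⟨S, hSE⟩ : ∃ S : E, S = algebraMap K E s := ⟨_, rfl⟩
  have hjS : j0 S = algebraMap K D s := by rw [hSE, j0.commutes]
  have hSS : S ^ 2 = algebraMap k E d := by rw [hSE, ← map_pow, hS.sq, hkE]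
  obtain ⟨A0, hA0⟩ : ∃ A0 : E, A0 = algebraMap k E a0 := ⟨_, rfl⟩
  obtain ⟨A1, hA1⟩ : ∃ A1 : E, A1 = algebraMap k E a1 := ⟨_, rfl⟩
  have haE : algebraMap K E a = A0 + A1 * S := by rw [ha, map_add, map_mul, hA0, hA1, hSE, hkE, hkE]
  have haE' : algebraMap K E (star a) = A0 - A1 * S := by
    rw [ha', map_sub, map_mul, hA0, hA1, hSE, hkE, hkE]
  have hcubE : u ^ 3 - (A0 + A1 * S) * u ^ 2 + (A0 - A1 * S) * u - 1 = 0 := hj0i (by
    rw [← haE, ← haE']
    simp only [map_sub, map_add, map_mul, map_pow, j0.commutes, hu, map_zero, map_one]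
    exact hcub)
  have hliE : ∀ b0 b1 b2 : K, algebraMap K E b0 + algebraMap K E b1 * u +
      algebraMap K E b2 * u ^ 2 = 0 → b0 = 0 ∧ b1 = 0 ∧ b2 = 0 := by
    intro b0 b1 b2 hb
    refine hli b0 b1 b2 ?_
    have e := congrArg j0 hb
    simpa only [map_add, map_mul, map_pow, j0.commutes, hu, map_zero] using e
  have hcu : cE * u = (u + 1) ^ 2 := by
    rw [hcE]
    field_simp
    ring
  obtain ⟨X, hX⟩ : ∃ X : E, X = cE - 1 - A0 := ⟨_, rfl⟩
  have hXu : X * u = u ^ 2 + (1 - A0) * u + 1 := by
    rw [hX]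
    linear_combination hcu
  have hX0 : X ≠ 0 := by
    intro h0
    rw [h0, zero_mul] at hXu
    have e := (hliE 1 (1 - algebraMap k K a0) 1 (by
      rw [map_sub, map_one, ← hkE, ← hA0]
      linear_combination -hXu)).1
    exact one_ne_zero e
  have hu1 : u + 1 ≠ 0 := by
    intro h0
    have e := (hliE 1 1 0 (by
      rw [map_one, map_zero]
      linear_combination h0)).1
    exact one_ne_zero e
  have hcE0 : cE ≠ 0 := by
    intro h0
    rw [h0, zero_mul] at hcu
    exact hu1 (pow_eq_zero_iff two_ne_zero |>.mp hcu.symm)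
  have hc0 : c ≠ 0 := by
    rintro rfl
    rw [map_zero] at hrc
    exact hcE0 hrc.symm
  have hkey : (u ^ 2 - 1) * (X * u) = A1 * S * u * (cE * u) := by
    rw [hXu, hcu]
    linear_combination (u + 1) * hcubE
  obtain ⟨XL, hXL⟩ : ∃ XL : L, XL = c - 1 - algebraMap k L a0 := ⟨_, rfl⟩
  have hrX : r XL = X := by rw [hXL, hX, map_sub, map_sub, map_one, hrc, hrk, hA0]
  have hXL0 : XL ≠ 0 := by
    rintro h0
    rw [h0, map_zero] at hrX
    exact hX0 hrX.symm
  obtain ⟨t0, ht0⟩ : ∃ t0 : L, t0 = (c - 2) / 2 := ⟨_, rfl⟩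
  obtain ⟨t1, ht1⟩ : ∃ t1 : L, t1 = algebraMap k L a1 * c / (2 * XL) := ⟨_, rfl⟩
  have hrt0 : r t0 = (cE - 2) / 2 := by rw [ht0, map_div₀, map_sub, hrc, map_ofNat]
  have hrt1 : r t1 = A1 * cE / (2 * X) := by
    rw [ht1, map_div₀, map_mul, map_mul, hrc, hrX, hrk, map_ofNat, hA1]
  have hθE : u = r t0 + r t1 * S := by
    have e : (2 * u - cE + 2) * X = A1 * cE * S := by
      have e1 : (u ^ 2) * ((2 * u - cE + 2) * X) = (u ^ 2) * (A1 * cE * S) := by
        have e2 : (u ^ 2) * ((2 * u - cE + 2) * X) = (2 * u ^ 2 - cE * u + 2 * u) * (X * u) := by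
          ring
        rw [e2, hcu]
        linear_combination hkey
      exact mul_left_cancel₀ (pow_ne_zero 2 hu0) e1
    rw [hrt0, hrt1]
    field_simp
    linear_combination e
  have hθD : θ = ι t0 + ι t1 * algebraMap K D s := by
    have e := congrArg j0 hθE
    rwa [hu, map_add, map_mul, hr, hr, hjS] at e
  have hsc : star (ι c) = ι c := by
    rw [hc, star_add, star_add, star_inv₀, hθs, inv_inv, star_ofNat]
    abel
  have hsym : ∀ y, star (ι y) = ι y := by
    intro y
    obtain ⟨p, rfl⟩ := hgen y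
    rw [← aeval_algHom_apply]
    induction p using Polynomial.induction_on' with
    | add p q hp hq => rw [map_add, star_add, hp, hq]
    | monomial n b =>
      rw [aeval_monomial, star_mul, star_pow, hsc, star_alg hS]
      exact (Algebra.commutes _ _).symm
  have hinvE : u⁻¹ = r t0 - r t1 * S := hj0i (by
    have e := congrArg star hθD
    rw [star_add, star_mul, hsym, hsym, star_sD hS, hθs] at e
    rw [map_inv₀, hu, e, map_sub, map_mul, hr, hr, hjS, neg_mul, ← Algebra.commutes,
      ← sub_eq_add_neg])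
  have hnorm : t0 ^ 2 - algebraMap k L d * t1 ^ 2 = 1 := r.injective (by
    rw [map_sub, map_mul, map_pow, map_pow, hrk, map_one, ← hSS]
    have e : u * u⁻¹ = 1 := mul_inv_cancel₀ hu0
    nth_rewrite 1 [hθE] at e
    rw [hinvE] at e
    linear_combination e)
  refine ⟨L, inferInstance, inferInstance, inferInstance, ι, c, t0, t1, ?_, hc, hgen, hsym, ?_,
    hθD, hnorm, ?_, hc0⟩
  · refine le_antisymm ?_ ?_
    · obtain ⟨p, hp⟩ : ∃ p : k[X], p = (Polynomial.X - C 4) * (Polynomial.X - C (1 + a0)) ^ 2 -
          C (d * a1 ^ 2) * Polynomial.X := ⟨_, rfl⟩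
      have h1 : ((Polynomial.X - C 4) * (Polynomial.X - C (1 + a0)) ^ 2 : k[X]).Monic :=
        (monic_X_sub_C _).mul ((monic_X_sub_C _).pow 2)
      have h2 : ((Polynomial.X - C 4) * (Polynomial.X - C (1 + a0)) ^ 2 : k[X]).natDegree = 3 := by
        rw [(monic_X_sub_C _).natDegree_mul ((monic_X_sub_C _).pow 2), natDegree_X_sub_C,
          (monic_X_sub_C _).natDegree_pow, natDegree_X_sub_C]
      have h3 : (C ((d : k) * a1 ^ 2) * Polynomial.X : k[X]).natDegree <
          ((Polynomial.X - C 4) * (Polynomial.X - C (1 + a0)) ^ 2 : k[X]).natDegree := by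
        rw [h2]
        exact lt_of_le_of_lt (natDegree_C_mul_le _ _) (by rw [natDegree_X]; norm_num)
      have h3' : (C ((d : k) * a1 ^ 2) * Polynomial.X : k[X]).degree <
          ((Polynomial.X - C 4) * (Polynomial.X - C (1 + a0)) ^ 2 : k[X]).degree :=
        degree_lt_degree h3
      refine finrank_le_three hgen (p := p) ?_ ?_ ?_
      · rw [hp]
        exact h1.sub_of_left h3'
      · rw [hp, natDegree_sub_eq_left_of_natDegree_lt h3, h2]
      · rw [hp]
        simp only [map_sub, map_mul, map_pow, aeval_X, aeval_C, map_add, map_one, map_ofNat]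
        have e1 : c * ((c - 4) * (c - (1 + algebraMap k L a0)) ^ 2 -
            algebraMap k L d * algebraMap k L a1 ^ 2 * c) = 0 := by
          have e2 := hnorm
          rw [ht0, ht1] at e2
          have e3 : XL = c - (1 + algebraMap k L a0) := by rw [hXL]; ring
          rw [← e3]
          field_simp at e2
          linear_combination e2
        rcases mul_eq_zero.mp e1 with h | h
        · exact absurd h hc0
        · exact h
    · classical
      let b := Module.finBasis k L
      have hV : ∀ y : L, r y ∈ Submodule.span K (Set.range fun l => r (b l)) := by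
        intro y
        have e : y = ∑ l, b.repr y l • b l := (b.sum_repr y).symm
        rw [e, map_sum]
        refine Submodule.sum_mem _ fun l _ => ?_
        rw [Algebra.smul_def, map_mul, hrk, hkE, ← Algebra.smul_def]
        exact Submodule.smul_mem _ _ (Submodule.subset_span ⟨l, rfl⟩)
      have hVS : ∀ y : L, r y * S ∈ Submodule.span K (Set.range fun l => r (b l)) := by
        intro y
        rw [mul_comm, hSE, ← Algebra.smul_def]
        exact Submodule.smul_mem _ _ (hV y)
      have hlin : LinearIndependent K ![(1 : E), u, u ^ 2] := by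
        rw [Fintype.linearIndependent_iff]
        intro g hg
        rw [Fin.sum_univ_three] at hg
        simp only [Matrix.cons_val_zero, Matrix.cons_val_one, Matrix.cons_val_two, Matrix.head_cons,
          Matrix.tail_cons, Algebra.smul_def, mul_one] at hg
        obtain ⟨h4, h5, h6⟩ := hliE _ _ _ hg
        intro i
        fin_cases i
        · exact h4
        · exact h5
        · exact h6
      have h1 : Submodule.span K (Set.range ![(1 : E), u, u ^ 2]) ≤
          Submodule.span K (Set.range fun l => r (b l)) := by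
        rw [Submodule.span_le]
        rintro _ ⟨i, rfl⟩
        fin_cases i
        · change (1 : E) ∈ _
          rw [← map_one r]
          exact hV 1
        · change u ∈ _
          rw [hθE]
          exact Submodule.add_mem _ (hV _) (hVS _)
        · change u ^ 2 ∈ _
          have e : u ^ 2 = r (t0 ^ 2 + algebraMap k L d * t1 ^ 2) + r (2 * t0 * t1) * S := by
            nth_rewrite 1 [hθE]
            simp only [map_add, map_mul, map_pow, hrk, map_ofNat]
            rw [← hSS]
            ring
          rw [e]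
          exact Submodule.add_mem _ (hV _) (hVS _)
      have h2 := Submodule.finrank_mono h1
      rw [finrank_span_eq_card hlin, Fintype.card_fin] at h2
      refine h2.trans ?_
      have h3 := finrank_range_le_card (R := K) (fun l => r (b l))
      rw [Fintype.card_fin] at h3
      exact h3
  · intro z hz y
    have hz' : θ⁻¹ * z = z * θ⁻¹ := inv_comm hz
    have hzc : ι c * z = z * ι c := by
      rw [hc, add_mul, add_mul, mul_add, mul_add, hz, hz', two_mul, mul_two]
    obtain ⟨p, rfl⟩ := hgen y
    rw [← aeval_algHom_apply]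
    induction p using Polynomial.induction_on' with
    | add p q hp hq => rw [map_add, add_mul, mul_add, hp, hq]
    | monomial n b =>
      rw [aeval_monomial, mul_assoc, (Commute.pow_left hzc n : Commute (ι c ^ n) z).eq,
        ← mul_assoc, Algebra.commutes, mul_assoc]
  · rw [ht0]
    ring

end field

end Vale.Agent.P011.Six.H359
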