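import Vale.Agent.P011.Six.H359.RcE
import Vale.Agent.P011.Six.H359.Frame
import Vale.Agent.P011.Six.Max
import Vale.Agent.P011.Six.Semi
import Vale.Agent.P011.Six.Field

/-!
Powers of unitary elements of norm one which commute with a given one: approximation at the real
places.
-/

open NumberField IsDedekindDomain Module Filter Topology Matrix

set_option linter.unusedSectionVars false

namespace Vale.Agent.P011.Six.H359

open Vale.Agent.P011.Arith Vale.Agent.P011.Even Vale.Agent.P011.Two Vale.Agent.P011.MPQ

variable {k K D : Type} [Field k] [NumberField k] [Field K] [NumberField K] [StarRing K]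
  [DivisionRing D] [StarRing D] [Algebra k K] [Algebra k D] [Algebra K D] [IsScalarTower k K D]
  {d : kˣ} {s : K} {N : ℕ} {Ω : Type} [Field Ω] [Algebra K Ω]

theorem Fr.base {al be : kˣ} {i j : D} (hF : Fr k al be i j) : Base k al be i j :=
  ⟨hF.si, hF.sj, hF.ii, hF.jj, hF.ij⟩

/-- `i` is not in the centre. -/
theorem Fr.i_notK (hS : Setting k K D d s) {al be : kˣ} {i j : D} (hF : Fr k al be i j) (c : K) :
    algebraMap K D c ≠ i := by
  have hfD := hS.fin
  have hcharD : CharZero D := charZero_of_injective_algebraMap (algebraMap k D).injective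
  rintro rfl
  have h1 := hF.ij
  rw [← Algebra.commutes] at h1
  have h2 : (2 : D) * (algebraMap K D c * j) = 0 := by
    rw [two_mul]
    nth_rewrite 1 [h1]
    rw [neg_add_cancel]
  have h3 := (mul_eq_zero.mp h2).resolve_left two_ne_zero
  rcases mul_eq_zero.mp h3 with h4 | h4
  · exact hF.base.i0 h4
  · exact hF.base.j0 h4

/-- A skew element of the centralizer of `i` outside the field generated by `i`. -/
theorem exists_skew_out (hS : Setting k K D d s) (hdeg : finrank K D = 6 ^ 2) {al be : kˣ}
    {i j : D} (hF : Fr k al be i j) : ∃ y : D, star y = -y ∧ i * y = y * i ∧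
      ∀ a b : K, y ≠ algebraMap K D a + algebraMap K D b * i := by
  have hfD := hS.fin
  have hcharD : CharZero D := charZero_of_injective_algebraMap (algebraMap k D).injective
  by_contra hcon
  push Not at hcon
  have hsS : star (algebraMap K D s) = -algebraMap K D s := by rw [hS.star_alg, hS.star_s, map_neg]
  have hs0 : algebraMap K D s ≠ 0 := sS_ne hS
  have key : ∀ y : D, i * y = y * i → ∃ a b : K, y = algebraMap K D a + algebraMap K D b * i := by
    intro y hy
    have hsy : i * star y = star y * i := by
      have h1 := congrArg star hy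
      rw [star_mul, star_mul, hF.si, mul_neg, neg_mul, neg_inj] at h1
      exact h1.symm
    -- skew part
    obtain ⟨a, b, h1⟩ := hcon (y - star y) (by rw [star_sub, star_star, neg_sub])
      (by rw [mul_sub, sub_mul, hy, hsy])
    -- symmetric part
    obtain ⟨a', b', h2⟩ := hcon (algebraMap K D s * (y + star y)) (by
      rw [star_mul, star_add, star_star, hsS, mul_neg, ← Algebra.commutes s, add_comm]) (by
      rw [← mul_assoc, ← Algebra.commutes s i, mul_assoc, mul_add, hy, hsy, ← add_mul, mul_assoc])
    have h3 : y + star y = algebraMap K D (s⁻¹ * a') + algebraMap K D (s⁻¹ * b') * i := by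
      have h4 : algebraMap K D s⁻¹ * (algebraMap K D s * (y + star y)) = y + star y := by
        rw [← mul_assoc, map_inv₀, inv_mul_cancel₀ hs0, one_mul]
      rw [← h4, h2, mul_add, ← map_mul, ← mul_assoc, ← map_mul]
    refine ⟨(2 : K)⁻¹ * (a + s⁻¹ * a'), (2 : K)⁻¹ * (b + s⁻¹ * b'), ?_⟩
    have h4 : (2 : D) * y = (y - star y) + (y + star y) := by
      rw [two_mul]; abel
    have h5 : y = algebraMap K D (2 : K)⁻¹ * ((y - star y) + (y + star y)) := by
      rw [← h4, ← mul_assoc]
      have : algebraMap K D (2 : K)⁻¹ * 2 = 1 := by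
        rw [map_inv₀, map_ofNat]
        exact inv_mul_cancel₀ two_ne_zero
      rw [this, one_mul]
    rw [h5, h1, h3]
    simp only [map_mul, map_add, map_inv₀, map_ofNat]
    noncomm_ring
  -- dimensions
  have h1 := finrank_cen_i hS hF.base
  have h2 : (Subalgebra.centralizer K {i}).toSubmodule ≤ Submodule.span K {1, i} := by
    intro y hy
    have hy' : i * y = y * i := by
      have h3 : y ∈ Subalgebra.centralizer K {i} := hy
      rw [Subalgebra.mem_centralizer_iff] at h3
      exact h3 i rfl
    obtain ⟨a, b, rfl⟩ := key y hy'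
    rw [Submodule.mem_span_pair]
    exact ⟨a, b, by rw [Algebra.smul_def, Algebra.smul_def, mul_one]⟩
  have h3 := Submodule.finrank_mono h2
  have h4 : finrank K (Submodule.span K {(1 : D), i}) ≤ 2 := by
    classical
    have h5 := finrank_span_finset_le_card (R := K) (M := D) {(1 : D), i}
    have h6 : ({(1 : D), i} : Finset D).card ≤ 2 := Finset.card_le_two
    have h7 : (({(1 : D), i} : Finset D) : Set D) = {1, i} := by simp
    rw [h7] at h5
    exact h5.trans h6
  have h5 : finrank K (Subalgebra.centralizer K {i}).toSubmodule =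
      finrank K (Subalgebra.centralizer K {i}) := rfl
  rw [hdeg] at h1
  omega

/-- **Approximation at the real places** of a unitary element of norm one commuting with `i` by
powers of such elements which are close to one at finitely many finite places. -/
theorem rc (hS : Setting k K D d s) (hdeg : finrank K D = 6 ^ 2)
    (f : D →ₐ[K] Matrix (Fin 6) (Fin 6) Ω) (B : Basis (Fin N) k D) {al be : kˣ} {i j : D}
    (hF : Fr k al be i j) {x : D} (hxi : x * i = i * x) (hx : x * star x = 1)
    (hdet : (f x).det = 1) {e : ℕ} (he : 0 < e) {S : Set (HeightOneSpectrum (𝓞 k))}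
    (hSf : S.Finite) {ε : ℝ} (hε : 0 < ε) : ∃ y : D, y * i = i * y ∧ y * star y = 1 ∧
      (f y).det = 1 ∧ (∀ v ∈ S, nm B (.inl v) (y ^ e - 1) < ε) ∧
      ∀ φ : k →+* ℝ, φ al < 0 → nm B (.inr φ) (y ^ e - x) < ε := by
  classical
  have hfD := hS.fin
  have hcen := hS.cen
  have hcharD : CharZero D := charZero_of_injective_algebraMap (algebraMap k D).injective
  have hx0 : x ≠ 0 := left_ne_zero_of_mul_eq_one hx
  have hxs : star x = x⁻¹ := eq_inv_of_mul_eq_one_right hx
  -- an element outside the field generated by `i`
  obtain ⟨y, hyi, hyx, hysk, hyM⟩ : ∃ y : D, y * i = i * y ∧ y * x = x * y ∧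
      (star y = -y ∨ star y = y⁻¹) ∧ ∀ a b : K, y ≠ algebraMap K D a + algebraMap K D b * i := by
    by_cases hM : ∀ a b : K, x ≠ algebraMap K D a + algebraMap K D b * i
    · exact ⟨x, hxi, rfl, Or.inr hxs, hM⟩
    · push Not at hM
      obtain ⟨a, b, hab⟩ := hM
      obtain ⟨y, h1, h2, h3⟩ := exists_skew_out hS hdeg hF
      refine ⟨y, h2.symm, ?_, Or.inl h1, h3⟩
      rw [hab, mul_add, add_mul, ← Algebra.commutes a, ← mul_assoc, ← Algebra.commutes b, mul_assoc,
        ← h2, mul_assoc]
  obtain ⟨E, _, _, _, jE, hjE⟩ := exists_field (R := K) ({i, x, y} : Set D) (by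
    rintro a (rfl | rfl | rfl) b (rfl | rfl | rfl)
    · rfl
    · exact hxi.symm
    · exact hyi.symm
    · exact hxi
    · rfl
    · exact hyx.symm
    · exact hyi
    · exact hyx
    · rfl)
  let _ : Algebra k E := ((algebraMap K E).comp (algebraMap k K)).toAlgebra
  have : IsScalarTower k K E := IsScalarTower.of_algebraMap_eq fun c => rfl
  have hfin : FiniteDimensional K E := Module.Finite.of_restrictScalars_finite ℚ K E
  have hinj : Function.Injective jE := jE.toRingHom.injective
  obtain ⟨iE, hiE⟩ := (hjE i).mpr (Algebra.subset_adjoin (by simp))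
  obtain ⟨xE, hxE⟩ := (hjE x).mpr (Algebra.subset_adjoin (by simp))
  obtain ⟨yE, hyE⟩ := (hjE y).mpr (Algebra.subset_adjoin (by simp))
  -- the range is stable under the involution
  have hstab : ∀ t : E, ∃ t' : E, jE t' = star (jE t) := by
    intro t
    have h1 : jE t ∈ Algebra.adjoin K ({i, x, y} : Set D) := (hjE _).mp ⟨t, rfl⟩
    refine Algebra.adjoin_induction (R := K) (s := ({i, x, y} : Set D))
      (p := fun z _ => ∃ t' : E, jE t' = star z) ?_ ?_ ?_ ?_ h1
    · rintro z (rfl | rfl | rfl)
      · exact ⟨-iE, by rw [map_neg, hiE, hF.si]⟩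
      · exact ⟨xE⁻¹, by rw [map_inv₀, hxE, hxs]⟩
      · rcases hysk with h | h
        · exact ⟨-yE, by rw [map_neg, hyE, h]⟩
        · exact ⟨yE⁻¹, by rw [map_inv₀, hyE, h]⟩
    · intro c
      exact ⟨algebraMap K E (star c), by rw [AlgHom.commutes, hS.star_alg]⟩
    · rintro a b _ _ ⟨a', ha⟩ ⟨b', hb⟩
      exact ⟨a' + b', by rw [map_add, ha, hb, star_add]⟩
    · rintro a b _ _ ⟨a', ha⟩ ⟨b', hb⟩
      exact ⟨b' * a', by rw [map_mul, ha, hb, star_mul]⟩
  choose st₀ hst₀ using hstab
  have hcomm : ∀ a b : E, jE a * jE b = jE b * jE a := fun a b => by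
    rw [← map_mul, mul_comm, map_mul]
  let st : E →+* E :=
    { toFun := st₀
      map_one' := hinj (by rw [hst₀, map_one, star_one])
      map_mul' := fun a b => hinj (by rw [hst₀, map_mul, map_mul, star_mul, hst₀, hst₀, ← star_mul,
        ← star_mul, hcomm])
      map_zero' := hinj (by rw [hst₀, map_zero, star_zero])
      map_add' := fun a b => hinj (by rw [hst₀, map_add, map_add, star_add, hst₀, hst₀]) }
  have hj : ∀ t, jE (st t) = star (jE t) := hst₀
  -- the degree
  have h2 : ∀ a b : K, algebraMap K E a + algebraMap K E b * iE = 0 → a = 0 ∧ b = 0 := by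
    intro a b h
    have hb : b = 0 := by
      by_contra hb
      apply hF.i_notK hS (-(b⁻¹ * a))
      have h1 : iE = algebraMap K E (-(b⁻¹ * a)) := by
        rw [map_neg, map_mul, map_inv₀]
        have hb' : algebraMap K E b ≠ 0 := (map_ne_zero _).mpr hb
        field_simp
        linear_combination h
      rw [← hiE, h1, AlgHom.commutes]
    refine ⟨?_, hb⟩
    rw [hb, map_zero, zero_mul, add_zero] at h
    exact (map_eq_zero _).mp h
  have h6 : finrank K E = 6 := by
    have h1 := finrank_dvd hdeg jE
    -- even
    have hiK : ∀ c : K, algebraMap K E c ≠ iE := by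
      intro c hc
      refine hF.i_notK hS c ?_
      rw [← hiE, ← hc, AlgHom.commutes]
    have hint : IsIntegral K iE := Algebra.IsIntegral.isIntegral iE
    have hiiE : iE * iE = algebraMap K E (algebraMap k K al) := hinj (by
      rw [map_mul, hiE, hF.ii, AlgHom.commutes, ← IsScalarTower.algebraMap_apply])
    have hM2 : finrank K (IntermediateField.adjoin K {iE}) = 2 := by
      rw [IntermediateField.adjoin.finrank hint]
      have h1 : minpoly K iE ∣ (Polynomial.X ^ 2 - Polynomial.C (algebraMap k K (al : k))) := by
        apply minpoly.dvd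
        rw [map_sub, map_pow, Polynomial.aeval_X, Polynomial.aeval_C, pow_two, hiiE, sub_self]
      have h2 : (Polynomial.X ^ 2 - Polynomial.C (algebraMap k K (al : k)) :
          Polynomial K).natDegree = 2 := Polynomial.natDegree_X_pow_sub_C
      have h3 := Polynomial.natDegree_le_of_dvd h1 (by
        intro h
        rw [h, Polynomial.natDegree_zero] at h2
        exact absurd h2 (by norm_num))
      have h4 := minpoly.natDegree_pos hint
      have h5 : (minpoly K iE).natDegree ≠ 1 := by
        intro h
        obtain ⟨c, hc⟩ := minpoly.natDegree_eq_one_iff.mp h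
        exact hiK c hc
      omega
    have h3 : 2 ∣ finrank K E := by
      rw [← hM2]
      exact ⟨_, (Module.finrank_mul_finrank K (IntermediateField.adjoin K {iE}) E).symm⟩
    have h4 : finrank K E ≠ 2 := by
      intro h
      have hli : LinearIndependent K ![(1 : E), iE] := by
        rw [LinearIndependent.pair_iff]
        intro a b hab
        rw [Algebra.smul_def, mul_one, Algebra.smul_def] at hab
        exact h2 a b hab
      have hspan : Submodule.span K (Set.range ![(1 : E), iE]) = ⊤ := by
        apply LinearIndependent.span_eq_top_of_card_eq_finrank hli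
        rw [Fintype.card_fin, h]
      have h5 : yE ∈ Submodule.span K (Set.range ![(1 : E), iE]) := by
        rw [hspan]
        exact Submodule.mem_top
      rw [Matrix.range_cons, Matrix.range_cons, Matrix.range_empty, Set.union_empty,
        Set.singleton_union, Submodule.mem_span_pair] at h5
      obtain ⟨a, b, hab⟩ := h5
      apply hyM a b
      rw [← hyE, ← hab, Algebra.smul_def, mul_one, Algebra.smul_def, map_add, map_mul,
        AlgHom.commutes, AlgHom.commutes, hiE]
    have h5 : finrank K E ≤ 6 := Nat.le_of_dvd (by norm_num) h1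
    have h7 : 0 < finrank K E := finrank_pos
    interval_cases h : finrank K E
    all_goals first | rfl | (exfalso; revert h1 h3 h4; norm_num)
  have hnx : Algebra.norm K xE = 1 := by
    have h1 := W.hasNrd_norm hdeg h6 jE xE Ω f
    rw [hxE, hdet] at h1
    apply (algebraMap K Ω).injective
    rw [← h1, map_one]
  obtain ⟨z, hz1, hz2, hz3, hz4⟩ := rc_field (N := N) hS hdeg f B h6 jE hj (al := al) (iE := iE)
    (x := xE) (hinj (by rw [hj, map_neg, hiE, hF.si]))
    (hinj (by rw [map_mul, hiE, hF.ii]; exact (jE.restrictScalars k).commutes _ |>.symm))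
    (fun c hc => hF.i_notK hS c (by rw [← hiE, ← hc, AlgHom.commutes]))
    (hinj (by rw [map_mul, hj, hxE, hx, map_one])) hnx he hSf hε
  refine ⟨jE z, ?_, ?_, ?_, hz3, fun φ hφ => ?_⟩
  · rw [← hiE, hcomm]
  · rw [← hj, ← map_mul, hz1, map_one]
  · rw [W.hasNrd_norm hdeg h6 jE z Ω f, hz2, map_one]
  · have := hz4 φ hφ
    rwa [hxE] at this

end Vale.Agent.P011.Six.H359
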