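import Vale.Agent.P011.Six.H359.Emb

/-!
Continuity of the norm of a field embedded in a division algebra.
-/

open NumberField IsDedekindDomain Module Filter Topology Matrix

set_option linter.unusedSectionVars false

namespace Vale.Agent.P011.Six.H359

open Vale.Agent.P011.Arith Vale.Agent.P011.Even Vale.Agent.P011.Two

section norm

variable {k K D : Type} [Field k] [NumberField k] [Field K] [DivisionRing D] [Algebra k K]
  [Algebra k D] [Algebra K D] [IsScalarTower k K D] {N : ℕ} {B : Basis (Fin N) k D} {p : Pl k}
  {X : Type} {F : Filter X}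

/-- Convergence in the centre. -/
def TK (B : Basis (Fin N) k D) (p : Pl k) (F : Filter X) (f : X → K) (a : K) : Prop :=
  Tn B p F (fun n => algebraMap K D (f n)) (algebraMap K D a)

theorem TK.sum {ι : Type} {s : Finset ι} {f : ι → X → K} {a : ι → K}
    (h : ∀ i ∈ s, TK B p F (f i) (a i)) :
    TK B p F (fun n => ∑ i ∈ s, f i n) (∑ i ∈ s, a i) := by
  classical
  induction s using Finset.induction_on with
  | empty =>
    simp only [Finset.sum_empty]
    exact Tn.const _
  | insert i s hi ih =>
    simp only [Finset.sum_insert hi]
    have h1 := (h i (Finset.mem_insert_self _ _)).add (ih fun l hl => h l (Finset.mem_insert_of_mem hl))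
    unfold TK at h1 ⊢
    simpa only [map_add] using h1

theorem TK.prod {ι : Type} {s : Finset ι} {f : ι → X → K} {a : ι → K}
    (h : ∀ i ∈ s, TK B p F (f i) (a i)) :
    TK B p F (fun n => ∏ i ∈ s, f i n) (∏ i ∈ s, a i) := by
  classical
  induction s using Finset.induction_on with
  | empty =>
    simp only [Finset.prod_empty]
    exact Tn.const _
  | insert i s hi ih =>
    simp only [Finset.prod_insert hi]
    have h1 := (h i (Finset.mem_insert_self _ _)).mul (ih fun l hl => h l (Finset.mem_insert_of_mem hl))
    unfold TK at h1 ⊢
    simpa only [map_mul] using h1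

theorem TK.const (a : K) : TK B p F (fun _ => a) a := Tn.const _

theorem TK.mul {f g : X → K} {a b : K} (hf : TK B p F f a) (hg : TK B p F g b) :
    TK B p F (fun n => f n * g n) (a * b) := by
  have h1 := Tn.mul hf hg
  unfold TK
  simpa only [map_mul] using h1

/-- The determinant is continuous. -/
theorem TK.det {r : ℕ} {f : X → Matrix (Fin r) (Fin r) K} {A : Matrix (Fin r) (Fin r) K}
    (h : ∀ i l, TK B p F (fun n => f n i l) (A i l)) :
    TK B p F (fun n => (f n).det) A.det := by
  simp only [Matrix.det_apply']
  exact TK.sum fun σ _ => (TK.const _).mul (TK.prod fun i _ => h _ _)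

/-- **Continuity of the norm.** -/
theorem tn_norm {E : Type} [Field E] [Algebra K E] [FiniteDimensional K E] (j : E →ₐ[K] D)
    {z : X → E} {a : E} (h : Tn B p F (fun n => j (z n)) (j a)) :
    Tn B p F (fun n => algebraMap K D (Algebra.norm K (z n)))
      (algebraMap K D (Algebra.norm K a)) := by
  classical
  let b' := finBasis K E
  have hinj : Function.Injective j.toLinearMap := j.toRingHom.injective
  obtain ⟨π, hπ⟩ := LinearMap.exists_leftInverse_of_injective j.toLinearMap
    (LinearMap.ker_eq_bot.mpr hinj)
  have hπ' : ∀ y, π (j y) = y := fun y => LinearMap.congr_fun hπ y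
  have hlin : ∀ g : E →ₗ[K] K, TK B p F (fun n => g (z n)) (g a) := by
    intro g
    have h1 := h.linear (((Algebra.linearMap K D) ∘ₗ (g ∘ₗ π)).restrictScalars k)
    have h2 : ∀ y, (((Algebra.linearMap K D) ∘ₗ (g ∘ₗ π)).restrictScalars k) (j y) =
        algebraMap K D (g y) := by
      intro y
      change algebraMap K D (g (π (j y))) = _
      rw [hπ']
    unfold TK
    simpa only [h2] using h1
  have h1 : TK B p F (fun n => (Algebra.leftMulMatrix b' (z n)).det)
      (Algebra.leftMulMatrix b' a).det := by
    refine TK.det fun i l => ?_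
    have h2 : ∀ y : E, Algebra.leftMulMatrix b' y i l =
        ((b'.coord i) ∘ₗ (LinearMap.mulRight K (b' l))) y := by
      intro y
      rw [Algebra.leftMulMatrix_apply, LinearMap.toMatrix_apply]
      rfl
    simp only [h2]
    exact hlin _
  unfold TK at h1
  simpa only [Algebra.norm_eq_matrix_det b'] using h1

end norm

end Vale.Agent.P011.Six.H359
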