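import Vale.Agent.P011.Six.H359.Cmpt
import Vale.Agent.P011.Six.H359.TnNorm
import Vale.Agent.P011.Two2.ThmS

/-!
Powers of unitary elements of norm one of a maximal subfield: approximation of a given one at the
real places.
-/

open NumberField IsDedekindDomain Module Filter Topology Matrix

set_option linter.unusedSectionVars false

namespace Vale.Agent.P011.Six.H359

open Vale.Agent.P011.Arith Vale.Agent.P011.Even Vale.Agent.P011.Two Vale.Agent.P011.MPQ

variable {k K D : Type} [Field k] [NumberField k] [Field K] [NumberField K] [StarRing K]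
  [DivisionRing D] [StarRing D] [Algebra k K] [Algebra k D] [Algebra K D] [IsScalarTower k K D]
  {d : kˣ} {s : K} {N : ℕ} {Ω : Type} [Field Ω] [Algebra K Ω]
  {E : Type} [Field E] [NumberField E] [Algebra k E] [Algebra K E] [IsScalarTower k K E]

/-- The norm of the adjoint. -/
theorem norm_st (hS : Setting k K D d s) (hdeg : finrank K D = 6 ^ 2)
    (f : D →ₐ[K] Matrix (Fin 6) (Fin 6) Ω) (h6 : finrank K E = 6) (j : E →ₐ[K] D)
    {st : E →+* E} (hj : ∀ y, j (st y) = star (j y)) (y : E) :
    Algebra.norm K (st y) = star (Algebra.norm K y) := by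
  have := hS.fin
  have := hS.cen
  have h1 := W.hasNrd_norm hdeg h6 j y Ω f
  have h2 := W.hasNrd_norm hdeg h6 j (st y) Ω f
  have h3 := Two2.nrd_star (by norm_num) hdeg hS.star_alg f h1
  rw [← hj, h2] at h3
  exact (algebraMap K Ω).injective h3

/-- **Approximation at the real places by powers of unitary elements of norm one** which are close
to one at finitely many finite places. -/
theorem rc_field (hS : Setting k K D d s) (hdeg : finrank K D = 6 ^ 2)
    (f : D →ₐ[K] Matrix (Fin 6) (Fin 6) Ω) (B : Basis (Fin N) k D) (h6 : finrank K E = 6)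
    (j : E →ₐ[K] D) {st : E →+* E} (hj : ∀ y, j (st y) = star (j y)) {al : kˣ} {iE x : E}
    (hi : st iE = -iE) (hii : iE * iE = algebraMap k E al)
    (hiK : ∀ c : K, algebraMap K E c ≠ iE) (hx : x * st x = 1) (hN : Algebra.norm K x = 1)
    {e : ℕ} (he : 0 < e) {S : Set (HeightOneSpectrum (𝓞 k))} (hSf : S.Finite) {ε : ℝ}
    (hε : 0 < ε) : ∃ y : E, y * st y = 1 ∧ Algebra.norm K y = 1 ∧
      (∀ v ∈ S, nm B (.inl v) (j y ^ e - 1) < ε) ∧
      ∀ φ : k →+* ℝ, φ al < 0 → nm B (.inr φ) (j y ^ e - j x) < ε := by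
  classical
  have hfD := hS.fin
  have hcen := hS.cen
  have hfin : FiniteDimensional K E := Module.Finite.of_restrictScalars_finite ℚ K E
  have hfdk : FiniteDimensional k E := Module.Finite.of_restrictScalars_finite ℚ k E
  have hcharD : CharZero D := charZero_of_injective_algebraMap (algebraMap k D).injective
  have hjinj : Function.Injective j := j.toRingHom.injective
  have hst : ∀ y, st (st y) = y := fun y => hjinj (by rw [hj, hj, star_star])
  have stK : ∀ c : K, st (algebraMap K E c) = algebraMap K E (star c) := fun c => hjinj (by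
    rw [hj, AlgHom.commutes, hS.star_alg, AlgHom.commutes])
  have stk : ∀ c : k, st (algebraMap k E c) = algebraMap k E c := fun c => by
    rw [IsScalarTower.algebraMap_apply k K E, stK, (hS.fix _).mpr ⟨c, rfl⟩]
  have hEst : ∀ {φ : k →+* ℝ} (σ : E →+* ℂ), Em φ σ → Em φ (σ.comp st) := fun σ hσ c => by
    rw [RingHom.comp_apply, stk, hσ]
  -- the logarithms
  have hlog : ∀ φ : k →+* ℝ, ∃ lam : (E →+* ℂ) → ℂ, φ al < 0 → ∀ σ : E →+* ℂ, Em φ σ →
      Complex.exp (lam σ) = σ x ∧ lam (cg σ) = (starRingEnd ℂ) (lam σ) ∧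
      lam (σ.comp st) = -lam σ ∧
      ∑ σ' ∈ Fb (E := E) (σ.comp (algebraMap K E)), lam σ' = 0 := by
    intro φ
    by_cases hφ : φ al < 0
    · obtain ⟨lam, h⟩ := exists_log hS hst stK hi hii hx hN hφ fun hd =>
        exists_compact hS h6 hst stK hi hii hiK hφ hd
      exact ⟨lam, fun _ => h⟩
    · exact ⟨fun _ => 0, fun h => absurd h hφ⟩
  choose lam hlam using hlog
  have he0 : (e : ℂ) ≠ 0 := Nat.cast_ne_zero.mpr he.ne'
  -- the approximation
  obtain ⟨v₀⟩ := nonempty_prime (F := k)
  obtain ⟨w, hw1, hw2⟩ := exists_approx (finBasis k E) {φ : k →+* ℝ | φ al < 0}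
    (hSf.insert v₀) (fun φ σ => Complex.exp (lam φ σ / (12 * e))) (by
      intro φ hφ σ hσ
      rw [(hlam φ hφ σ hσ).2.1, ← Complex.exp_conj, map_div₀, map_mul]
      congr 2
      have h1 : (starRingEnd ℂ) (12 : ℂ) = 12 := map_ofNat _ 12
      have h2 : (starRingEnd ℂ) (e : ℂ) = e := map_natCast _ e
      rw [h1, h2])
  obtain ⟨v, hvd⟩ : ∃ v : ℕ → E, v = fun n => w n * (st (w n))⁻¹ := ⟨_, rfl⟩
  obtain ⟨y, hyd⟩ : ∃ y : ℕ → E, y = fun n => v n ^ 6 *
    (algebraMap K E (Algebra.norm K (v n)))⁻¹ := ⟨_, rfl⟩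
  -- finite places
  have hfinp : ∀ v' ∈ insert v₀ S, Tn B (.inl v') atTop (fun n => j (w n)) (1 : D) ∧
      Tn B (.inl v') atTop (fun n => j (y n ^ e)) (1 : D) := by
    intro v' hv'
    have h1 : Tn B (.inl v') atTop (fun n => j (w n)) (1 : D) := by
      have := tn_of_coord B (j.restrictScalars k) (finBasis k E) (a := (1 : E))
        (fun l => hw2 v' hv' l)
      rwa [map_one] at this
    have h2 : Tn B (.inl v') atTop (fun n => j (v n)) (1 : D) := by
      have h3 := h1.mul ((tn_star hS h1).inv (by rw [star_one]; exact one_ne_zero))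
      rw [star_one, inv_one, mul_one] at h3
      have e1 : (fun n => j (v n)) = fun n => j (w n) * (star (j (w n)))⁻¹ := by
        ext n
        rw [hvd, map_mul, map_inv₀, hj]
      rw [e1]
      exact h3
    have h3 : Tn B (.inl v') atTop (fun n => algebraMap K D (Algebra.norm K (v n))) (1 : D) := by
      have := tn_norm (B := B) (p := .inl v') (F := atTop) j (z := v) (a := (1 : E))
        (by rw [map_one]; exact h2)
      rwa [map_one, map_one] at this
    refine ⟨h1, ?_⟩
    have h4 := One.tn_pow ((One.tn_pow h2 6).mul (h3.inv one_ne_zero)) e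
    rw [one_pow, inv_one, mul_one, one_pow] at h4
    have e1 : (fun n => j (y n ^ e)) = fun n => (j (v n) ^ 6 *
        (algebraMap K D (Algebra.norm K (v n)))⁻¹) ^ e := by
      ext n
      rw [hyd, map_pow, map_mul, map_pow, map_inv₀, AlgHom.commutes]
    rw [e1]
    exact h4
  -- real places
  have hreal : ∀ φ : k →+* ℝ, φ al < 0 → Tn B (.inr φ) atTop (fun n => j (y n ^ e)) (j x) := by
    intro φ hφ
    have hφ' : φ ∈ {φ : k →+* ℝ | φ al < 0} := hφ
    have hv : ∀ σ : E →+* ℂ, Em φ σ → Tendsto (fun n => σ (v n)) atTop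
        (𝓝 (Complex.exp (lam φ σ / (6 * e)))) := by
      intro σ hσ
      have h1 := hw1 φ hφ' σ hσ
      have h2 := hw1 φ hφ' (σ.comp st) (hEst σ hσ)
      rw [(hlam φ hφ σ hσ).2.2.1] at h2
      have h3 := h1.mul (h2.inv₀ (Complex.exp_ne_zero _))
      rw [← Complex.exp_neg, ← Complex.exp_add] at h3
      have e1 : lam φ σ / (12 * e) + -(-lam φ σ / (12 * e)) = lam φ σ / (6 * e) := by
        field_simp
        ring
      rw [e1] at h3
      refine h3.congr fun n => ?_
      rw [hvd, map_mul, map_inv₀, RingHom.comp_apply]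
    have hn : ∀ σ : E →+* ℂ, Em φ σ → Tendsto (fun n =>
        σ (algebraMap K E (Algebra.norm K (v n)))) atTop (𝓝 1) := by
      intro σ hσ
      have h1 : ∀ n, σ (algebraMap K E (Algebra.norm K (v n))) =
          ∏ σ' ∈ Fb (E := E) (σ.comp (algebraMap K E)), σ' (v n) := by
        intro n
        rw [← norm_fb, RingHom.comp_apply]
      simp only [h1]
      have h2 : Tendsto (fun n => ∏ σ' ∈ Fb (E := E) (σ.comp (algebraMap K E)), σ' (v n)) atTop
          (𝓝 (∏ σ' ∈ Fb (E := E) (σ.comp (algebraMap K E)),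
            Complex.exp (lam φ σ' / (6 * e)))) := by
        refine tendsto_finsetProd _ fun σ' hσ' => hv σ' fun c => ?_
        rw [mem_Fb] at hσ'
        rw [IsScalarTower.algebraMap_apply k K E]
        have h3 := RingHom.congr_fun hσ' (algebraMap k K c)
        rw [RingHom.comp_apply, RingHom.comp_apply] at h3
        rw [h3, ← IsScalarTower.algebraMap_apply k K E, hσ]
      rw [← Complex.exp_sum, ← Finset.sum_div, (hlam φ hφ σ hσ).2.2.2, zero_div,
        Complex.exp_zero] at h2
      exact h2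
    have h1 := tn_of_emb B (j.restrictScalars k) φ (F := atTop) (z := fun n => y n ^ e) (a := x)
      (fun σ hσ => by
        have h2 := (((hv σ hσ).pow 6).mul ((hn σ hσ).inv₀ one_ne_zero)).pow e
        rw [inv_one, mul_one, ← Complex.exp_nat_mul, ← Complex.exp_nat_mul] at h2
        have e1 : (e : ℂ) * (((6 : ℕ) : ℂ) * (lam φ σ / (6 * e))) = lam φ σ := by
          push_cast
          field_simp
        rw [e1, (hlam φ hφ σ hσ).1] at h2
        refine h2.congr fun n => ?_
        rw [hyd, map_pow, map_mul, map_pow, map_inv₀])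
    exact h1
  -- a good index
  have hev1 : ∀ᶠ n in atTop, w n ≠ 0 := by
    filter_upwards [((hfinp v₀ (Set.mem_insert _ _)).1).ev_ne (b := (0 : D)) one_ne_zero] with n hn
    intro h
    rw [h, map_zero] at hn
    exact hn rfl
  have hev2 : ∀ᶠ n in atTop, ∀ v' ∈ S, nm B (.inl v') (j (y n ^ e) - 1) < ε := by
    rw [eventually_all_finite hSf]
    exact fun v' hv' => ((hfinp v' (Set.mem_insert_of_mem _ hv')).2).ev_lt hε
  have hev3 : ∀ᶠ n in atTop, ∀ φ : k →+* ℝ, φ al < 0 →
      nm B (.inr φ) (j (y n ^ e) - j x) < ε := by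
    rw [eventually_all]
    intro φ
    by_cases hφ : φ al < 0
    · filter_upwards [(hreal φ hφ).ev_lt hε] with n hn
      exact fun _ => hn
    · exact Eventually.of_forall fun n h => absurd h hφ
  obtain ⟨n, hn1, hn2, hn3⟩ := (hev1.and (hev2.and hev3)).exists
  have hv0 : v n ≠ 0 := by
    rw [hvd]
    refine mul_ne_zero hn1 (inv_ne_zero fun h => hn1 ?_)
    rw [← hst (w n), h, map_zero]
  have hvv : v n * st (v n) = 1 := by
    have h1 : st (w n) ≠ 0 := fun h => hn1 (by rw [← hst (w n), h, map_zero])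
    rw [hvd]
    change w n * (st (w n))⁻¹ * st (w n * (st (w n))⁻¹) = 1
    rw [map_mul, map_inv₀, hst]
    field_simp
  have hnn : Algebra.norm K (v n) * star (Algebra.norm K (v n)) = 1 := by
    rw [← norm_st hS hdeg f h6 j hj, ← map_mul, hvv, map_one]
  have hn0 : Algebra.norm K (v n) ≠ 0 := Algebra.norm_ne_zero_iff.mpr hv0
  refine ⟨y n, ?_, ?_, fun v' hv' => ?_, fun φ hφ => ?_⟩
  · have h1 : algebraMap K E (Algebra.norm K (v n)) * algebraMap K E
        (star (Algebra.norm K (v n))) = 1 := by rw [← map_mul, hnn, map_one]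
    rw [hyd]
    change v n ^ 6 * (algebraMap K E (Algebra.norm K (v n)))⁻¹ *
      st (v n ^ 6 * (algebraMap K E (Algebra.norm K (v n)))⁻¹) = 1
    rw [map_mul, map_pow, map_inv₀, stK]
    calc v n ^ 6 * (algebraMap K E (Algebra.norm K (v n)))⁻¹ *
        (st (v n) ^ 6 * (algebraMap K E (star (Algebra.norm K (v n))))⁻¹)
        = (v n * st (v n)) ^ 6 * (algebraMap K E (Algebra.norm K (v n)) *
          algebraMap K E (star (Algebra.norm K (v n))))⁻¹ := by
          rw [mul_pow, mul_inv]; ring
      _ = 1 := by rw [hvv, h1, one_pow, inv_one, mul_one]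
  · rw [hyd]
    change Algebra.norm K (v n ^ 6 * (algebraMap K E (Algebra.norm K (v n)))⁻¹) = 1
    rw [map_mul, map_pow, ← map_inv₀, Algebra.norm_algebraMap, h6, inv_pow,
      mul_inv_cancel₀ (pow_ne_zero _ hn0)]
  · have := hn2 v' hv'
    rwa [map_pow] at this
  · have := hn3 φ hφ
    rwa [map_pow] at this

end Vale.Agent.P011.Six.H359
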